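import Vale.Agent.P251.S.Tel

/-!
# P251, part X: idempotents split

In a pretriangulated category with coproducts every idempotent `e : X ⟶ X` splits: the retract is
the telescope of `e`.
-/

open CategoryTheory Limits Pretriangulated Preadditive

set_option linter.unusedSectionVars false

universe v u

namespace Vale.Agent.P251.X

open Vale.Agent.P251.S

variable {C : Type u} [Category.{v} C] [Preadditive C] [HasZeroObject C]
    [HasShift C ℤ] [∀ n : ℤ, (shiftFunctor C n).Additive] [Pretriangulated C]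
    [HasCoproducts.{0} C]

theorem clim1_idem {X : C} (e : X ⟶ X) (he : e ≫ e = e) (Z : C) :
    CLim1 (X := fun _ => X) (fun _ => e) Z := by
  intro y
  change ∀ n : ℕ, (X ⟶ Z) at y
  obtain ⟨z, z0, zs⟩ : ∃ z : ℕ → (X ⟶ Z), z 0 = 0 ∧ ∀ n, z (n + 1) = z n - e ≫ y n :=
    ⟨fun n => Nat.rec 0 (fun n w => w - e ≫ y n) n, rfl, fun n => rfl⟩
  have ez : ∀ n, e ≫ z n = z n := by
    intro n
    induction n with
    | zero => rw [z0, comp_zero]
    | succ n ih => rw [zs, comp_sub, ih, reassoc_of% he]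
  refine ⟨fun n => y n - e ≫ y n + z n, ?_⟩
  funext n
  change (y n - e ≫ y n + z n) - e ≫ (y (n + 1) - e ≫ y (n + 1) + z (n + 1)) = y n
  rw [comp_add, comp_sub, reassoc_of% he, sub_self, zero_add, ez (n + 1), zs]
  abel

/-- Idempotents split. -/
theorem exists_split {X : C} (e : X ⟶ X) (he : e ≫ e = e) :
    ∃ (Y : C) (s : Y ⟶ X) (r : X ⟶ Y), s ≫ r = 𝟙 Y ∧ r ≫ s = e := by
  obtain ⟨t⟩ := exists_tel (X := fun _ => X) (fun _ => e)
  have hw : ∀ n, e ≫ t.ι n = t.ι n := by
    intro n
    rw [← t.w n, reassoc_of% he]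
  have h0 : ∀ n, t.ι n = t.ι 0 := by
    intro n
    induction n with
    | zero => rfl
    | succ n ih =>
      have h := t.w n
      rw [hw (n + 1)] at h
      rw [h, ih]
  obtain ⟨s, hs⟩ := t.exists_desc (Z := X) (fun _ => e) (fun _ => he)
  refine ⟨t.obj, s, t.ι 0, ?_, hs 0⟩
  rw [← sub_eq_zero]
  apply t.eq_zero (clim1_idem e he _)
  intro n
  rw [comp_sub, Category.comp_id, reassoc_of% (hs n), h0 n, hw 0, sub_self]

end Vale.Agent.P251.X
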