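import Vale.Agent.P251.X.VDefs

/-!
# P251, part X5a: the external product `π_{2*}(P ⊗ X) × π_{2*}(P ⊗ Y) ⟶ π_{2*}(P ⊗ (X ⊗ Y))`

* `crossG` : the product of homogeneous elements;
* `MP.cross : MP E P X →+ MP E P Y →+ MP E P (X ⊗ Y)`: bilinear over `HRing E P`, natural,
  associative, unital (`MP.one`), commutative.
-/

open CategoryTheory MonoidalCategory Limits MonObj

set_option linter.unusedSectionVars false

universe v u

noncomputable section

namespace Vale.Agent.P251.X

open Vale.Agent.P251.M Vale.Agent.P251.M.EvenSpheres Vale.Agent.P251.S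

variable {T : Type u} [Category.{v} T] [MonoidalCategory T] [SymmetricCategory T]
  {E : EvenSpheres T} {P : T} [MonObj P]

/-! ### Homogeneous elements -/

/-- The external product of homogeneous elements. -/
def crossG {X Y : T} {m n q : ℤ} (h : m + n = q) (a : E.S m ⟶ P ⊗ X) (b : E.S n ⟶ P ⊗ Y) :
    E.S q ⟶ P ⊗ (X ⊗ Y) :=
  E.ext h a b ≫ FM.ten P X Y

theorem crossG_nat {X X' Y Y' : T} {m n q : ℤ} (h : m + n = q) (a : E.S m ⟶ P ⊗ X)
    (b : E.S n ⟶ P ⊗ Y) (f : X ⟶ X') (g : Y ⟶ Y') :
    crossG h a b ≫ P ◁ (f ⊗ₘ g) = crossG h (a ≫ P ◁ f) (b ≫ P ◁ g) := by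
  unfold crossG
  rw [ext_comp, Category.assoc, Category.assoc, FM.ten_naturality]

theorem crossG_assoc {X Y Z : T} {m n p mn np q : ℤ} (h1 : m + n = mn) (h2 : mn + p = q)
    (h3 : n + p = np) (h4 : m + np = q) (a : E.S m ⟶ P ⊗ X) (b : E.S n ⟶ P ⊗ Y)
    (c : E.S p ⟶ P ⊗ Z) :
    crossG h2 (crossG h1 a b) c ≫ P ◁ (α_ X Y Z).hom = crossG h4 a (crossG h3 b c) := by
  unfold crossG
  rw [ext_comp_left, ext_comp_right, Category.assoc, Category.assoc, Category.assoc,
    FM.ten_assoc, ← ext_assoc h1 h2 h3 h4, Category.assoc]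

theorem crossG_comm [IsCommMonObj P] {X Y : T} {m n q : ℤ} (h : m + n = q) (h' : n + m = q)
    (a : E.S m ⟶ P ⊗ X) (b : E.S n ⟶ P ⊗ Y) :
    crossG h a b ≫ P ◁ (β_ X Y).hom = crossG h' b a := by
  unfold crossG
  rw [Category.assoc, FM.ten_braiding, ← Category.assoc, ext_comm h h']

theorem crossG_one {Y : T} {n : ℤ} (h : 0 + n = n) (b : E.S n ⟶ P ⊗ Y) :
    crossG h (E.zero.inv ≫ FM.unit P (𝟙_ T)) b ≫ P ◁ (λ_ Y).hom = b := by
  unfold crossG
  rw [one_ext, Category.assoc, Category.assoc, Category.assoc, FM.unit_ten_left,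
    Iso.inv_hom_id, Category.comp_id]

theorem crossG_one_right {X : T} {n : ℤ} (h : n + 0 = n) (a : E.S n ⟶ P ⊗ X) :
    crossG h a (E.zero.inv ≫ FM.unit P (𝟙_ T)) ≫ P ◁ (ρ_ X).hom = a := by
  unfold crossG
  rw [ext_one, Category.assoc, Category.assoc, Category.assoc, FM.unit_ten_right,
    Iso.inv_hom_id, Category.comp_id]

theorem rightUnitor_inv_ten (X : T) :
    (ρ_ P).inv ▷ (P ⊗ X) ≫ FM.ten P (𝟙_ T) X ≫ P ◁ (λ_ X).hom = (α_ P P X).inv ≫ μ[P] ▷ X := by
  unfold FM.ten
  rw [Category.assoc, ← whisker_exchange]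
  have h : (ρ_ P).inv ▷ (P ⊗ X) ≫ tensorμ P (𝟙_ T) P X ≫ (P ⊗ P) ◁ (λ_ X).hom =
      (α_ P P X).inv := by
    have h2 : P ◁ (ρ_ P).inv ▷ X ≫ P ◁ (α_ P (𝟙_ T) X).hom ≫ P ◁ P ◁ (λ_ X).hom = 𝟙 _ := by
      rw [← whiskerLeft_comp, ← whiskerLeft_comp, triangle, ← comp_whiskerRight,
        Iso.inv_hom_id, id_whiskerRight, whiskerLeft_id]
    simp [tensorμ, braiding_tensorUnit_left]
    rw [reassoc_of% h2]
  rw [reassoc_of% h]

/-- The action in terms of the external product. -/
theorem gsmul_eq_crossG {X : T} {m n q : ℤ} (h : m + n = q) (z : E.S m ⟶ P)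
    (a : E.S n ⟶ P ⊗ X) :
    gsmul (ModStr.free P X) h z a = crossG h (z ≫ (ρ_ P).inv) a ≫ P ◁ (λ_ X).hom := by
  unfold gsmul crossG
  rw [ext_comp_left, Category.assoc, Category.assoc, rightUnitor_inv_ten]
  rfl

theorem crossG_smul_left {X Y : T} {m n p mn np q : ℤ} (h1 : m + n = mn) (h2 : mn + p = q)
    (h3 : n + p = np) (h4 : m + np = q) (z : E.S m ⟶ P) (a : E.S n ⟶ P ⊗ X)
    (b : E.S p ⟶ P ⊗ Y) :
    crossG h2 (gsmul (ModStr.free P X) h1 z a) b =
      gsmul (ModStr.free P (X ⊗ Y)) h4 z (crossG h3 a b) := by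
  rw [gsmul_eq_crossG, gsmul_eq_crossG, ← crossG_assoc h1 h2 h3 h4]
  have e := crossG_nat h2 (crossG h1 (z ≫ (ρ_ P).inv) a) b (λ_ X).hom (𝟙 Y)
  rw [whiskerLeft_id, Category.comp_id, tensorHom_id] at e
  rw [← e, Category.assoc, ← whiskerLeft_comp]
  congr 2
  rw [leftUnitor_tensor_hom, Iso.hom_inv_id_assoc]

theorem crossG_smul_right [IsCommMonObj P] {X Y : T} {m n p mn np q : ℤ} (h1 : m + n = mn)
    (h2 : p + mn = q) (h3 : p + n = np) (h4 : m + np = q) (z : E.S m ⟶ P) (a : E.S p ⟶ P ⊗ X)
    (b : E.S n ⟶ P ⊗ Y) :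
    crossG h2 a (gsmul (ModStr.free P Y) h1 z b) =
      gsmul (ModStr.free P (X ⊗ Y)) h4 z (crossG h3 a b) := by
  rw [← crossG_comm (h := by omega) (h' := h2),
    crossG_smul_left h1 (by omega) (np := np) (by omega) h4, gsmul_eq_crossG, gsmul_eq_crossG,
    ← crossG_comm (h := by omega) (h' := h3) b a]
  have e := crossG_nat h4 (z ≫ (ρ_ P).inv) (crossG (by omega : n + p = np) b a) (𝟙 (𝟙_ T))
    (β_ Y X).hom
  rw [whiskerLeft_id, Category.comp_id, id_tensorHom] at e
  rw [← e, Category.assoc, Category.assoc, ← whiskerLeft_comp, ← whiskerLeft_comp,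
    leftUnitor_naturality]

section add

variable [Preadditive T] [MonoidalPreadditive T]

theorem crossG_add_left {X Y : T} {m n q : ℤ} (h : m + n = q) (a a' : E.S m ⟶ P ⊗ X)
    (b : E.S n ⟶ P ⊗ Y) : crossG h (a + a') b = crossG h a b + crossG h a' b := by
  unfold crossG
  rw [ext_add_left, Preadditive.add_comp]

theorem crossG_add_right {X Y : T} {m n q : ℤ} (h : m + n = q) (a : E.S m ⟶ P ⊗ X)
    (b b' : E.S n ⟶ P ⊗ Y) : crossG h a (b + b') = crossG h a b + crossG h a b' := by
  unfold crossG
  rw [ext_add_right, Preadditive.add_comp]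

theorem crossG_zero_left {X Y : T} {m n q : ℤ} (h : m + n = q)
    (b : E.S n ⟶ P ⊗ Y) : crossG h (0 : E.S m ⟶ P ⊗ X) b = 0 := by
  unfold crossG
  rw [ext_zero_left, zero_comp]

theorem crossG_zero_right {X Y : T} {m n q : ℤ} (h : m + n = q) (a : E.S m ⟶ P ⊗ X) :
    crossG h a (0 : E.S n ⟶ P ⊗ Y) = 0 := by
  unfold crossG
  rw [ext_zero_right, zero_comp]

end add

/-! ### The product on `MP` -/

variable [Preadditive T] [MonoidalPreadditive T]

namespace MP

theorem of_congr {W : T} {i j : ℤ} (h : i = j) (x : E.S i ⟶ P ⊗ W) (y : E.S j ⟶ P ⊗ W)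
    (e : ∀ h' : i = j, (E.castIso i j h').hom ≫ y = x) : of E P W i x = of E P W j y := by
  subst h
  have := e rfl
  rw [castIso_refl, Iso.refl_hom, Category.id_comp] at this
  rw [this]

theorem of_crossG {X Y : T} {m n q q' : ℤ} (h : m + n = q) (h' : m + n = q')
    (a : E.S m ⟶ P ⊗ X) (b : E.S n ⟶ P ⊗ Y) :
    of E P (X ⊗ Y) q (crossG h a b) = of E P (X ⊗ Y) q' (crossG h' a b) := by
  obtain rfl : q = q' := h.symm.trans h'
  rfl

variable (E P) in
/-- **The external product**. -/
def cross (X Y : T) : MP E P X →+ MP E P Y →+ MP E P (X ⊗ Y) :=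
  lift fun m =>
    { toFun := fun a => lift fun n =>
        { toFun := fun b => of E P (X ⊗ Y) (m + n) (crossG rfl a b)
          map_zero' := by rw [crossG_zero_right, map_zero]
          map_add' := fun b b' => by rw [crossG_add_right, map_add] }
      map_zero' := hom_ext fun n b => by
        rw [lift_of, AddMonoidHom.zero_apply]
        change of E P (X ⊗ Y) (m + n) (crossG rfl 0 b) = 0
        rw [crossG_zero_left, map_zero]
      map_add' := fun a a' => hom_ext fun n b => by
        rw [AddMonoidHom.add_apply, lift_of, lift_of, lift_of]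
        change of E P (X ⊗ Y) (m + n) (crossG rfl (a + a') b) =
          of E P (X ⊗ Y) (m + n) (crossG rfl a b) + of E P (X ⊗ Y) (m + n) (crossG rfl a' b)
        rw [crossG_add_left, map_add] }

theorem cross_of {X Y : T} {m n q : ℤ} (h : m + n = q) (a : E.S m ⟶ P ⊗ X)
    (b : E.S n ⟶ P ⊗ Y) :
    cross E P X Y (of E P X m a) (of E P Y n b) = of E P (X ⊗ Y) q (crossG h a b) := by
  subst h
  unfold cross
  rw [lift_of]
  change lift _ (of E P Y n b) = _
  rw [lift_of]
  rfl

/-- an induction principle in two variables -/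
theorem ind₂ {X Y : T} {motive : MP E P X → MP E P Y → Prop} (x : MP E P X) (y : MP E P Y)
    (zl : ∀ y, motive 0 y) (zr : ∀ x, motive x 0)
    (oo : ∀ (m : ℤ) (a : E.S m ⟶ P ⊗ X) (n : ℤ) (b : E.S n ⟶ P ⊗ Y),
      motive (of E P X m a) (of E P Y n b))
    (al : ∀ x x' y, motive x y → motive x' y → motive (x + x') y)
    (ar : ∀ x y y', motive x y → motive x y' → motive x (y + y')) : motive x y := by
  induction x using ind with
  | zero => exact zl y
  | of m a =>
    induction y using ind with
    | zero => exact zr _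
    | of n b => exact oo m a n b
    | add y y' h h' => exact ar _ _ _ h h'
  | add x x' h h' => exact al _ _ _ h h'

theorem cross_smul_left {X Y : T} (z : HRing E P) (x : MP E P X) (y : MP E P Y) :
    cross E P X Y (z • x) y = z • cross E P X Y x y := by
  induction z using DirectSum.induction_on with
  | zero => rw [zero_smul, zero_smul, map_zero, AddMonoidHom.zero_apply]
  | of j z =>
    induction x, y using ind₂ with
    | zl y => rw [smul_zero, map_zero, AddMonoidHom.zero_apply, smul_zero]
    | zr x => rw [map_zero, map_zero, smul_zero]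
    | oo m a n b =>
      change cross E P X Y (HRing.of E P j z • of E P X m a) (of E P Y n b) =
        HRing.of E P j z • _
      rw [smul_of (k := j + m) rfl, cross_of (q := j + m + n) rfl, cross_of (q := m + n) rfl,
        smul_of (k := j + m + n) (by ring), crossG_smul_left (np := m + n) rfl rfl rfl (by ring)]
    | al x x' y h h' =>
      rw [smul_add, map_add, map_add, AddMonoidHom.add_apply, AddMonoidHom.add_apply, h, h',
        smul_add]
    | ar x y y' h h' => rw [map_add, map_add, h, h', smul_add]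
  | add z z' h h' => rw [add_smul, add_smul, map_add, AddMonoidHom.add_apply, h, h']

theorem cross_smul_right [IsCommMonObj P] {X Y : T} (z : HRing E P) (x : MP E P X)
    (y : MP E P Y) : cross E P X Y x (z • y) = z • cross E P X Y x y := by
  induction z using DirectSum.induction_on with
  | zero => rw [zero_smul, zero_smul, map_zero]
  | of j z =>
    induction x, y using ind₂ with
    | zl y => rw [map_zero, AddMonoidHom.zero_apply, AddMonoidHom.zero_apply, smul_zero]
    | zr x => rw [smul_zero, map_zero, smul_zero]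
    | oo m a n b =>
      change cross E P X Y (of E P X m a) (HRing.of E P j z • of E P Y n b) =
        HRing.of E P j z • _
      rw [smul_of (k := j + n) rfl, cross_of (q := j + (m + n)) (by ring),
        cross_of (q := m + n) rfl, smul_of (k := j + (m + n)) rfl,
        crossG_smul_right (np := m + n) rfl (by ring) rfl rfl]
    | al x x' y h h' =>
      rw [map_add, AddMonoidHom.add_apply, AddMonoidHom.add_apply, h, h', smul_add]
    | ar x y y' h h' => rw [smul_add, map_add, map_add, h, h', smul_add]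
  | add z z' h h' => rw [add_smul, add_smul, map_add, h, h']

theorem map_cross {X X' Y Y' : T} (f : X ⟶ X') (g : Y ⟶ Y') (x : MP E P X) (y : MP E P Y) :
    map E P (f ⊗ₘ g) (cross E P X Y x y) = cross E P X' Y' (map E P f x) (map E P g y) := by
  induction x, y using ind₂ with
  | zl y => rw [map_zero, AddMonoidHom.zero_apply, map_zero, map_zero, map_zero,
      AddMonoidHom.zero_apply]
  | zr x => rw [map_zero, map_zero, map_zero, map_zero]
  | oo m a n b =>
    rw [cross_of (q := m + n) rfl, map_of, map_of, map_of, cross_of (q := m + n) rfl, crossG_nat]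
  | al x x' y h h' =>
    rw [_root_.map_add, AddMonoidHom.add_apply, _root_.map_add, h, h', _root_.map_add,
      _root_.map_add, AddMonoidHom.add_apply]
  | ar x y y' h h' =>
    rw [_root_.map_add, _root_.map_add, h, h', _root_.map_add, _root_.map_add]

theorem cross_assoc {X Y Z : T} (x : MP E P X) (y : MP E P Y) (z : MP E P Z) :
    map E P (α_ X Y Z).hom (cross E P (X ⊗ Y) Z (cross E P X Y x y) z) =
      cross E P X (Y ⊗ Z) x (cross E P Y Z y z) := by
  induction z using ind with
  | zero => rw [map_zero, map_zero, map_zero, map_zero]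
  | of p c =>
    induction x, y using ind₂ with
    | zl y => simp only [map_zero, AddMonoidHom.zero_apply]
    | zr x => simp only [map_zero, AddMonoidHom.zero_apply]
    | oo m a n b =>
      rw [cross_of (q := m + n) rfl, cross_of (q := m + n + p) rfl, map_of,
        cross_of (q := n + p) rfl, cross_of (q := m + n + p) (by ring),
        crossG_assoc (np := n + p) rfl rfl rfl (by ring)]
    | al x x' y h h' =>
      simp only [_root_.map_add, AddMonoidHom.add_apply, h, h']
    | ar x y y' h h' =>
      simp only [_root_.map_add, AddMonoidHom.add_apply, h, h']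
  | add z z' h h' => simp only [_root_.map_add, h, h']

theorem cross_comm [IsCommMonObj P] {X Y : T} (x : MP E P X) (y : MP E P Y) :
    map E P (β_ X Y).hom (cross E P X Y x y) = cross E P Y X y x := by
  induction x, y using ind₂ with
  | zl y => simp only [map_zero, AddMonoidHom.zero_apply]
  | zr x => simp only [map_zero, AddMonoidHom.zero_apply]
  | oo m a n b =>
    rw [cross_of (q := m + n) rfl, map_of, cross_of (q := m + n) (by ring),
      crossG_comm (h' := by ring)]
  | al x x' y h h' => simp only [_root_.map_add, AddMonoidHom.add_apply, h, h']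
  | ar x y y' h h' => simp only [_root_.map_add, AddMonoidHom.add_apply, h, h']

variable (E P) in
/-- The unit. -/
def one : MP E P (𝟙_ T) := of E P (𝟙_ T) 0 (E.zero.inv ≫ FM.unit P (𝟙_ T))

theorem one_cross {Y : T} (y : MP E P Y) :
    map E P (λ_ Y).hom (cross E P (𝟙_ T) Y (one E P) y) = y := by
  induction y using ind with
  | zero => rw [map_zero, map_zero]
  | of n b =>
    unfold one
    rw [cross_of (q := n) (zero_add n), map_of, crossG_one]
  | add y y' h h' => rw [_root_.map_add, _root_.map_add, h, h']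

theorem cross_one {X : T} (x : MP E P X) :
    map E P (ρ_ X).hom (cross E P X (𝟙_ T) x (one E P)) = x := by
  induction x using ind with
  | zero => simp only [map_zero, AddMonoidHom.zero_apply]
  | of n a =>
    unfold one
    rw [cross_of (q := n) (add_zero n), map_of, crossG_one_right]
  | add x x' h h' => rw [_root_.map_add, AddMonoidHom.add_apply, _root_.map_add, h, h']

/-- The homogeneous elements of `MP E P 𝟙` are `z • 1`. -/
theorem exists_smul_one (x : MP E P (𝟙_ T)) : ∃ z : HRing E P, x = z • one E P := by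
  induction x using ind with
  | zero => exact ⟨0, (zero_smul _ _).symm⟩
  | of j a =>
    refine ⟨HRing.of E P j (a ≫ (ρ_ P).hom), ?_⟩
    unfold one
    rw [smul_of (k := j) (add_zero j), gsmul_eq_crossG, Category.assoc, Iso.hom_inv_id,
      Category.comp_id, unitors_equal, crossG_one_right]
  | add x x' h h' =>
    obtain ⟨z, rfl⟩ := h
    obtain ⟨z', rfl⟩ := h'
    exact ⟨z + z', (add_smul _ _ _).symm⟩

variable (E P) in
/-- The generator of the homotopy of `P ⊗ S^{2j}`. -/
def gen (j : ℤ) : MP E P (E.S j) := of E P (E.S j) j (FM.unit P (E.S j))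

theorem map_zero_inv_gen : map E P E.zero.inv (gen E P 0) = one E P := by
  unfold gen one
  rw [map_of, FM.unit_naturality]

theorem map_mu_gen {i j l : ℤ} (h : i + j = l) :
    map E P (E.mu i j l h).hom (cross E P (E.S i) (E.S j) (gen E P i) (gen E P j)) =
      gen E P l := by
  unfold gen
  rw [cross_of (q := l) h, map_of]
  congr 1
  unfold crossG EvenSpheres.ext
  rw [Category.assoc, Category.assoc, FM.unit_ten_assoc, ← FM.unit_naturality,
    Iso.inv_hom_id_assoc]

end MP

end Vale.Agent.P251.X
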