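import Vale.Agent.P251.X.VDefs
import Vale.Agent.P251.M.GBasis

/-!
# P251, part X4b: change of the ring in `MP E P W`, and bases

* `MP.push f W : MP E P W →+ MP E P' W` for a morphism of monoids `f : P ⟶ P'`, semilinear;
* `MP.bij_basis` : if `B` has a graded basis `w` over `φ : P ⟶ B`, then every element of `MP E B W`
  is a unique finite sum `∑ w a • push φ (x a)`.
-/

open CategoryTheory MonoidalCategory Limits Pretriangulated MonObj

set_option linter.unusedSectionVars false

universe v u

noncomputable section

namespace Vale.Agent.P251.X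

open Vale.Agent.P251.T Vale.Agent.P251.M Vale.Agent.P251.M.EvenSpheres Vale.Agent.P251.S

namespace MP

section push

variable {T : Type u} [Category.{v} T] [Preadditive T] [MonoidalCategory T]
  [MonoidalPreadditive T] [SymmetricCategory T] {E : EvenSpheres T} {P P' P'' : T} [MonObj P]
  [MonObj P'] [MonObj P'']

/-- change of the ring along `f : P ⟶ P'` -/
def push (E : EvenSpheres T) (f : P ⟶ P') (W : T) : MP E P W →+ MP E P' W :=
  lift fun j =>
    { toFun := fun x => of E P' W j (x ≫ f ▷ W)
      map_zero' := by rw [zero_comp, map_zero]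
      map_add' := fun x y => by rw [Preadditive.add_comp, map_add] }

@[simp] theorem push_of (f : P ⟶ P') {W : T} (j : ℤ) (x : E.S j ⟶ P ⊗ W) :
    push E f W (of E P W j x) = of E P' W j (x ≫ f ▷ W) :=
  lift_of (W := W) (B := MP E P' W) (fun j =>
    { toFun := fun x => of E P' W j (x ≫ f ▷ W)
      map_zero' := by rw [zero_comp, map_zero]
      map_add' := fun x y => by rw [Preadditive.add_comp, map_add] }) j x

theorem push_id (W : T) (x : MP E P W) : push E (𝟙 P) W x = x := by
  induction x using ind with
  | zero => rw [map_zero]
  | of j x => simp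
  | add x y hx hy => rw [map_add, hx, hy]

theorem push_push (f : P ⟶ P') (g : P' ⟶ P'') (W : T) (x : MP E P W) :
    push E g W (push E f W x) = push E (f ≫ g) W x := by
  induction x using ind with
  | zero => rw [map_zero, map_zero, map_zero]
  | of j x => simp
  | add x y hx hy => rw [map_add, map_add, hx, hy, map_add]

theorem map_push (f : P ⟶ P') {W W' : T} (g : W ⟶ W') (x : MP E P W) :
    map E P' g (push E f W x) = push E f W' (map E P g x) := by
  induction x using ind with
  | zero => rw [map_zero, map_zero, map_zero, map_zero]
  | of j x =>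
    rw [push_of, map_of, map_of, push_of, Category.assoc, Category.assoc, whisker_exchange]
  | add x y hx hy => rw [map_add, map_add, hx, hy, map_add, map_add]

theorem free_act_push (f : P ⟶ P') [IsMonHom f] (W : T) :
    (ModStr.free P W).act ≫ f ▷ W = (f ⊗ₘ (f ▷ W)) ≫ (ModStr.free P' W).act := by
  change ((α_ P P W).inv ≫ (μ[P] ▷ W)) ≫ f ▷ W = (f ⊗ₘ (f ▷ W)) ≫ (α_ P' P' W).inv ≫ (μ[P'] ▷ W)
  rw [Category.assoc, ← comp_whiskerRight, IsMonHom.mul_hom, comp_whiskerRight,
    ← tensorHom_id f W, associator_inv_naturality_assoc, tensorHom_id]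

theorem gsmul_push (f : P ⟶ P') [IsMonHom f] {W : T} {i j k : ℤ} (h : i + j = k) (a : E.S i ⟶ P)
    (x : E.S j ⟶ P ⊗ W) : gsmul (ModStr.free P W) h a x ≫ f ▷ W =
      gsmul (ModStr.free P' W) h (a ≫ f) (x ≫ f ▷ W) := by
  unfold gsmul
  rw [ext_comp, Category.assoc, Category.assoc, free_act_push]

theorem push_smul (f : P ⟶ P') [IsMonHom f] {W : T} (a : HRing E P) (x : MP E P W) :
    push E f W (a • x) = HRing.map f a • push E f W x := by
  induction a using DirectSum.induction_on with
  | zero => rw [zero_smul, map_zero, map_zero, zero_smul]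
  | of i a =>
    induction x using ind with
    | zero => rw [smul_zero, map_zero, smul_zero]
    | of j x =>
      change push E f W (HRing.of E P i a • of E P W j x) =
        HRing.map f (HRing.of E P i a) • push E f W (of E P W j x)
      rw [smul_of (k := i + j) rfl, push_of, push_of, HRing.map_of, smul_of (k := i + j) rfl,
        gsmul_push]
    | add x y hx hy => rw [smul_add, map_add, map_add, hx, hy, smul_add]
  | add a b ha hb => rw [add_smul, map_add, ha, hb, map_add, add_smul]

/-- components of a homogeneous multiple -/
theorem comp_of_smul {W : T} {k m n : ℤ} (h : k + m = n) (w : E.S k ⟶ P) (y : MP E P W) :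
    comp E P W n (HRing.of E P k w • y) = gsmul (ModStr.free P W) h w (comp E P W m y) := by
  induction y using ind with
  | zero =>
    rw [smul_zero, map_zero, map_zero]
    unfold gsmul
    rw [ext_zero_right, zero_comp]
  | of i y =>
    rw [smul_of (k := k + i) rfl]
    by_cases hi : i = m
    · subst hi
      subst h
      rw [comp_of_same, comp_of_same]
    · rw [comp_of_ne (fun h' => hi (by omega)), comp_of_ne hi]
      unfold gsmul
      rw [ext_zero_right, zero_comp]
  | add x y hx hy =>
    rw [smul_add, map_add, map_add, hx, hy]
    unfold gsmul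
    rw [ext_add_right, Preadditive.add_comp]

theorem comp_push (f : P ⟶ P') {W : T} (m : ℤ) (y : MP E P W) :
    comp E P' W m (push E f W y) = comp E P W m y ≫ f ▷ W := by
  induction y using ind with
  | zero => rw [map_zero, map_zero, map_zero, zero_comp]
  | of i y =>
    rw [push_of]
    by_cases hi : i = m
    · subst hi
      rw [comp_of_same, comp_of_same]
    · rw [comp_of_ne hi, comp_of_ne hi, zero_comp]
  | add x y hx hy => rw [map_add, map_add, map_add, hx, hy, Preadditive.add_comp]

theorem ext_comp {W : T} {x y : MP E P W} (h : ∀ m, comp E P W m x = comp E P W m y) : x = y :=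
  DFinsupp.ext h

end push

section basis

variable {T : Type u} [Category.{v} T] [Preadditive T] [HasZeroObject T]
    [HasShift T ℤ] [∀ n : ℤ, (shiftFunctor T n).Additive] [Pretriangulated T] [IsTriangulated T]
    [MonoidalCategory T] [SymmetricCategory T] [TensorTriangulated T] [MonoidalClosed T]
    [HasCoproducts.{0} T] [HasProducts.{0} T] [StableCat T] {E : EvenSpheres T}
    {P B : T} [MonObj P] [MonObj B] [IsCommMonObj B] {φ : P ⟶ B} {J : Type}

/-- **Elements of `MP E B W` are unique sums `∑ w a • φ (x a)`.** -/
theorem bij_basis (b : GBasis E φ J) (hS : ∀ n, IsSphere (E.S n)) (W : T) :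
    Function.Bijective fun x : J →₀ MP E P W =>
      x.sum fun a m => HRing.of E B (b.k a) (b.w a) • push E φ W m := by
  classical
  constructor
  · have hinj : ∀ x : J →₀ MP E P W, (x.sum fun a m => HRing.of E B (b.k a) (b.w a) •
        push E φ W m) = 0 → x = 0 := by
      intro x hx
      ext1 a
      rw [Finsupp.zero_apply]
      by_cases ha : a ∈ x.support
      · refine ext_comp fun m => ?_
        rw [map_zero]
        have h1 := congrArg (comp E B W (b.k a + m)) hx
        rw [Finsupp.sum, map_sum, map_zero] at h1
        have h2 := b.expansion_unique W (b.k a + m) x.support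
          (fun j => comp E P W (b.k a + m - b.k j) (x j)) (by
            rw [← h1]
            refine Finset.sum_congr rfl fun j _ => ?_
            rw [comp_of_smul (add_sub_cancel (b.k j) (b.k a + m)), comp_push]
            rfl) a ha
        rwa [add_sub_cancel_left] at h2
      · exact Finsupp.notMem_support_iff.1 ha
    intro x y hxy
    rw [← sub_eq_zero]
    apply hinj
    rw [Finsupp.sum_sub_index (by
      intro a m m'
      rw [map_sub, smul_sub])]
    rw [sub_eq_zero]
    exact hxy
  · have hadd : ∀ x y : J →₀ MP E P W, ((x + y).sum fun a m => HRing.of E B (b.k a) (b.w a) •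
        push E φ W m) = (x.sum fun a m => HRing.of E B (b.k a) (b.w a) • push E φ W m) +
          y.sum fun a m => HRing.of E B (b.k a) (b.w a) • push E φ W m := fun x y =>
      Finsupp.sum_add_index' (fun a => by rw [map_zero, smul_zero])
        (fun a m m' => by rw [map_add, smul_add])
    intro y
    induction y using ind with
    | zero => exact ⟨0, Finsupp.sum_zero_index⟩
    | of n f =>
      obtain ⟨t, x, hx⟩ := b.exists_expansion W n (hS n) f
      refine ⟨Finsupp.onFinset t (fun j => if j ∈ t then of E P W (n - b.k j) (x j) else 0) (by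
        intro a ha
        by_contra h1
        exact ha (if_neg h1)), ?_⟩
      dsimp only
      rw [Finsupp.onFinset_sum _ (fun a => by rw [map_zero, smul_zero]), hx, map_sum]
      refine Finset.sum_congr rfl fun j hj => ?_
      rw [if_pos hj, push_of, smul_of (add_sub_cancel (b.k j) n)]
      rfl
    | add x y hx hy =>
      obtain ⟨x', hx'⟩ := hx
      obtain ⟨y', hy'⟩ := hy
      exact ⟨x' + y', by
        dsimp only at hx' hy' ⊢
        rw [hadd, hx', hy']⟩

end basis

end MP

end Vale.Agent.P251.X
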