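import Vale.Agent.P251.M.EvenRing
import Mathlib.RingTheory.Ideal.Maps
import Mathlib.RingTheory.Ideal.Operations

/-!
# P251, part X: periodic projections of the homotopy modules

`prC N c : HMod E X →+ HMod E X` is the projection to the components of degree `d ≡ c` modulo `N`.
-/

open CategoryTheory MonoidalCategory MonObj

universe v u

noncomputable section

namespace Vale.Agent.P251.X

open Vale.Agent.P251.S (ModStr)
open Vale.Agent.P251.M Vale.Agent.P251.M.EvenSpheres

set_option linter.unusedSectionVars false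

variable {T : Type u} [Category.{v} T] [MonoidalCategory T] [SymmetricCategory T]
  [Preadditive T] {E : EvenSpheres T}

/-- The projection to the components of degree congruent to `c` modulo `N`. -/
def prC (N : ℕ) (c : ℤ) (X : T) : HMod E X →+ HMod E X :=
  DirectSum.toAddMonoid fun d => if (N : ℤ) ∣ d - c then DirectSum.of (E.Gr X) d else 0

theorem prC_of (N : ℕ) (c : ℤ) {X : T} (d : ℤ) (x : E.S d ⟶ X) :
    prC N c X (DirectSum.of (E.Gr X) d x) =
      if (N : ℤ) ∣ d - c then DirectSum.of (E.Gr X) d x else 0 := by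
  unfold prC
  rw [DirectSum.toAddMonoid_of]
  split_ifs <;> rfl

theorem prC_of_dvd {N : ℕ} {c : ℤ} {X : T} {d : ℤ} (h : (N : ℤ) ∣ d - c) (x : E.S d ⟶ X) :
    prC N c X (DirectSum.of (E.Gr X) d x) = DirectSum.of (E.Gr X) d x := by
  rw [prC_of, if_pos h]

theorem prC_of_not {N : ℕ} {c : ℤ} {X : T} {d : ℤ} (h : ¬ (N : ℤ) ∣ d - c) (x : E.S d ⟶ X) :
    prC N c X (DirectSum.of (E.Gr X) d x) = 0 := by
  rw [prC_of, if_neg h]

variable [MonoidalPreadditive T]

theorem prC_smul_of {R X : T} [MonObj R] (M : ModStr R X) (N : ℕ) (c : ℤ) (z : HRing E R) (d : ℤ)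
    (x : E.S d ⟶ X) :
    letI := hModule (E := E) M
    prC N c X (z • (DirectSum.of (E.Gr X) d x : HMod E X)) =
      (prC N (c - d) R z : HRing E R) • (DirectSum.of (E.Gr X) d x : HMod E X) := by
  let _ := hModule (E := E) M
  induction z using DirectSum.induction_on with
  | zero =>
    rw [map_zero]
    exact (congrArg _ (zero_smul (HRing E R) (DirectSum.of (E.Gr X) d x : HMod E X))).trans
      ((map_zero _).trans (zero_smul (HRing E R) _).symm)
  | of j a =>
    rw [prC_of]
    have h := of_smul_of (E := E) M (m := j) (n := d) rfl a x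
    refine (congrArg (prC N c X) h).trans ?_
    rw [prC_of]
    have e : (N : ℤ) ∣ j + d - c ↔ (N : ℤ) ∣ j - (c - d) := by
      rw [show j + d - c = j - (c - d) by ring]
    by_cases h' : (N : ℤ) ∣ j - (c - d)
    · rw [if_pos h', if_pos (e.2 h')]
      exact h.symm
    · rw [if_neg h', if_neg (fun h'' => h' (e.1 h''))]
      exact (zero_smul (HRing E R) _).symm
  | add z z' hz hz' =>
    rw [map_add]
    refine (congrArg (prC N c X) (add_smul z z' _)).trans ?_
    rw [map_add]
    exact (congrArg₂ (· + ·) hz hz').trans (add_smul (R := HRing E R) _ _ _).symm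

theorem map_prC {R : T} [MonObj R] [IsCommMonObj R] {B : Type*} [CommRing B] (χ : HRing E R →+* B)
    (N : ℕ) (hχ : ∀ (j : ℤ) (a : E.S j ⟶ R), ¬ (N : ℤ) ∣ j → χ (HRing.of E R j a) = 0) (c : ℤ)
    (z : HRing E R) : χ (prC N c R z) = if (N : ℤ) ∣ c then χ z else 0 := by
  induction z using DirectSum.induction_on with
  | zero => simp only [map_zero, ite_self]
  | of j a =>
    rw [prC_of]
    by_cases hj : (N : ℤ) ∣ j
    · have e : (N : ℤ) ∣ j - c ↔ (N : ℤ) ∣ c := by
        constructor
        · intro h
          have := dvd_sub hj h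
          rwa [sub_sub_cancel] at this
        · intro h
          exact dvd_sub hj h
      simp only [e]
      split_ifs
      · rfl
      · exact map_zero _
    · rw [hχ j a hj, ite_self]
      split_ifs
      · exact hχ j a hj
      · exact map_zero _
  | add z z' hz hz' =>
    rw [map_add, map_add, hz, hz']
    split_ifs
    · rw [map_add]
    · rw [add_zero]

theorem map_prC_eq_zero {R : T} [MonObj R] [IsCommMonObj R] {B : Type*} [CommRing B]
    (χ : HRing E R →+* B)
    (N : ℕ) (hχ : ∀ (j : ℤ) (a : E.S j ⟶ R), ¬ (N : ℤ) ∣ j → χ (HRing.of E R j a) = 0) (c : ℤ)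
    {z : HRing E R} (hz : χ z = 0) : χ (prC N c R z) = 0 := by
  rw [map_prC χ N hχ, hz, ite_self]

/-- The projections preserve `ker χ • M`. -/
theorem prC_mem {R X : T} [MonObj R] [IsCommMonObj R] (M : ModStr R X) {B : Type*} [CommRing B]
    (χ : HRing E R →+* B)
    (N : ℕ) (hχ : ∀ (j : ℤ) (a : E.S j ⟶ R), ¬ (N : ℤ) ∣ j → χ (HRing.of E R j a) = 0) (c : ℤ)
    (x : HMod E X) :
    letI := hModule (E := E) M
    x ∈ (RingHom.ker χ • ⊤ : Submodule (HRing E R) (HMod E X)) →
      prC N c X x ∈ (RingHom.ker χ • ⊤ : Submodule (HRing E R) (HMod E X)) := by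
  let _ := hModule (E := E) M
  intro hx
  refine Submodule.smul_induction_on (p := fun x => prC N c X x ∈
    (RingHom.ker χ • ⊤ : Submodule (HRing E R) (HMod E X))) hx ?_ ?_
  · intro z hz y _
    induction y using DirectSum.induction_on with
    | zero =>
      have e : z • (0 : HMod E X) = 0 := smul_zero z
      change prC N c X (z • (0 : HMod E X)) ∈ _
      rw [e, map_zero]
      exact Submodule.zero_mem _
    | of d y =>
      have e := prC_smul_of M N c z d y
      refine (congrArg (· ∈ (RingHom.ker χ • ⊤ : Submodule (HRing E R) (HMod E X))) e).mpr ?_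
      exact Submodule.smul_mem_smul (RingHom.mem_ker.2 (map_prC_eq_zero χ N hχ (c - d)
        (RingHom.mem_ker.1 hz))) Submodule.mem_top
    | add y y' h h' =>
      have e : z • (y + y' : HMod E X) = z • y + z • y' := smul_add z y y'
      change prC N c X (z • (y + y' : HMod E X)) ∈ _
      rw [e, map_add]
      exact Submodule.add_mem _ (h Submodule.mem_top) (h' Submodule.mem_top)
  · intro x y hx hy
    rw [map_add]
    exact Submodule.add_mem _ hx hy

end Vale.Agent.P251.X
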