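import Vale.Agent.P251.X.HomV
import Vale.Agent.P251.X.PrC
import Vale.Agent.P251.X.CrossM

/-!
# P251, part X5c: the grading of `V_tot` by `ZMod N`

* `Vtot.H c i X` : the classes of degree `i`; `Vtot.pr c X` : the projector to the degrees
  divisible by `N`, `Vtot.pr_mk : pr (mk x) = mk (prC N 0 x)`.
-/

open CategoryTheory MonoidalCategory Limits MonObj

set_option linter.unusedSectionVars false

universe v u

noncomputable section

namespace Vale.Agent.P251.X

open Vale.Agent.P251.M Vale.Agent.P251.M.EvenSpheres Vale.Agent.P251.S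

variable {T : Type u} [Category.{v} T] [Preadditive T] [MonoidalCategory T]
  [MonoidalPreadditive T] [SymmetricCategory T] {E : EvenSpheres T} {P : T} [MonObj P]
  {p N : ℕ}

/-- The projection `prC` on `MP`. -/
def MP.prC (N : ℕ) (a : ℤ) (W : T) : MP E P W →+ MP E P W :=
  Vale.Agent.P251.X.prC N a (P ⊗ W)

theorem MP.prC_eq (N : ℕ) (a : ℤ) {W : T} (x : MP E P W) :
    MP.prC N a W x = (Vale.Agent.P251.X.prC N a (P ⊗ W) x : HMod E (P ⊗ W)) := rfl

theorem MP.prC_of_dvd {N : ℕ} {a : ℤ} {W : T} {d : ℤ} (h : (N : ℤ) ∣ d - a)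
    (x : E.S d ⟶ P ⊗ W) : MP.prC N a W (MP.of E P W d x) = MP.of E P W d x :=
  Vale.Agent.P251.X.prC_of_dvd h x

theorem MP.prC_of_not {N : ℕ} {a : ℤ} {W : T} {d : ℤ} (h : ¬ (N : ℤ) ∣ d - a)
    (x : E.S d ⟶ P ⊗ W) : MP.prC N a W (MP.of E P W d x) = 0 :=
  Vale.Agent.P251.X.prC_of_not h x

theorem MP.prC_mem [IsCommMonObj P] (c : Pt E P p N) (a : ℤ) {W : T} (x : MP E P W)
    (hx : x ∈ c.I • (⊤ : Submodule (HRing E P) (MP E P W))) :
    MP.prC N a W x ∈ c.I • (⊤ : Submodule (HRing E P) (MP E P W)) :=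
  Vale.Agent.P251.X.prC_mem (ModStr.free P W) c.χ N (fun j z hj => c.χ_of j hj z) a x hx

namespace Vtot

variable (c : Pt E P p N)

/-- The classes of degree `i`. -/
def H (i : ZMod N) (X : T) : Submodule (ZMod p) (Vtot c X) :=
  Submodule.span (ZMod p)
    {y | ∃ (d : ℤ) (x : E.S d ⟶ P ⊗ X), (d : ZMod N) = i ∧ y = mk c X (MP.of E P X d x)}

variable {c}

theorem mk_of_mem (d : ℤ) {i : ZMod N} (hd : (d : ZMod N) = i) {X : T} (x : E.S d ⟶ P ⊗ X) :
    mk c X (MP.of E P X d x) ∈ H c i X :=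
  Submodule.subset_span ⟨d, x, hd, rfl⟩

theorem H_induction {i : ZMod N} {X : T} {motive : Vtot c X → Prop} {y : Vtot c X}
    (hy : y ∈ H c i X)
    (of : ∀ (d : ℤ) (x : E.S d ⟶ P ⊗ X), (d : ZMod N) = i →
      motive (mk c X (MP.of E P X d x)))
    (zero : motive 0) (add : ∀ y y', motive y → motive y' → motive (y + y'))
    (smul : ∀ (a : ZMod p) y, motive y → motive (a • y)) : motive y := by
  refine Submodule.span_induction (p := fun y _ => motive y) ?_ zero
    (fun y y' _ _ h h' => add y y' h h') (fun a y _ h => smul a y h) hy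
  rintro _ ⟨d, x, hd, rfl⟩
  exact of d x hd

theorem iSup_H (X : T) : ⨆ i, H c i X = ⊤ := by
  rw [eq_top_iff]
  rintro y -
  induction y using ind with
  | h y =>
    induction y using MP.ind with
    | zero =>
      rw [map_zero]
      exact Submodule.zero_mem _
    | of d x => exact Submodule.mem_iSup_of_mem (d : ZMod N) (mk_of_mem d rfl x)
    | add y y' h h' =>
      rw [_root_.map_add]
      exact Submodule.add_mem _ h h'

theorem map_mem_H {i : ZMod N} {X Y : T} (f : X ⟶ Y) {y : Vtot c X} (hy : y ∈ H c i X) :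
    map c f y ∈ H c i Y := by
  refine H_induction (motive := fun y => map c f y ∈ H c i Y) hy ?_ ?_ ?_ ?_
  · intro d x hd
    rw [map_mk, MP.map_of]
    exact mk_of_mem d hd _
  · rw [map_zero]
    exact Submodule.zero_mem _
  · intro y y' h h'
    rw [_root_.map_add]
    exact Submodule.add_mem _ h h'
  · intro a y h
    rw [map_smul]
    exact Submodule.smul_mem _ a h

theorem mk_cross_mem {i j : ZMod N} {X Y : T}
    (m : Vtot c X →ₗ[ZMod p] Vtot c Y →ₗ[ZMod p] Vtot c (X ⊗ Y))
    (hm : ∀ x y, m (mk c X x) (mk c Y y) = mk c (X ⊗ Y) (MP.cross E P X Y x y))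
    {x : Vtot c X} {y : Vtot c Y} (hx : x ∈ H c i X) (hy : y ∈ H c j Y) :
    m x y ∈ H c (i + j) (X ⊗ Y) := by
  refine H_induction (motive := fun x => m x y ∈ H c (i + j) (X ⊗ Y)) hx ?_ ?_ ?_ ?_
  · intro d x hd
    refine H_induction (motive := fun y => m (mk c X (MP.of E P X d x)) y ∈ H c (i + j) (X ⊗ Y))
      hy ?_ ?_ ?_ ?_
    · intro d' y hd'
      rw [hm, MP.cross_of (q := d + d') rfl]
      refine mk_of_mem (d + d') ?_ _
      rw [Int.cast_add, hd, hd']
    · rw [map_zero]
      exact Submodule.zero_mem _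
    · intro y y' h h'
      rw [_root_.map_add]
      exact Submodule.add_mem _ h h'
    · intro a y h
      rw [map_smul]
      exact Submodule.smul_mem _ a h
  · rw [map_zero, LinearMap.zero_apply]
    exact Submodule.zero_mem _
  · intro x x' h h'
    rw [_root_.map_add, LinearMap.add_apply]
    exact Submodule.add_mem _ h h'
  · intro a x h
    rw [map_smul, LinearMap.smul_apply]
    exact Submodule.smul_mem _ a h

theorem mk_one_mem : mk c (𝟙_ T) (MP.one E P) ∈ H c 0 (𝟙_ T) :=
  mk_of_mem 0 Int.cast_zero _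

theorem mk_gen_mem (j : ℤ) : mk c (E.S j) (MP.gen E P j) ∈ H c (j : ZMod N) (E.S j) :=
  mk_of_mem j rfl _

variable [IsCommMonObj P]

variable (c) in
/-- The projector to the degrees divisible by `N`. -/
def pr (X : T) : Vtot c X →ₗ[ZMod p] Vtot c X :=
  AddMonoidHom.toZModLinearMap p
    (desc ((mk c X).comp (MP.prC N 0 X)) fun x hx => by
      rw [AddMonoidHom.comp_apply, mk_eq_zero]
      exact MP.prC_mem c 0 x hx)

@[simp] theorem pr_mk (X : T) (x : MP E P X) :
    pr c X (mk c X x) = mk c X (MP.prC N 0 X x) := rfl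

theorem pr_mk' (X : T) (x : MP E P X) :
    pr c X (mk c X x) = mk c X (Vale.Agent.P251.X.prC N 0 (P ⊗ X) x : HMod E (P ⊗ X)) := rfl

theorem pr_of_mem_zero {X : T} {x : Vtot c X} (hx : x ∈ H c 0 X) : pr c X x = x := by
  refine H_induction (motive := fun x => pr c X x = x) hx ?_ ?_ ?_ ?_
  · intro d x hd
    rw [pr_mk, MP.prC_of_dvd]
    rw [sub_zero]
    exact (ZMod.intCast_zmod_eq_zero_iff_dvd d N).1 hd
  · rw [map_zero]
  · intro y y' h h'
    rw [_root_.map_add, h, h']
  · intro a y h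
    rw [map_smul, h]

theorem pr_of_mem_ne {X : T} {i : ZMod N} (hi : i ≠ 0) {x : Vtot c X} (hx : x ∈ H c i X) :
    pr c X x = 0 := by
  refine H_induction (motive := fun x => pr c X x = 0) hx ?_ ?_ ?_ ?_
  · intro d x hd
    rw [pr_mk, MP.prC_of_not, map_zero]
    rw [sub_zero]
    intro h
    exact hi (hd.symm.trans ((ZMod.intCast_zmod_eq_zero_iff_dvd d N).2 h))
  · rw [map_zero]
  · intro y y' h h'
    rw [_root_.map_add, h, h', add_zero]
  · intro a y h
    rw [map_smul, h, smul_zero]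

end Vtot

end Vale.Agent.P251.X
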