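import Vale.Agent.P251.X.RepMon
import Vale.Agent.P251.H.BrownApp
import Mathlib.LinearAlgebra.DirectSum.TensorProduct
import Mathlib.LinearAlgebra.Basis.VectorSpace
import Mathlib.Algebra.Module.Projective

/-!
# P251, part X: commutative monoids from homology theories with values in vector spaces

`HomTh k C`: a homology theory `V` with values in `k`-vector spaces;
`OpTh k T`: such a theory on a tensor triangulated category with an oplax symmetric monoidal
structure `r : V(X ⊗ Y) → V X ⊗ V Y`. Then there is a commutative monoid `K` with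
`Hom(W, K) = Hom_k(V W, k)`.
-/

open CategoryTheory MonoidalCategory Limits Pretriangulated MonObj
open scoped TensorProduct DirectSum

universe w v u

noncomputable section

namespace Vale.Agent.P251.X

open Vale.Agent.P251.H Vale.Agent.P251.T

set_option linter.unusedSectionVars false

section hom

variable (k : Type) [Field k] (C : Type u) [Category.{v} C] [Preadditive C] [HasZeroObject C]
  [HasShift C ℤ] [∀ n : ℤ, (shiftFunctor C n).Additive] [Pretriangulated C] [HasCoproducts.{0} C]

/-- A homology theory with values in `k`-vector spaces. -/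
structure HomTh where
  /-- the values -/
  V : C → Type w
  [grp : ∀ X, AddCommGroup (V X)]
  [mod : ∀ X, Module k (V X)]
  /-- functoriality -/
  map : ∀ {X Y : C}, (X ⟶ Y) → V X →ₗ[k] V Y
  map_id : ∀ X : C, map (𝟙 X) = LinearMap.id
  map_comp : ∀ {X Y Z : C} (f : X ⟶ Y) (g : Y ⟶ Z), map (f ≫ g) = (map g).comp (map f)
  map_add : ∀ {X Y : C} (f g : X ⟶ Y), map (f + g) = map f + map g
  exact : ∀ {X Y Z : C} {f : X ⟶ Y} {g : Y ⟶ Z} {h : Z ⟶ X⟦(1 : ℤ)⟧}, Dist f g h →
    ∀ y : V Y, map g y = 0 → ∃ x : V X, map f x = y
  coprod : ∀ {I : Type} [DecidableEq I] (X : I → C),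
    Function.Bijective (DirectSum.toModule k I (V (∐ X)) fun i => map (Sigma.ι X i))

attribute [instance] HomTh.grp HomTh.mod

variable {k C}

namespace HomTh

variable (F : HomTh.{w} k C)

theorem exists_extend {A B D : Type w} [AddCommGroup A] [Module k A] [AddCommGroup B] [Module k B]
    [AddCommGroup D] [Module k D] (f : A →ₗ[k] B) (g : B →ₗ[k] D)
    (h : ∀ y, g y = 0 → ∃ x, f x = y) (φ : Module.Dual k B) (hφ : φ.comp f = 0) :
    ∃ ψ : Module.Dual k D, ψ.comp g = φ := by
  have h1 : LinearMap.ker g ≤ LinearMap.ker φ := by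
    intro y hy
    obtain ⟨x, rfl⟩ := h y hy
    exact DFunLike.congr_fun hφ x
  obtain ⟨s, hs⟩ := (LinearMap.rangeRestrict g).exists_rightInverse_of_surjective
    (LinearMap.range_rangeRestrict g)
  obtain ⟨p, hp⟩ := (LinearMap.range g).subtype.exists_leftInverse_of_injective
    (Submodule.ker_subtype _)
  refine ⟨φ.comp (s.comp p), ?_⟩
  apply LinearMap.ext
  intro y
  have h2 : p (g y) = LinearMap.rangeRestrict g y :=
    DFunLike.congr_fun hp (LinearMap.rangeRestrict g y)
  have h3 : g (s (LinearMap.rangeRestrict g y)) = g y :=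
    congrArg Subtype.val (DFunLike.congr_fun hs (LinearMap.rangeRestrict g y))
  have h4 : s (LinearMap.rangeRestrict g y) - y ∈ LinearMap.ker φ :=
    h1 (by rw [LinearMap.mem_ker, map_sub, h3, sub_self])
  rw [LinearMap.mem_ker, map_sub, sub_eq_zero] at h4
  change φ (s (p (g y))) = φ y
  rw [h2, h4]

/-- The dual cohomology theory. -/
def coh : Coh.{w} C where
  obj X := Module.Dual k (F.V X)
  res f φ := φ.comp (F.map f)
  res_id {X} φ := by rw [F.map_id, LinearMap.comp_id]
  res_comp f g φ := by rw [F.map_comp, LinearMap.comp_assoc]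
  res_add f φ ψ := LinearMap.add_comp _ _ _
  add_res f g φ := by rw [F.map_add, LinearMap.comp_add]
  exact {X Y Z f g h} D φ hφ := exists_extend (F.map f) (F.map g) (F.exact D) φ hφ
  prod {I} X := by
    classical
    have hb := F.coprod X
    constructor
    · intro φ ψ h
      have h1 : φ.comp (DirectSum.toModule k I (F.V (∐ X)) fun i => F.map (Sigma.ι X i)) =
          ψ.comp (DirectSum.toModule k I (F.V (∐ X)) fun i => F.map (Sigma.ι X i)) := by
        apply DirectSum.linearMap_ext
        intro i
        have h2 := congrFun h i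
        apply LinearMap.ext
        intro x
        have h3 := DFunLike.congr_fun h2 x
        simp only [LinearMap.comp_apply, DirectSum.toModule_lof] at h3 ⊢
        exact h3
      apply LinearMap.ext
      intro y
      obtain ⟨x, rfl⟩ := hb.2 y
      exact DFunLike.congr_fun h1 x
    · intro φ
      refine ⟨(DirectSum.toModule k I k φ).comp (LinearEquiv.ofBijective _ hb).symm.toLinearMap,
        funext fun i => ?_⟩
      apply LinearMap.ext
      intro x
      have h1 : (LinearEquiv.ofBijective _ hb).symm (F.map (Sigma.ι X i) x) =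
          DirectSum.lof k I (fun i => F.V (X i)) i x := by
        rw [LinearEquiv.symm_apply_eq, LinearEquiv.ofBijective_apply, DirectSum.toModule_lof]
      change (DirectSum.toModule k I k φ) ((LinearEquiv.ofBijective _ hb).symm
        (F.map (Sigma.ι X i) x)) = φ i x
      rw [h1, DirectSum.toModule_lof]

/-- Representability. -/
theorem exists_rep [LocallySmall.{0} C] {G : C} (hc : IsCpt G) (hg : IsGen G)
    (hF : ∀ n : ℤ, Small.{0} (F.V (G⟦n⟧))) :
    ∃ (K : C) (u : Module.Dual k (F.V K)), ∀ X : C,
      Function.Bijective fun f : X ⟶ K => u.comp (F.map f) := by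
  obtain ⟨K, u, h⟩ := brown_cpt hc hg F.coh (fun n => by
    have := hF n
    change Small.{0} (Module.Dual k (F.V (G⟦n⟧)))
    exact small_of_injective (β := F.V (G⟦n⟧) → k)
      (f := fun φ : Module.Dual k (F.V (G⟦n⟧)) => (φ : F.V (G⟦n⟧) → k)) DFunLike.coe_injective)
  exact ⟨K, u, h⟩

end HomTh

end hom

/-! ### Oplax symmetric monoidal theories -/

section op

variable (k : Type) [Field k] (T : Type u) [Category.{v} T] [Preadditive T] [HasZeroObject T]
  [HasShift T ℤ] [∀ n : ℤ, (shiftFunctor T n).Additive] [Pretriangulated T] [HasCoproducts.{0} T]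
  [MonoidalCategory T] [SymmetricCategory T]

/-- A homology theory with an oplax symmetric monoidal structure. -/
structure OpTh extends HomTh.{w} k T where
  /-- the comparison with the tensor product -/
  r (X Y : T) : V (X ⊗ Y) →ₗ[k] V X ⊗[k] V Y
  /-- the counit -/
  c : V (𝟙_ T) →ₗ[k] k
  r_nat {X X' Y Y' : T} (f : X ⟶ X') (g : Y ⟶ Y') (x : V (X ⊗ Y)) :
    r X' Y' (map (f ⊗ₘ g) x) = TensorProduct.map (map f) (map g) (r X Y x)
  r_assoc (X Y Z : T) (x : V ((X ⊗ Y) ⊗ Z)) :
    TensorProduct.assoc k (V X) (V Y) (V Z)
      (TensorProduct.map (r X Y) LinearMap.id (r (X ⊗ Y) Z x)) =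
      TensorProduct.map LinearMap.id (r Y Z) (r X (Y ⊗ Z) (map (α_ X Y Z).hom x))
  r_unit (X : T) (x : V (𝟙_ T ⊗ X)) :
    TensorProduct.lid k (V X) (TensorProduct.map c LinearMap.id (r (𝟙_ T) X x)) =
      map (λ_ X).hom x
  r_comm (X Y : T) (x : V (X ⊗ Y)) :
    r Y X (map (β_ X Y).hom x) = TensorProduct.comm k (V X) (V Y) (r X Y x)

variable {k T}

namespace OpTh

variable (F : OpTh.{w} k T)

/-- The external product of functionals. -/
def crossD {X Y : T} (φ : Module.Dual k (F.V X)) (ψ : Module.Dual k (F.V Y)) :
    Module.Dual k (F.V (X ⊗ Y)) :=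
  (TensorProduct.lid k k).toLinearMap.comp ((TensorProduct.map φ ψ).comp (F.r X Y))

theorem crossD_apply {X Y : T} (φ : Module.Dual k (F.V X)) (ψ : Module.Dual k (F.V Y))
    (x : F.V (X ⊗ Y)) :
    F.crossD φ ψ x = TensorProduct.lid k k (TensorProduct.map φ ψ (F.r X Y x)) := rfl

/-- The presheaf of functionals. -/
def pre : LaxPre.{w} T where
  D X := Module.Dual k (F.V X)
  pull f φ := φ.comp (F.map f)
  pull_id φ := by rw [F.map_id, LinearMap.comp_id]
  pull_comp f g φ := by rw [F.map_comp, LinearMap.comp_assoc]
  cross φ ψ := F.crossD φ ψ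
  one := F.c
  cross_pull {X X' Y Y'} f g φ ψ := by
    apply LinearMap.ext
    intro x
    rw [LinearMap.comp_apply, crossD_apply, crossD_apply, F.r_nat, TensorProduct.map_comp,
      LinearMap.comp_apply]
  cross_assoc {X Y Z} φ ψ χ := by
    apply LinearMap.ext
    intro x
    have key : ∀ y : F.V (X ⊗ Y) ⊗[k] F.V Z,
        TensorProduct.lid k k (TensorProduct.map (F.crossD φ ψ) χ y) =
          TensorProduct.lid k k (TensorProduct.map φ
            ((TensorProduct.lid k k).toLinearMap.comp (TensorProduct.map ψ χ))
            (TensorProduct.assoc k (F.V X) (F.V Y) (F.V Z)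
              (TensorProduct.map (F.r X Y) LinearMap.id y))) := by
      intro y
      induction y using TensorProduct.induction_on with
      | zero => simp
      | add y y' h h' => simp only [map_add, h, h']
      | tmul a b =>
        rw [TensorProduct.map_tmul, TensorProduct.map_tmul, crossD_apply]
        generalize F.r X Y a = z
        induction z using TensorProduct.induction_on with
        | zero => simp
        | add z z' h h' => simp only [map_add, TensorProduct.add_tmul, h, h']
        | tmul c d => simp [_root_.mul_assoc]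
    have key2 : ∀ y : F.V X ⊗[k] F.V (Y ⊗ Z),
        TensorProduct.lid k k (TensorProduct.map φ (F.crossD ψ χ) y) =
          TensorProduct.lid k k (TensorProduct.map φ
            ((TensorProduct.lid k k).toLinearMap.comp (TensorProduct.map ψ χ))
              (TensorProduct.map LinearMap.id (F.r Y Z) y)) := by
      intro y
      induction y using TensorProduct.induction_on with
      | zero => simp
      | add y y' h h' => simp only [map_add, h, h']
      | tmul a b => rfl
    rw [LinearMap.comp_apply, crossD_apply, crossD_apply, key, key2, F.r_assoc]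
  one_cross {X} φ := by
    apply LinearMap.ext
    intro x
    have key : ∀ y : F.V (𝟙_ T) ⊗[k] F.V X,
        TensorProduct.lid k k (TensorProduct.map F.c φ y) =
          φ (TensorProduct.lid k (F.V X) (TensorProduct.map F.c LinearMap.id y)) := by
      intro y
      induction y using TensorProduct.induction_on with
      | zero => simp
      | add y y' h h' => simp only [map_add, h, h']
      | tmul a b => simp
    rw [LinearMap.comp_apply, crossD_apply, key, F.r_unit]
  cross_comm {X Y} φ ψ := by
    apply LinearMap.ext
    intro x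
    have key : ∀ y : F.V X ⊗[k] F.V Y,
        TensorProduct.lid k k (TensorProduct.map ψ φ (TensorProduct.comm k (F.V X) (F.V Y) y)) =
          TensorProduct.lid k k (TensorProduct.map φ ψ y) := by
      intro y
      induction y using TensorProduct.induction_on with
      | zero => simp
      | add y y' h h' => simp only [map_add, h, h']
      | tmul a b => simp [_root_.mul_comm]
    rw [LinearMap.comp_apply, crossD_apply, crossD_apply, F.r_comm, key]

/-- **The representing commutative monoid.** -/
theorem exists_monoid [LocallySmall.{0} T] {G : T} (hc : IsCpt G) (hg : IsGen G)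
    (hF : ∀ n : ℤ, Small.{0} (F.V (G⟦n⟧))) : ∃ K : T, Nonempty (F.pre.Rep K) := by
  obtain ⟨K, u, h⟩ := F.toHomTh.exists_rep hc hg hF
  exact ⟨K, ⟨⟨u, h⟩⟩⟩

end OpTh

end op

end Vale.Agent.P251.X
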