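import Vale.Agent.P251.X.VDefs
import Vale.Agent.P251.X.RepHom
import Vale.Agent.P251.S.Coprod
import Vale.Agent.P251.M.EvenShift
import Mathlib.Algebra.Module.ZMod

/-!
# P251, part X: the homology theory `V_tot W = M W / I M W`

For a point `c : Pt E P p N` with `c.Exact`, `c.totTh : HomTh (ZMod p) T`.
-/

open CategoryTheory MonoidalCategory Limits Pretriangulated MonObj
open scoped DirectSum

set_option linter.unusedSectionVars false

universe v u

noncomputable section

namespace Vale.Agent.P251.X

open Vale.Agent.P251.T Vale.Agent.P251.M Vale.Agent.P251.M.EvenSpheres Vale.Agent.P251.S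

section basic

variable {T : Type u} [Category.{v} T] [Preadditive T] [MonoidalCategory T]
  [MonoidalPreadditive T] [SymmetricCategory T] {E : EvenSpheres T} {P : T} [MonObj P]
  {p N : ℕ} (c : Pt E P p N)

/-- `V_tot W = M W / I M W`. -/
def Vtot (W : T) : Type v := MP E P W ⧸ (c.I • (⊤ : Submodule (HRing E P) (MP E P W)))

instance (W : T) : AddCommGroup (Vtot c W) :=
  inferInstanceAs (AddCommGroup (MP E P W ⧸ (c.I • (⊤ : Submodule (HRing E P) (MP E P W)))))

namespace Vtot

variable {c} {W : T}

/-- the class of an element -/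
def mk (c : Pt E P p N) (W : T) : MP E P W →+ Vtot c W :=
  (Submodule.mkQ (c.I • (⊤ : Submodule (HRing E P) (MP E P W)))).toAddMonoidHom

theorem mk_surjective : Function.Surjective (mk c W) := Submodule.mkQ_surjective _

theorem mk_eq_zero {x : MP E P W} :
    mk c W x = 0 ↔ x ∈ c.I • (⊤ : Submodule (HRing E P) (MP E P W)) :=
  Submodule.Quotient.mk_eq_zero _

theorem mk_eq {x y : MP E P W} :
    mk c W x = mk c W y ↔ x - y ∈ c.I • (⊤ : Submodule (HRing E P) (MP E P W)) :=
  Submodule.Quotient.eq _

@[elab_as_elim]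
theorem ind {motive : Vtot c W → Prop} (x : Vtot c W) (h : ∀ x, motive (mk c W x)) : motive x := by
  obtain ⟨x, rfl⟩ := mk_surjective x
  exact h x

/-- additive maps out of `V_tot` -/
def desc {B : Type*} [AddCommGroup B] (f : MP E P W →+ B)
    (h : ∀ x ∈ c.I • (⊤ : Submodule (HRing E P) (MP E P W)), f x = 0) : Vtot c W →+ B :=
  QuotientAddGroup.lift (c.I • (⊤ : Submodule (HRing E P) (MP E P W))).toAddSubgroup f
    fun x hx => h x hx

@[simp] theorem desc_mk {B : Type*} [AddCommGroup B] (f : MP E P W →+ B)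
    (h : ∀ x ∈ c.I • (⊤ : Submodule (HRing E P) (MP E P W)), f x = 0) (x : MP E P W) :
    desc f h (mk c W x) = f x := rfl

theorem smul_mem {z : HRing E P} (hz : c.χ z = 0) (x : MP E P W) :
    z • x ∈ c.I • (⊤ : Submodule (HRing E P) (MP E P W)) :=
  Submodule.smul_mem_smul (c.mem_I.2 hz) trivial

theorem nsmul_eq_zero (x : Vtot c W) : p • x = 0 := by
  induction x using ind with
  | h x =>
    rw [← map_nsmul, mk_eq_zero, ← Nat.cast_smul_eq_nsmul (HRing E P)]
    refine smul_mem ?_ x
    rw [map_natCast]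
    exact ZMod.natCast_self p

instance : Module (ZMod p) (Vtot c W) := AddCommGroup.zmodModule nsmul_eq_zero

theorem zmod_smul [NeZero p] (a : ZMod p) (x : Vtot c W) : a • x = a.val • x := by
  conv_lhs => rw [← ZMod.natCast_zmod_val a]
  exact Nat.cast_smul_eq_nsmul (ZMod p) a.val x

/-- the homotopy ring acts through `χ` -/
theorem mk_smul [NeZero p] (z : HRing E P) (x : MP E P W) :
    mk c W (z • x) = c.χ z • mk c W x := by
  rw [zmod_smul, ← map_nsmul, mk_eq, ← Nat.cast_smul_eq_nsmul (HRing E P), ← sub_smul]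
  refine smul_mem ?_ x
  rw [map_sub, map_natCast, ZMod.natCast_zmod_val, sub_self]

/-- the induced map -/
def map (c : Pt E P p N) {X Y : T} (f : X ⟶ Y) : Vtot c X →ₗ[ZMod p] Vtot c Y :=
  AddMonoidHom.toZModLinearMap p (desc ((mk c Y).comp (MP.map E P f).toAddMonoidHom)
    (fun x hx => by
      rw [AddMonoidHom.comp_apply, mk_eq_zero]
      have h1 : MP.map E P f x ∈ (c.I • (⊤ : Submodule (HRing E P) (MP E P X))).map
        (MP.map E P f) := ⟨x, hx, rfl⟩
      rw [Submodule.map_smul''] at h1
      exact Submodule.smul_mono le_rfl le_top h1))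

@[simp] theorem map_mk {X Y : T} (f : X ⟶ Y) (x : MP E P X) :
    map c f (mk c X x) = mk c Y (MP.map E P f x) := rfl

theorem map_id (X : T) : map c (𝟙 X) = LinearMap.id := by
  apply LinearMap.ext
  intro x
  induction x using ind with
  | h x => rw [map_mk, MP.map_id]; rfl

theorem map_comp {X Y Z : T} (f : X ⟶ Y) (g : Y ⟶ Z) :
    map c (f ≫ g) = (map c g).comp (map c f) := by
  apply LinearMap.ext
  intro x
  induction x using ind with
  | h x => rw [map_mk, MP.map_comp]; rfl

theorem map_add' {X Y : T} (f g : X ⟶ Y) : map c (f + g) = map c f + map c g := by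
  apply LinearMap.ext
  intro x
  induction x using ind with
  | h x => rw [map_mk, MP.map_add', LinearMap.add_apply, _root_.map_add]; rfl

end Vtot

end basic

section theory

variable {T : Type u} [Category.{v} T] [Preadditive T] [HasZeroObject T]
    [HasShift T ℤ] [∀ n : ℤ, (shiftFunctor T n).Additive] [Pretriangulated T] [IsTriangulated T]
    [MonoidalCategory T] [SymmetricCategory T] [TensorTriangulated T] [MonoidalClosed T]
    [HasCoproducts.{0} T] [HasProducts.{0} T] [StableCat T]
  {E : EvenSpheres T} {P : T} [MonObj P] {p N : ℕ}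

/-- `M(∐ X)` is generated by the images of the `M(X i)` -/
theorem MP.exists_sum (hE : ∀ j, IsSphere (E.S j)) {I : Type} [DecidableEq I] (X : I → T)
    (y : MP E P (∐ X)) : ∃ x : ⨁ i, MP E P (X i),
      DirectSum.toAddMonoid (fun i => (MP.map E P (Sigma.ι X i)).toAddMonoidHom) x = y := by
  induction y using MP.ind with
  | zero => exact ⟨0, map_zero _⟩
  | of j f =>
    obtain ⟨s, g, hg⟩ := compact_sumL P X (hE j) f
    refine ⟨∑ i ∈ s, DirectSum.of (fun i => MP E P (X i)) i (MP.of E P (X i) j (g i)), ?_⟩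
    rw [map_sum]
    have h1 : ∀ i ∈ s, DirectSum.toAddMonoid
        (fun i => (MP.map E P (Sigma.ι X i)).toAddMonoidHom)
        (DirectSum.of (fun i => MP E P (X i)) i (MP.of E P (X i) j (g i))) =
        MP.of E P (∐ X) j (g i ≫ P ◁ Sigma.ι X i) := fun i _ => by
      rw [DirectSum.toAddMonoid_of]
      exact MP.map_of _ _ _
    rw [Finset.sum_congr rfl h1, ← map_sum, hg]
  | add x y hx hy =>
    obtain ⟨x', hx⟩ := hx
    obtain ⟨y', hy⟩ := hy
    exact ⟨x' + y', by rw [map_add, hx, hy]⟩

theorem isSphere_std (j : ℤ) : IsSphere ((stdEven T).S j) :=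
  ⟨2 * j, ⟨(stdEven T).sphIso (Iso.refl _) j⟩⟩

variable [Fact p.Prime] (c : Pt E P p N)

theorem Vtot.coprod (hE : ∀ j, IsSphere (E.S j)) {I : Type} [DecidableEq I] (X : I → T) :
    Function.Bijective (DirectSum.toModule (ZMod p) I (Vtot c (∐ X))
      fun i => Vtot.map c (Sigma.ι X i)) := by
  constructor
  · rw [injective_iff_map_eq_zero]
    intro x hx
    have h1 : ∀ i, (Vtot.map c (sproj X i)).comp
        (DirectSum.toModule (ZMod p) I (Vtot c (∐ X)) fun i => Vtot.map c (Sigma.ι X i)) =
        DirectSum.component (ZMod p) I (fun i => Vtot c (X i)) i := by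
      intro i
      apply DirectSum.linearMap_ext
      intro j
      apply LinearMap.ext
      intro y
      simp only [LinearMap.comp_apply, DirectSum.toModule_lof]
      rw [← LinearMap.comp_apply, ← Vtot.map_comp]
      by_cases h : j = i
      · subst h
        rw [ι_sproj_self, Vtot.map_id, DirectSum.component.lof_self]
        rfl
      · rw [ι_sproj_ne X h]
        have h2 : Vtot.map c (0 : X j ⟶ X i) = 0 := by
          have h3 := Vtot.map_add' (c := c) (0 : X j ⟶ X i) 0
          rw [add_zero] at h3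
          exact left_eq_add.1 h3
        rw [h2, LinearMap.zero_apply, DirectSum.component.of, dif_neg h]
    refine DFinsupp.ext fun i => ?_
    have h2 := DFunLike.congr_fun (h1 i) x
    rw [LinearMap.comp_apply, hx, map_zero] at h2
    exact h2.symm
  · intro y
    induction y using Vtot.ind with
    | h y =>
      obtain ⟨x, hx⟩ := MP.exists_sum hE X y
      rw [← hx]
      clear hx
      induction x using DirectSum.induction_on with
      | zero => exact ⟨0, by simp⟩
      | of i x =>
        refine ⟨DirectSum.lof (ZMod p) I (fun i => Vtot c (X i)) i (Vtot.mk c (X i) x), ?_⟩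
        rw [DirectSum.toModule_lof, DirectSum.toAddMonoid_of]
        rfl
      | add x y hx hy =>
        obtain ⟨x', hx⟩ := hx
        obtain ⟨y', hy⟩ := hy
        exact ⟨x' + y', by rw [map_add, hx, hy, map_add, map_add]⟩

/-- **The homology theory `V_tot`.** -/
def Pt.totTh (hc : c.Exact) (hE : ∀ j, IsSphere (E.S j)) : HomTh.{v} (ZMod p) T where
  V W := Vtot c W
  map f := Vtot.map c f
  map_id := Vtot.map_id
  map_comp f g := Vtot.map_comp f g
  map_add f g := Vtot.map_add' f g
  exact {X Y Z f g h} D y hy := by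
    obtain ⟨y, rfl⟩ := Vtot.mk_surjective y
    rw [Vtot.map_mk, Vtot.mk_eq_zero] at hy
    obtain ⟨x, hx⟩ := hc X Y Z f g h D y hy
    exact ⟨Vtot.mk c X x, (Vtot.mk_eq.2 hx).symm⟩
  coprod X := Vtot.coprod c hE X

end theory

end Vale.Agent.P251.X
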