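import Vale.Agent.P251.X.Phi
import Vale.Agent.P251.X.CrossM
import Vale.Agent.P251.X.HomV
import Vale.Agent.P251.X.PrC
import Vale.Agent.P251.S.TensorShift

/-!
# P251, part X: the functional on `V_tot R` given by a map `R ⟶ P`

* `Vtot.phi c u : Vtot c R →ₗ[ZMod p] ZMod p`: unital (`phi_one`), multiplicative (`phi_cross`),
  `phi_gen`, `phi_prC`;
* `Vtot.eq_zero_of_odd` : `V_tot (X ⊗ S^{2l+1}) = 0` if the odd homotopy of `P ⊗ X` vanishes.
-/

open CategoryTheory MonoidalCategory Limits Pretriangulated MonObj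

set_option linter.unusedSectionVars false

universe v u

noncomputable section

namespace Vale.Agent.P251.X

open Vale.Agent.P251.T Vale.Agent.P251.M Vale.Agent.P251.M.EvenSpheres Vale.Agent.P251.S

namespace Vtot

section phi

variable {T : Type u} [Category.{v} T] [Preadditive T] [MonoidalCategory T]
  [MonoidalPreadditive T] [SymmetricCategory T] {E : EvenSpheres T} {P : T} [MonObj P]
  [IsCommMonObj P] {R : T} [MonObj R] {p N : ℕ} (c : Pt E P p N)

/-- The functional. -/
def phi (u : R ⟶ P) : Vtot c R →ₗ[ZMod p] ZMod p :=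
  AddMonoidHom.toZModLinearMap p (desc (c.phi u) fun _ hx => c.phi_mem u hx)

@[simp] theorem phi_mk (u : R ⟶ P) (x : MP E P R) : phi c u (mk c R x) = c.phi u x := rfl

/-- the unit -/
theorem phi_one (u : R ⟶ P) [IsMonHom u] :
    phi c u (map c η[R] (mk c (𝟙_ T) (MP.one E P))) = 1 := c.phi_one u

theorem _root_.Vale.Agent.P251.X.Pt.phi_cross (u : R ⟶ P) [IsMonHom u] (x y : MP E P R) :
    c.phi u (MP.map E P μ[R] (MP.cross E P R R x y)) = c.phi u x * c.phi u y := by
  induction x, y using MP.ind₂ with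
  | zl y => simp only [map_zero, AddMonoidHom.zero_apply, zero_mul]
  | zr x => simp only [map_zero, mul_zero]
  | oo m a n b => rw [MP.cross_of (q := m + n) rfl, ← c.phi_mul u rfl a b]; rfl
  | al x x' y h h' =>
    simp only [_root_.map_add, AddMonoidHom.add_apply, h, h', add_mul]
  | ar x y y' h h' => simp only [_root_.map_add, h, h', mul_add]

/-- the product -/
theorem phi_cross (u : R ⟶ P) [IsMonHom u] (x y : MP E P R) :
    phi c u (map c μ[R] (mk c (R ⊗ R) (MP.cross E P R R x y))) =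
      phi c u (mk c R x) * phi c u (mk c R y) := c.phi_cross u x y

/-- the values on the classes which come from `R` -/
theorem phi_gen (u : R ⟶ P) {j : ℤ} (x : E.S j ⟶ R) :
    phi c u (map c x (mk c (E.S j) (MP.gen E P j))) = c.χ (HRing.of E P j (x ≫ u)) :=
  c.phi_unit u x

/-- the functional is zero in the degrees which are not divisible by `N` -/
theorem phi_prC (u : R ⟶ P) (x : MP E P R) : c.phi u (prC N 0 (P ⊗ R) x : MP E P R) =
    c.phi u x := by
  induction x using MP.ind with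
  | zero =>
    exact congrArg (c.phi u) (map_zero (prC N 0 (P ⊗ R)))
  | of j x =>
    by_cases h : (N : ℤ) ∣ j
    · exact congrArg (c.phi u) (prC_of_dvd (c := 0) (by rwa [sub_zero]) x)
    · rw [c.phi_of_not u h]
      exact (congrArg (c.phi u) (prC_of_not (c := 0) (by rwa [sub_zero]) x)).trans
        (map_zero (c.phi u))
  | add x y hx hy =>
    have h1 : c.phi u (prC N 0 (P ⊗ R) (x + y) : MP E P R) =
        c.phi u ((prC N 0 (P ⊗ R) x : MP E P R) + (prC N 0 (P ⊗ R) y : MP E P R)) :=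
      congrArg (c.phi u) (map_add (prC N 0 (P ⊗ R)) x y)
    exact h1.trans ((map_add (c.phi u) _ _).trans
      ((congrArg₂ (· + ·) hx hy).trans (map_add (c.phi u) x y).symm))

end phi

section odd

variable {T : Type u} [Category.{v} T] [Preadditive T] [HasZeroObject T]
    [HasShift T ℤ] [∀ n : ℤ, (shiftFunctor T n).Additive] [Pretriangulated T] [IsTriangulated T]
    [MonoidalCategory T] [SymmetricCategory T] [TensorTriangulated T] [MonoidalClosed T]
    [HasCoproducts.{0} T] [HasProducts.{0} T] [StableCat T]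

theorem eq_zero_even_odd {X : T} (hX : Odd0 X) (j k : ℤ) (hk : Odd k)
    (f : (stdEven T).S j ⟶ X⟦k⟧) : f = 0 := by
  obtain ⟨l, rfl⟩ := hk
  have e : ((𝟙_ T)⟦2 * (j - l - 1) + 1⟧)⟦2 * l + 1⟧ ≅ (𝟙_ T)⟦2 * j⟧ :=
    ((shiftFunctorAdd' T (2 * (j - l - 1) + 1) (2 * l + 1) (2 * j) (by ring)).app _).symm
  have e' : (stdEven T).S j ≅ (𝟙_ T)⟦2 * j⟧ := (stdEven T).sphIso (Iso.refl _) j
  obtain ⟨g, hg⟩ := (shiftFunctor T (2 * l + 1)).map_surjective (e.hom ≫ e'.inv ≫ f)
  rw [← cancel_epi (e.hom ≫ e'.inv), Category.assoc, ← hg, hX _ g, Functor.map_zero, comp_zero]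

variable {P : T} [MonObj P] {p N : ℕ} (c : Pt (stdEven T) P p N)

theorem eq_zero_of_hom {W : T} (h : ∀ (j : ℤ) (f : (stdEven T).S j ⟶ P ⊗ W), f = 0)
    (x : Vtot c W) : x = 0 := by
  induction x using ind with
  | h x =>
    have h1 : x = 0 := by
      induction x using MP.ind with
      | zero => rfl
      | of j x => rw [h j x, map_zero]
      | add x y hx hy => rw [hx, hy, add_zero]
    rw [h1, map_zero]

/-- `V_tot (X ⊗ S^k) = 0` for odd `k` if the odd homotopy of `P ⊗ X` vanishes. -/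
theorem eq_zero_of_odd {X : T} (hX : Odd0 (P ⊗ X)) {k : ℤ} (hk : Odd k)
    (x : Vtot c (X ⊗ (𝟙_ T)⟦k⟧)) : x = 0 := by
  refine eq_zero_of_hom c (fun j f => ?_) x
  have h := eq_zero_even_odd hX j k hk (f ≫ (α_ P X _).inv ≫ (tensorSph k (P ⊗ X)).hom)
  rwa [← cancel_mono ((α_ P X _).inv ≫ (tensorSph k (P ⊗ X)).hom), zero_comp]

/-- `V_tot (S^k ⊗ X) = 0` for odd `k` if the odd homotopy of `P ⊗ X` vanishes. -/
theorem eq_zero_of_odd' {X : T} (hX : Odd0 (P ⊗ X)) {k : ℤ} (hk : Odd k)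
    (x : Vtot c ((𝟙_ T)⟦k⟧ ⊗ X)) : x = 0 := by
  refine eq_zero_of_hom c (fun j f => ?_) x
  have h := eq_zero_even_odd hX j k hk (f ≫ P ◁ (β_ _ X).hom ≫ (α_ P X _).inv ≫
    (tensorSph k (P ⊗ X)).hom)
  rwa [← cancel_mono (P ◁ (β_ _ X).hom ≫ (α_ P X _).inv ≫ (tensorSph k (P ⊗ X)).hom), zero_comp]

end odd

end Vtot

end Vale.Agent.P251.X
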