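import Vale.Agent.P251.X.CrossM
import Vale.Agent.P251.X.HomV
import Vale.Agent.P251.X.LaxTh
import Vale.Agent.P251.X.PhiTot

/-!
# P251, part X5b: `V_tot` is a lax symmetric monoidal homology theory

* `Vtot.prod c X Y : V_tot X → V_tot Y → V_tot (X ⊗ Y)`;
* `Pt.laxTh : LaxTh (ZMod p) T`;
* `Pt.sph : (c.laxTh ..).Sph (stdEven T)`.
-/

open CategoryTheory MonoidalCategory Limits Pretriangulated MonObj

set_option linter.unusedSectionVars false

universe v u

noncomputable section

namespace Vale.Agent.P251.X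

open Vale.Agent.P251.T Vale.Agent.P251.M Vale.Agent.P251.M.EvenSpheres Vale.Agent.P251.S

section basic

variable {T : Type u} [Category.{v} T] [Preadditive T] [MonoidalCategory T]
  [MonoidalPreadditive T] [SymmetricCategory T] {E : EvenSpheres T} {P : T} [MonObj P]
  [IsCommMonObj P] {p N : ℕ} (c : Pt E P p N)

namespace Vtot

variable {c}

theorem cross_mem_right {X Y : T} (x : MP E P X) {y : MP E P Y}
    (hy : y ∈ c.I • (⊤ : Submodule (HRing E P) (MP E P Y))) :
    MP.cross E P X Y x y ∈ c.I • (⊤ : Submodule (HRing E P) (MP E P (X ⊗ Y))) := by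
  induction hy using Submodule.smul_induction_on' with
  | smul z hz y _ =>
    rw [MP.cross_smul_right]
    exact Submodule.smul_mem_smul hz trivial
  | add y _ y' _ hy hy' =>
    rw [map_add]
    exact Submodule.add_mem _ hy hy'

theorem cross_mem_left {X Y : T} {x : MP E P X} (y : MP E P Y)
    (hx : x ∈ c.I • (⊤ : Submodule (HRing E P) (MP E P X))) :
    MP.cross E P X Y x y ∈ c.I • (⊤ : Submodule (HRing E P) (MP E P (X ⊗ Y))) := by
  induction hx using Submodule.smul_induction_on' with
  | smul z hz x _ =>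
    rw [MP.cross_smul_left]
    exact Submodule.smul_mem_smul hz trivial
  | add x _ x' _ hx hx' =>
    rw [map_add, AddMonoidHom.add_apply]
    exact Submodule.add_mem _ hx hx'

variable (c) in
/-- The product with the class of `x`. -/
def prod₁ (X Y : T) (x : MP E P X) : Vtot c Y →ₗ[ZMod p] Vtot c (X ⊗ Y) :=
  AddMonoidHom.toZModLinearMap p (desc ((mk c (X ⊗ Y)).comp (MP.cross E P X Y x))
    fun _ hy => mk_eq_zero.2 (cross_mem_right x hy))

theorem prod₁_mk (X Y : T) (x : MP E P X) (y : MP E P Y) :
    prod₁ c X Y x (mk c Y y) = mk c (X ⊗ Y) (MP.cross E P X Y x y) := rfl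

variable (c) in
/-- **The external product on `V_tot`.** -/
def prod (X Y : T) : Vtot c X →ₗ[ZMod p] Vtot c Y →ₗ[ZMod p] Vtot c (X ⊗ Y) :=
  AddMonoidHom.toZModLinearMap p (desc
    { toFun := prod₁ c X Y
      map_zero' := by
        apply LinearMap.ext
        intro y
        induction y using ind with
        | h y =>
          rw [prod₁_mk, map_zero, AddMonoidHom.zero_apply, map_zero]
          rfl
      map_add' := fun x x' => by
        apply LinearMap.ext
        intro y
        induction y using ind with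
        | h y =>
          rw [LinearMap.add_apply, prod₁_mk, prod₁_mk, prod₁_mk, _root_.map_add,
            AddMonoidHom.add_apply, _root_.map_add] }
    fun x hx => by
      apply LinearMap.ext
      intro y
      induction y using ind with
      | h y => exact mk_eq_zero.2 (cross_mem_left y hx))

@[simp] theorem prod_mk (X Y : T) (x : MP E P X) (y : MP E P Y) :
    prod c X Y (mk c X x) (mk c Y y) = mk c (X ⊗ Y) (MP.cross E P X Y x y) := rfl

theorem map_prod {X X' Y Y' : T} (f : X ⟶ X') (g : Y ⟶ Y') (x : Vtot c X) (y : Vtot c Y) :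
    map c (f ⊗ₘ g) (prod c X Y x y) = prod c X' Y' (map c f x) (map c g y) := by
  induction x using ind with
  | h x =>
    induction y using ind with
    | h y => rw [prod_mk, map_mk, map_mk, map_mk, prod_mk, MP.map_cross]

theorem prod_assoc (X Y Z : T) (x : Vtot c X) (y : Vtot c Y) (z : Vtot c Z) :
    map c (α_ X Y Z).hom (prod c (X ⊗ Y) Z (prod c X Y x y) z) =
      prod c X (Y ⊗ Z) x (prod c Y Z y z) := by
  induction x using ind with
  | h x =>
    induction y using ind with
    | h y =>
      induction z using ind with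
      | h z => rw [prod_mk, prod_mk, map_mk, prod_mk, prod_mk, MP.cross_assoc]

variable (c) in
/-- The unit of `V_tot`. -/
def one : Vtot c (𝟙_ T) := mk c (𝟙_ T) (MP.one E P)

theorem one_prod (X : T) (x : Vtot c X) : map c (λ_ X).hom (prod c (𝟙_ T) X (one c) x) = x := by
  induction x using ind with
  | h x => rw [one, prod_mk, map_mk, MP.one_cross]

theorem prod_comm (X Y : T) (x : Vtot c X) (y : Vtot c Y) :
    map c (β_ X Y).hom (prod c X Y x y) = prod c Y X y x := by
  induction x using ind with
  | h x =>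
    induction y using ind with
    | h y => rw [prod_mk, map_mk, prod_mk, MP.cross_comm]

end Vtot

end basic

section theory

variable {T : Type u} [Category.{v} T] [Preadditive T] [HasZeroObject T]
    [HasShift T ℤ] [∀ n : ℤ, (shiftFunctor T n).Additive] [Pretriangulated T] [IsTriangulated T]
    [MonoidalCategory T] [SymmetricCategory T] [TensorTriangulated T] [MonoidalClosed T]
    [HasCoproducts.{0} T] [HasProducts.{0} T] [StableCat T]
  {E : EvenSpheres T} {P : T} [MonObj P] [IsCommMonObj P] {p N : ℕ} [Fact p.Prime]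
  (c : Pt E P p N)

/-- **`V_tot` as a lax symmetric monoidal homology theory.** -/
def Pt.laxTh (hc : c.Exact) (hE : ∀ j, IsSphere (E.S j)) : LaxTh.{v} (ZMod p) T where
  toHomTh := c.totTh hc hE
  m X Y := Vtot.prod c X Y
  e := Vtot.one c
  m_nat f g x y := Vtot.map_prod f g x y
  m_assoc X Y Z x y z := Vtot.prod_assoc X Y Z x y z
  m_unit X x := Vtot.one_prod X x
  m_comm X Y x y := Vtot.prod_comm X Y x y

end theory

section sph

variable {T : Type u} [Category.{v} T] [Preadditive T] [HasZeroObject T]
    [HasShift T ℤ] [∀ n : ℤ, (shiftFunctor T n).Additive] [Pretriangulated T] [IsTriangulated T]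
    [MonoidalCategory T] [SymmetricCategory T] [TensorTriangulated T] [MonoidalClosed T]
    [HasCoproducts.{0} T] [HasProducts.{0} T] [StableCat T]
  {P : T} [MonObj P] [IsCommMonObj P] {p N : ℕ} [Fact p.Prime]
  (c : Pt (stdEven T) P p N)

theorem Vtot.one_ne_zero : Vtot.one c ≠ 0 := by
  intro h
  have h1 := Vtot.phi_one c (𝟙 P)
  have h2 : Vtot.mk c (𝟙_ T) (MP.one (stdEven T) P) = 0 := h
  rw [h2, map_zero, map_zero] at h1
  exact zero_ne_one h1

theorem Vtot.exists_smul_one (x : Vtot c (𝟙_ T)) : ∃ a : ZMod p, x = a • Vtot.one c := by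
  induction x using Vtot.ind with
  | h x =>
    obtain ⟨z, rfl⟩ := MP.exists_smul_one x
    exact ⟨c.χ z, Vtot.mk_smul z _⟩

theorem Vtot.eq_zero_sphere (hP : Odd0 P) {k : ℤ} (hk : Odd k) (x : Vtot c ((𝟙_ T)⟦k⟧)) :
    x = 0 := by
  refine Vtot.eq_zero_of_hom c (fun j f => ?_) x
  have h := Vtot.eq_zero_even_odd hP j k hk (f ≫ (tensorSph k P).hom)
  rwa [← cancel_mono ((tensorSph k P).hom), zero_comp]

/-- **The values of `V_tot` on the spheres.** -/
def Pt.sph (hc : c.Exact) (hE : ∀ j, IsSphere ((stdEven T).S j)) (hP : Odd0 P) :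
    (c.laxTh hc hE).Sph (stdEven T) where
  g j := Vtot.mk c _ (MP.gen (stdEven T) P j)
  g_zero := by
    change Vtot.map c _ (Vtot.mk c _ (MP.gen (stdEven T) P 0)) = _
    rw [Vtot.map_mk, MP.map_zero_inv_gen]
    rfl
  g_mul i j l h := by
    change Vtot.map c _ (Vtot.prod c _ _ (Vtot.mk c _ (MP.gen (stdEven T) P i))
      (Vtot.mk c _ (MP.gen (stdEven T) P j))) = _
    rw [Vtot.prod_mk, Vtot.map_mk, MP.map_mu_gen]
  one x := Vtot.exists_smul_one c x
  ne := Vtot.one_ne_zero c
  odd l x := Vtot.eq_zero_sphere c hP ⟨l, rfl⟩ x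

/-- `V_tot` for the standard even spheres -/
abbrev VtotLax (hc : c.Exact) : LaxTh.{v} (ZMod p) T := c.laxTh hc isSphere_std

/-- the values of `V_tot` on the spheres -/
abbrev VtotSph (hc : c.Exact) (hP : Odd0 P) : (VtotLax c hc).Sph (stdEven T) :=
  c.sph hc isSphere_std hP

end sph

end Vale.Agent.P251.X
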