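import Vale.Agent.P251.X.UniqMon
import Vale.Agent.P251.M.PiR
import Vale.Agent.P251.M.CofIn
import Vale.Agent.P251.M.JConn
import Vale.Agent.P251.M.BUPi
import Vale.Agent.P251.S.TelTens
import Mathlib.CategoryTheory.EssentiallySmall

/-!
# P251, part X: the rational Eilenberg-Mac Lane spectrum

* `exists_HZ`: `𝟙 ⟶ H` kills the homotopy in positive degrees, the cofibre is in `BigCell 2`;
* `exists_HQ`: a commutative monoid `K` with `π_* K = ℚ` in degree `0`.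
-/

open CategoryTheory MonoidalCategory Limits Pretriangulated
open Vale.Agent.P251.T Vale.Agent.P251.S Vale.Agent.P251.H Vale.Agent.P251.M
  Vale.Agent.P251.I

universe v u

set_option linter.unusedSectionVars false

namespace Vale.Agent.P251.X

variable {T : Type u} [Category.{v} T] [Preadditive T] [HasZeroObject T]
    [HasShift T ℤ] [∀ n : ℤ, (shiftFunctor T n).Additive] [Pretriangulated T] [IsTriangulated T]
    [MonoidalCategory T] [SymmetricCategory T] [TensorTriangulated T] [MonoidalClosed T]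
    [HasCoproducts.{0} T] [HasProducts.{0} T] [StableCat T]

/-! ### Killing homotopy groups -/

theorem cpt_sphere (k : ℤ) : S.IsCpt ((𝟙_ T)⟦k⟧) := by
  intro I Y f
  obtain ⟨s, g, h⟩ := exists_sum_of_compact Y f (StableCat.compact k Y f)
  classical
  refine ⟨s, fun i => if hi : i ∈ s then g ⟨i, hi⟩ else 0, ?_⟩
  rw [h, ← Finset.sum_attach s]
  refine Finset.sum_congr rfl fun i _ => ?_
  simp only [dif_pos i.2]

theorem exists_kill [LocallySmall.{0} T] (X : T) : ∃ (X' : T) (f : X ⟶ X'), CofIn (BigCell T 2) f ∧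
    ∀ k : ℤ, 1 ≤ k → ∀ g : (𝟙_ T)⟦k⟧ ⟶ X, g ≫ f = 0 := by
  let J : Type := Σ n : ℕ, Shrink.{0} ((𝟙_ T)⟦((n : ℤ) + 1)⟧ ⟶ X)
  let Y : J → T := fun j => (𝟙_ T)⟦((j.1 : ℤ) + 1)⟧
  let a : ∐ Y ⟶ X := Sigma.desc fun j : J => (equivShrink _).symm j.2
  obtain ⟨X', f, w, D⟩ := exists_cone a
  refine ⟨X', f, ⟨_, w, _, D.rot, ?_⟩, ?_⟩
  · exact (BigCell.coprod (n := 1) Y fun j => BigCell.sphere _ (by omega)).shift 1 2 (by norm_num)
  · intro k hk g
    obtain ⟨n, rfl⟩ : ∃ n : ℕ, k = (n : ℤ) + 1 := ⟨(k - 1).toNat, by omega⟩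
    have h1 : g = Sigma.ι Y ⟨n, equivShrink _ g⟩ ≫ a := by
      simp [a, Y]
    rw [h1, Category.assoc, D.zero₁₂, comp_zero]

/-- The tower which kills the homotopy groups in positive degrees. -/
theorem exists_tower [LocallySmall.{0} T] : ∃ (E : ℕ → T) (f : ∀ n, E n ⟶ E (n + 1)) (_ : E 0 = 𝟙_ T),
    (∀ n, CofIn (BigCell T 2) (f n)) ∧
      ∀ n (k : ℤ), 1 ≤ k → ∀ g : (𝟙_ T)⟦k⟧ ⟶ E n, g ≫ f n = 0 := by
  choose X' f h1 h2 using exists_kill (T := T)
  let E : ℕ → T := fun n => Nat.rec (𝟙_ T) (fun _ X => X' X) n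
  exact ⟨E, fun n => f (E n), rfl, fun n => h1 (E n), fun n => h2 (E n)⟩

theorem exists_HZ [LocallySmall.{0} T] : ∃ (H : T) (e : 𝟙_ T ⟶ H), CofIn (BigCell T 2) e ∧
    ∀ k : ℤ, 1 ≤ k → ∀ g : (𝟙_ T)⟦k⟧ ⟶ H, g = 0 := by
  obtain ⟨E, f, h0, h1, h2⟩ := exists_tower (T := T)
  let U : Tel f := tel f
  have hT := U.isTel
  let u : ∀ n, 𝟙_ T ⟶ E n := fun n => Nat.rec (eqToHom h0.symm) (fun n g => g ≫ f n) n
  have hu0 : u 0 = eqToHom h0.symm := rfl
  have hu : ∀ n, u n ≫ f n = u (n + 1) := fun _ => rfl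
  have hη : ∀ n, u n ≫ U.ι n = u 0 ≫ U.ι 0 := by
    intro n
    induction n with
    | zero => rfl
    | succ n ih => rw [← ih, ← hu, Category.assoc, U.w]
  have hc : ∀ n, CofIn (BigCell T 2) (u n) := by
    intro n
    induction n with
    | zero =>
      rw [hu0]
      exact CofIn.of_isIso (bigCell_extClosed 2) _
    | succ n ih => exact ih.comp (bigCell_extClosed 2) (h1 n)
  refine ⟨U.obj, u 0 ≫ U.ι 0, ?_, ?_⟩
  · exact cofIn_unit_of_tel (bigCell_extClosed 2) (fun X hX => BigCell.coprod X hX)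
      (fun X hX => (hX.shift 1 3 (by norm_num)).mono (by norm_num))
      (CompactObj.of_iso ((shiftFunctorZero T ℤ).app (𝟙_ T))
        (CompactObj.of_factor fun Y f => StableCat.compact 0 Y f)) hT u hu _ hη hc
  · intro k hk g
    obtain ⟨n, a, rfl⟩ := U.exists_factor (cpt_sphere k) g
    rw [← U.w, ← Category.assoc, h2 n k hk a, zero_comp]

/-! ### The telescope of the integers -/

/-- The sequence `H ⟶ H ⟶ H ⟶ …` of the multiplications by `1, 2, 3, …`. -/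
abbrev mulSeq (H : T) (n : ℕ) : H ⟶ H := ((n + 1 : ℕ) : ℤ) • 𝟙 H

theorem trT_mulSeq (H : T) (n k : ℕ) :
    trT (X := fun _ => H) (mulSeq H) n k = (((n + 1).ascFactorial k : ℕ) : ℤ) • 𝟙 H := by
  induction k with
  | zero => simp
  | succ k ih =>
    rw [trT_succ, ih, Nat.ascFactorial_succ, Preadditive.zsmul_comp, Category.id_comp, smul_smul]
    congr 1
    push_cast
    ring

section HQ

variable {H : T} (U : Tel (X := fun _ => H) (mulSeq H))

theorem smul_ι (n k : ℕ) :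
    (((n + 1).ascFactorial k : ℕ) : ℤ) • U.ι (n + k) = U.ι n := by
  rw [← U.trT_ι n k, trT_mulSeq, Preadditive.zsmul_comp, Category.id_comp]

theorem smul_ι_zero (k : ℕ) : (((0 + 1).ascFactorial k : ℕ) : ℤ) • U.ι k = U.ι 0 := by
  have h := smul_ι U 0 k
  rwa [Nat.zero_add k] at h

theorem asc_ne (n k : ℕ) : (((n + 1).ascFactorial k : ℕ) : ℤ) ≠ 0 := by
  exact_mod_cast (Nat.ascFactorial_pos n k).ne'

variable {e : 𝟙_ T ⟶ H}
  (hpos : ∀ k : ℤ, k ≠ 0 → ∀ g : (𝟙_ T)⟦k⟧ ⟶ H, g = 0)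
  (hint : ∀ f : 𝟙_ T ⟶ H, ∃ m : ℤ, f = m • e)
  (hinj : ∀ m : ℤ, m • e = 0 → m = 0)

include hpos in
theorem hq_conc (k : ℤ) (hk : k ≠ 0) (g : (𝟙_ T)⟦k⟧ ⟶ U.obj) : g = 0 := by
  obtain ⟨n, a, rfl⟩ := U.exists_factor (cpt_sphere k) g
  rw [hpos k hk a, zero_comp]

theorem cpt_unit : S.IsCpt (𝟙_ T) := (cpt_sphere 0).of_iso ((shiftFunctorZero T ℤ).app (𝟙_ T))

include hint in
theorem hq_factor (f : 𝟙_ T ⟶ U.obj) : ∃ (n : ℕ) (a : ℤ), f = a • e ≫ U.ι n := by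
  obtain ⟨n, a, rfl⟩ := U.exists_factor cpt_unit f
  obtain ⟨m, rfl⟩ := hint a
  exact ⟨n, m, by rw [Preadditive.zsmul_comp]⟩

include hinj in
theorem hq_zero (n : ℕ) (a : ℤ) (h : a • e ≫ U.ι n = 0) : a = 0 := by
  rw [← Preadditive.zsmul_comp] at h
  obtain ⟨k, hk⟩ := U.exists_eq_zero cpt_unit (a • e) h
  rw [trT_mulSeq, Preadditive.comp_zsmul, Category.comp_id, smul_smul] at hk
  rcases mul_eq_zero.1 (hinj _ hk) with h | h
  · exact absurd h (asc_ne n k)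
  · exact h

include hint in
theorem hq_gen (f : 𝟙_ T ⟶ U.obj) : ∃ a m : ℤ, m ≠ 0 ∧ m • f = a • e ≫ U.ι 0 := by
  obtain ⟨n, a, rfl⟩ := hq_factor U hint f
  refine ⟨a, _, asc_ne 0 n, ?_⟩
  rw [← smul_ι_zero U n, Preadditive.comp_zsmul, smul_smul, smul_smul, mul_comm]

include hinj in
theorem hq_ne : e ≫ U.ι 0 ≠ 0 := fun h =>
  one_ne_zero (hq_zero U hinj 0 1 (by rw [one_smul, h]))

include hint hinj in
theorem hq_div (m : ℤ) (hm : m ≠ 0) :
    Function.Bijective (fun f : 𝟙_ T ⟶ U.obj => m • f) := by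
  constructor
  · intro f f' h
    rw [← sub_eq_zero]
    replace h : m • f - m • f' = 0 := sub_eq_zero.2 h
    rw [← smul_sub] at h
    generalize f - f' = g at h
    obtain ⟨n, a, rfl⟩ := hq_factor U hint g
    rw [smul_smul] at h
    rcases mul_eq_zero.1 (hq_zero U hinj n _ h) with h | h
    · exact absurd h hm
    · rw [h, zero_smul]
  · intro f
    obtain ⟨n, a, rfl⟩ := hq_factor U hint f
    obtain ⟨c, hc⟩ : m ∣ (((n + 1).ascFactorial m.natAbs : ℕ) : ℤ) := by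
      rw [← Int.natAbs_dvd, Int.natCast_dvd_natCast]
      exact (Nat.dvd_factorial (Int.natAbs_pos.2 hm) le_rfl).trans
        (Nat.factorial_dvd_ascFactorial _ _)
    refine ⟨(c * a) • e ≫ U.ι (n + m.natAbs), ?_⟩
    dsimp only
    rw [← smul_ι U n m.natAbs, hc, Preadditive.comp_zsmul, smul_smul, smul_smul]
    congr 1
    ring

theorem isIso_zsmul {K : T} (h0 : ∀ k : ℤ, k ≠ 0 → ∀ g : (𝟙_ T)⟦k⟧ ⟶ K, g = 0) {m : ℤ}
    (hm : Function.Bijective (fun f : 𝟙_ T ⟶ K => m • f)) : IsIso (m • 𝟙 K) := by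
  let ε : (𝟙_ T)⟦(0 : ℤ)⟧ ≅ 𝟙_ T := (shiftFunctorZero T ℤ).app (𝟙_ T)
  refine isIso_of_bijective_hom (fun k => (𝟙_ T)⟦k⟧)
    (fun k k' h => ⟨((shiftFunctorAdd' T k 1 k' h).app (𝟙_ T)).symm⟩)
    (fun X hX => StableCat.generator X hX) _ ?_ ?_
  · intro k x hx
    by_cases hk : k = 0
    · subst hk
      rw [Preadditive.comp_zsmul, Category.comp_id] at hx
      have h1 : m • (ε.inv ≫ x) = m • (0 : 𝟙_ T ⟶ K) := by
        rw [← Preadditive.comp_zsmul, hx, comp_zero, smul_zero]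
      have h2 := hm.1 h1
      rw [← cancel_epi ε.inv, h2, comp_zero]
    · exact h0 k hk x
  · intro k y
    by_cases hk : k = 0
    · subst hk
      obtain ⟨x, hx⟩ := hm.2 (ε.inv ≫ y)
      refine ⟨ε.hom ≫ x, ?_⟩
      rw [Preadditive.comp_zsmul, Category.comp_id, ← Preadditive.comp_zsmul]
      dsimp only at hx
      rw [hx, Iso.hom_inv_id_assoc]
    · exact ⟨0, by rw [h0 k hk y, zero_comp]⟩

/-- Maps from a `1`-connective cellular object to `K` vanish. -/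
theorem eq_zero_of_bigCell {K : T} (h0 : ∀ k : ℤ, k ≠ 0 → ∀ g : (𝟙_ T)⟦k⟧ ⟶ K, g = 0)
    {Y : T} (hY : BigCell T 1 Y) (f : Y ⟶ K) : f = 0 := by
  induction hY with
  | sphere k hk => exact h0 k (by omega) f
  | coprod X _ ih =>
    apply Sigma.hom_ext
    intro i
    rw [comp_zero]
    exact ih i _
  | ext Δ hΔ _ _ ih₁ ih₃ =>
    obtain ⟨g, hg⟩ := Triangle.yoneda_exact₂ Δ hΔ f (ih₁ _)
    rw [hg, ih₃ g, comp_zero]

/-- Restriction along a map with `2`-connective cellular cofibre. -/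
theorem bij_of_cofIn {K : T} (h0 : ∀ k : ℤ, k ≠ 0 → ∀ g : (𝟙_ T)⟦k⟧ ⟶ K, g = 0)
    {X Y : T} {f : X ⟶ Y} (hf : CofIn (BigCell T 2) f) :
    Function.Bijective (fun g : Y ⟶ K => f ≫ g) := by
  obtain ⟨Z, a, b, D, hZ⟩ := hf
  constructor
  · intro g g' h
    rw [← sub_eq_zero]
    replace h : f ≫ (g - g') = 0 := by
      rw [Preadditive.comp_sub, sub_eq_zero]
      exact h
    obtain ⟨c, hc⟩ := D.desc₂ _ h
    rw [← hc, eq_zero_of_bigCell h0 (hZ.mono (by norm_num)) c, comp_zero]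
  · intro g
    obtain ⟨x, y, D'⟩ := Dist.invRot' D
    exact D'.desc₂ g (eq_zero_of_bigCell h0 (hZ.shift (-1) 1 (by norm_num)) _)

/-- Restriction along the start of the telescope of the multiplications. -/
theorem bij_tel {K : T} (hK : ∀ m : ℤ, m ≠ 0 → IsIso (m • 𝟙 K)) (W : T) :
    Function.Bijective (fun g : U.obj ⊗ W ⟶ K => (U.ι 0 ▷ W) ≫ g) := by
  have hw : ∀ n, mulSeq H n ▷ W = ((n + 1 : ℕ) : ℤ) • 𝟙 (H ⊗ W) := by
    intro n
    rw [← id_whiskerRight]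
    exact ((tensorRight W).map_zsmul ..)
  have hne : ∀ n : ℕ, ((n + 1 : ℕ) : ℤ) ≠ 0 := fun n => by exact_mod_cast (Nat.succ_ne_zero n)
  constructor
  · intro g g' h
    rw [← sub_eq_zero]
    replace h : (U.ι 0 ▷ W) ≫ (g - g') = 0 := by
      rw [Preadditive.comp_sub, sub_eq_zero]
      exact h
    refine (U.tensR W).eq_zero ?_ _ ?_
    · refine Vale.Agent.P251.S.lim1_of_surjective (A := fun _ => (H ⊗ W ⟶ K⟦(-1 : ℤ)⟧)) ?_
      intro n y
      have := hK _ (hne n)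
      refine ⟨y ≫ (inv (((n + 1 : ℕ) : ℤ) • 𝟙 K))⟦(-1 : ℤ)⟧', ?_⟩
      change mulSeq H n ▷ W ≫ _ = y
      rw [hw, Preadditive.zsmul_comp, Category.id_comp, ← Preadditive.comp_zsmul,
        ← Functor.map_zsmul]
      have h1 : ((n + 1 : ℕ) : ℤ) • inv (((n + 1 : ℕ) : ℤ) • 𝟙 K) = 𝟙 K := by
        have h2 := IsIso.hom_inv_id (((n + 1 : ℕ) : ℤ) • 𝟙 K)
        rwa [Preadditive.zsmul_comp, Category.id_comp] at h2
      rw [h1, CategoryTheory.Functor.map_id, Category.comp_id]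
    · intro n
      have h1 : (((0 + 1).ascFactorial n : ℕ) : ℤ) • ((U.ι n ▷ W) ≫ (g - g')) = 0 := by
        have h2 := congrArg (fun x => x ▷ W) (smul_ι_zero U n)
        have h3 : ((((0 + 1).ascFactorial n : ℕ) : ℤ) • U.ι n) ▷ W =
          (((0 + 1).ascFactorial n : ℕ) : ℤ) • (U.ι n ▷ W) := (tensorRight W).map_zsmul ..
        rw [h3] at h2
        rw [← Preadditive.zsmul_comp, h2, h]
      have := hK _ (asc_ne 0 n)
      change (U.ι n ▷ W) ≫ (g - g') = 0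
      rw [← cancel_mono ((((0 + 1).ascFactorial n : ℕ) : ℤ) • 𝟙 K),
        Preadditive.comp_zsmul, Category.comp_id, h1, zero_comp]
  · intro y
    choose j hj using fun n : ℕ => (hK _ (hne n)).out
    let d : ℕ → (K ⟶ K) := fun n => Nat.rec (𝟙 K) (fun n d => d ≫ j n) n
    have hd : ∀ n, d (n + 1) = d n ≫ j n := fun _ => rfl
    obtain ⟨l, hl⟩ := (U.tensR W).exists_desc (Z := K) (fun n => y ≫ d n) (by
      intro n
      change (mulSeq H n ▷ W) ≫ y ≫ d (n + 1) = y ≫ d n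
      rw [hw, Preadditive.zsmul_comp, Category.id_comp, ← Preadditive.comp_zsmul, hd]
      congr 1
      rw [← Preadditive.comp_zsmul]
      have h1 : ((n + 1 : ℕ) : ℤ) • j n = 𝟙 K := by
        have h2 := (hj n).1
        rwa [Preadditive.zsmul_comp, Category.id_comp] at h2
      rw [h1, Category.comp_id])
    exact ⟨l, (hl 0).trans (Category.comp_id y)⟩

end HQ

/-- The rational Eilenberg-Mac Lane spectrum, as a commutative monoid. -/
theorem exists_HQ [LocallySmall.{0} T] (F : SpaceFunctor T) :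
    ∃ (K : T) (_ : MonObj K) (_ : IsCommMonObj K),
      (∀ k : ℤ, k ≠ 0 → ∀ g : (𝟙_ T)⟦k⟧ ⟶ K, g = 0) ∧
      MonObj.one (X := K) ≠ 0 ∧
      (∀ m : ℤ, m ≠ 0 → Function.Bijective (fun f : 𝟙_ T ⟶ K => m • f)) ∧
      ∀ f : 𝟙_ T ⟶ K, ∃ a m : ℤ, m ≠ 0 ∧ m • f = a • MonObj.one (X := K) := by
  obtain ⟨H, e, hc, hp⟩ := exists_HZ (T := T)
  obtain ⟨J, a, b, D, hJ⟩ := hc
  have hJ' : Conn 2 J := hJ.conn (unit_conn F) (fun Y k f => StableCat.compact k Y f)
  have hpos : ∀ k : ℤ, k ≠ 0 → ∀ g : (𝟙_ T)⟦k⟧ ⟶ H, g = 0 := by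
    intro k hk g
    rcases lt_or_gt_of_ne hk with h | h
    · exact conn_ring F D hJ' k h g
    · exact hp k (by omega) g
  have hint : ∀ f : 𝟙_ T ⟶ H, ∃ m : ℤ, f = m • e := exists_int_ring F D hJ'
  have hinj : ∀ m : ℤ, m • e = 0 → m = 0 := eq_zero_of_zsmul_unit F D hJ'
  let U : Tel (X := fun _ => H) (mulSeq H) := tel _
  have h0 := hq_conc U hpos
  have hdiv := hq_div U hint hinj
  have hiso : ∀ m : ℤ, m ≠ 0 → IsIso (m • 𝟙 U.obj) := fun m hm => isIso_zsmul h0 (hdiv m hm)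
  have h1 : BigCell T 0 (𝟙_ T) :=
    BigCell.of_iso ((shiftFunctorZero T ℤ).app (𝟙_ T)) (BigCell.sphere 0 le_rfl)
  have hH : BigCell T 0 H := BigCell.ext _ D h1 (hJ.mono (by norm_num))
  have hK : BigCell T 0 U.obj := BigCell.tel U.isTel fun _ => hH
  have hR : ∀ W, BigCell T 0 W → Restr (e ≫ U.ι 0) W := by
    intro W hW
    have h2 : CofIn (BigCell T 2) (e ▷ W) :=
      CofIn.whiskerRight (P := BigCell T 2) (bigCell_extClosed 2) W
        (fun X hX => hW.tensor hX 2 (by norm_num)) ⟨J, a, b, D, hJ⟩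
    have h3 := (bij_of_cofIn h0 h2).comp (bij_tel U hiso W)
    refine ⟨fun x y hxy => h3.1 ?_, fun y => ?_⟩
    · dsimp only [Function.comp] at hxy ⊢
      rwa [comp_whiskerRight_assoc, comp_whiskerRight_assoc] at hxy
    · obtain ⟨x, hx⟩ := h3.2 y
      exact ⟨x, by dsimp only; rw [comp_whiskerRight_assoc]; exact hx⟩
  obtain ⟨i1, i2, he⟩ := exists_commMon (e ≫ U.ι 0) (hR _ h1) (hR _ hK)
    (hR _ (hK.tensor hK 0 (by norm_num)))
  refine ⟨U.obj, i1, i2, h0, ?_, hdiv, ?_⟩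
  · rw [he]; exact hq_ne U hinj
  · rw [he]; exact hq_gen U hint

end Vale.Agent.P251.X
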