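import Vale.Agent.P251.X.HomV
import Vale.Agent.P251.X.OpOf

/-!
# P251, part X: the representing monoid of the oplax theory of a lax theory

* `small_MP`, `small_Vtot`;
* `LaxTh.exists_rep` : the commutative monoid which represents the degree `0` part.
-/

open CategoryTheory MonoidalCategory Limits Pretriangulated MonObj

set_option linter.unusedSectionVars false

universe w v u

namespace Vale.Agent.P251.X

open Vale.Agent.P251.T Vale.Agent.P251.M Vale.Agent.P251.M.EvenSpheres Vale.Agent.P251.H

section small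

variable {T : Type u} [Category.{v} T] [Preadditive T] [MonoidalCategory T]
  [MonoidalPreadditive T] [SymmetricCategory T] {E : EvenSpheres T} [LocallySmall.{0} T]

theorem small_MP (P W : T) [MonObj P] : Small.{0} (MP E P W) := by
  have h : ∀ j : ℤ, Small.{0} (E.Gr (P ⊗ W) j) := fun j =>
    inferInstanceAs (Small.{0} (E.S j ⟶ P ⊗ W))
  have h2 : Small.{0} (∀ j : ℤ, E.Gr (P ⊗ W) j) := inferInstance
  change Small.{0} (DirectSum ℤ (E.Gr (P ⊗ W)))
  exact small_of_injective (β := ∀ j : ℤ, E.Gr (P ⊗ W) j)
    (f := fun (x : DirectSum ℤ (E.Gr (P ⊗ W))) j => x j) DFunLike.coe_injective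

theorem small_Vtot {P : T} [MonObj P] {p N : ℕ} (c : Pt E P p N) (W : T) :
    Small.{0} (Vtot c W) := by
  have := small_MP (E := E) P W
  exact small_of_surjective (Vtot.mk_surjective (c := c) (W := W))

end small

section rep

variable {k : Type} [Field k] {T : Type u} [Category.{v} T] [Preadditive T] [HasZeroObject T]
    [HasShift T ℤ] [∀ n : ℤ, (shiftFunctor T n).Additive] [Pretriangulated T] [IsTriangulated T]
    [MonoidalCategory T] [SymmetricCategory T] [TensorTriangulated T] [MonoidalClosed T]
    [HasCoproducts.{0} T] [HasProducts.{0} T] [StableCat T] [LocallySmall.{0} T]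

theorem unit_isCpt : H.IsCpt (𝟙_ T) := fun n _ X f => StableCat.compact n X f

theorem unit_isGen : H.IsGen (𝟙_ T) := StableCat.generator

theorem LaxTh.kun {F : LaxTh.{w} k T} (s : F.Sph (stdEven T)) : F.Kun :=
  fun Y X => F.kap_bij unit_isCpt unit_isGen s Y X

/-- The commutative monoid which represents the degree `0` part of a graded lax theory. -/
theorem LaxTh.exists_rep {F : LaxTh.{w} k T} (hF : ∀ X, Small.{0} (F.V X)) {A : Type}
    [AddCommGroup A] (K : F.Kun) (g : F.Gra A) (s : F.Sph (stdEven T)) :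
    ∃ M : T, Nonempty ((LaxTh.opTh K g s).pre.Rep M) := by
  refine OpTh.exists_monoid _ unit_isCpt unit_isGen fun n => ?_
  have := hF ((𝟙_ T)⟦n⟧)
  exact small_of_injective (β := F.V ((𝟙_ T)⟦n⟧))
    (f := fun x : g.H 0 ((𝟙_ T)⟦n⟧) => (x : F.V ((𝟙_ T)⟦n⟧))) Subtype.val_injective

end rep

end Vale.Agent.P251.X
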