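import Vale.Agent.P251.X.Defs
import Vale.Agent.P251.I.M2
import Vale.Agent.P251.M.KBasis
import Vale.Agent.P251.M.MUInv

/-!
# P251, part X (X2a): maps from tensor powers of `R` to modules

* `NoMap E Y N` : every map `S^{2k} ⊗ Y ⟶ N` vanishes, for all `k : ℤ`;
* `NoMap.basis` : if `R ⊗ X` is free over `R` on even spheres and `N` is an `R`-module, then
  `NoMap E Y N` implies `NoMap E (X ⊗ Y) N`;
* `NoMap.R_left`, `NoMap.R_right` : the case `X = R = MU`;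
* `noMap_odd` : `NoMap E (𝟙⟦1⟧) N` if the odd homotopy of `N` vanishes;
* `noMap_three`, `swap_odd` : the vanishing hypotheses of the quotient lemma.
-/

open CategoryTheory MonoidalCategory MonObj Limits Pretriangulated

universe v u

namespace Vale.Agent.P251.X

open Vale.Agent.P251.S Vale.Agent.P251.T Vale.Agent.P251.M Vale.Agent.P251.M.EvenSpheres
  Vale.Agent.P251.I

set_option linter.unusedSectionVars false

section lin

variable {T : Type u} [Category.{v} T] [MonoidalCategory T] {R : T} [MonObj R] {N : T}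

/-- The linear extension `R ⊗ Y ⟶ N` of `f : Y ⟶ N`, for an `R`-module `N`. -/
def linExt (M : ModStr R N) {Y : T} (f : Y ⟶ N) : R ⊗ Y ⟶ N := R ◁ f ≫ M.act

@[reassoc]
theorem bind_linExt (M : ModStr R N) {X Y : T} (g : X ⟶ R ⊗ Y) (f : Y ⟶ N) :
    FM.bind g ≫ linExt M f = linExt M (g ≫ linExt M f) := by
  unfold FM.bind linExt
  simp only [MonoidalCategory.whiskerLeft_comp, Category.assoc]
  congr 1
  rw [← whisker_exchange_assoc, M.mul_act, associator_naturality_right_assoc,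
    Iso.inv_hom_id_assoc]

@[reassoc]
theorem unit_linExt (M : ModStr R N) {Y : T} (f : Y ⟶ N) : FM.unit R Y ≫ linExt M f = f := by
  unfold FM.unit linExt
  rw [Category.assoc, ← whisker_exchange_assoc, M.one_act, leftUnitor_naturality,
    Iso.inv_hom_id_assoc]

theorem unit_tensor (Y Z : T) : FM.unit R (Y ⊗ Z) = FM.unit R Y ▷ Z ≫ (α_ R Y Z).hom := by
  simp [FM.unit]

theorem bind_whiskerRight {X Y : T} (g : X ⟶ R ⊗ Y) (Z : T) :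
    FM.bind g ▷ Z = (α_ R X Z).hom ≫ FM.bind (g ▷ Z ≫ (α_ R Y Z).hom) ≫ (α_ R Y Z).inv := by
  unfold FM.bind
  simp

end lin

variable {T : Type u} [Category.{v} T] [Preadditive T] [HasZeroObject T]
    [HasShift T ℤ] [∀ n : ℤ, (shiftFunctor T n).Additive] [Pretriangulated T] [IsTriangulated T]
    [MonoidalCategory T] [SymmetricCategory T] [TensorTriangulated T] [MonoidalClosed T]
    [HasCoproducts.{0} T] [HasProducts.{0} T] [StableCat T]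

/-- Every map `S^{2k} ⊗ Y ⟶ N` vanishes. -/
def NoMap (E : EvenSpheres T) (Y N : T) : Prop := ∀ (k : ℤ) (f : E.S k ⊗ Y ⟶ N), f = 0

namespace NoMap

variable {E : EvenSpheres T} {Y Y' N : T}

theorem of_iso (e : Y ≅ Y') (h : NoMap E Y N) : NoMap E Y' N := by
  intro k f
  have h1 := h k (E.S k ◁ e.hom ≫ f)
  have h2 : E.S k ◁ e.inv ≫ E.S k ◁ e.hom ≫ f = 0 := by rw [h1, comp_zero]
  rwa [← MonoidalCategory.whiskerLeft_comp_assoc, e.inv_hom_id, MonoidalCategory.whiskerLeft_id,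
    Category.id_comp] at h2

theorem of_retract (i : Y' ⟶ Y) (r : Y ⟶ Y') (e : i ≫ r = 𝟙 Y') (h : NoMap E Y N) :
    NoMap E Y' N := by
  intro k f
  have h1 := h k (E.S k ◁ r ≫ f)
  have h2 : E.S k ◁ i ≫ E.S k ◁ r ≫ f = 0 := by rw [h1, comp_zero]
  rwa [← MonoidalCategory.whiskerLeft_comp_assoc, e, MonoidalCategory.whiskerLeft_id,
    Category.id_comp] at h2

theorem target_retract {N' : T} (i : N' ⟶ N) (r : N ⟶ N') (e : i ≫ r = 𝟙 N')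
    (h : NoMap E Y N) : NoMap E Y N' := by
  intro k f
  have h1 := h k (f ≫ i)
  have h2 : (f ≫ i) ≫ r = 0 := by rw [h1, zero_comp]
  rwa [Category.assoc, e, Category.comp_id] at h2

theorem target_iso {N' : T} (e : N ≅ N') (h : NoMap E Y N) : NoMap E Y N' :=
  h.target_retract e.inv e.hom e.inv_hom_id

theorem eq_zero (h : NoMap E Y N) (f : Y ⟶ N) : f = 0 := by
  have h1 := h 0 ((λ_ Y).hom ≫ f)
  have h2 : (λ_ Y).inv ≫ (λ_ Y).hom ≫ f = 0 := by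
    rw [show (λ_ Y).hom ≫ f = 0 from h1, comp_zero]
  rwa [Iso.inv_hom_id_assoc] at h2

theorem sphere (h : NoMap E Y N) (m : ℤ) : NoMap E (E.S m ⊗ Y) N := by
  intro k f
  have h1 := h (k + m) ((E.mu k m (k + m) rfl).inv ▷ Y ≫ (α_ _ _ _).hom ≫ f)
  have h2 : f = (α_ (E.S k) (E.S m) Y).inv ≫ (E.mu k m (k + m) rfl).hom ▷ Y ≫
      (E.mu k m (k + m) rfl).inv ▷ Y ≫ (α_ _ _ _).hom ≫ f := by
    rw [← comp_whiskerRight_assoc, Iso.hom_inv_id, id_whiskerRight, Category.id_comp,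
      Iso.inv_hom_id_assoc]
  rw [h2, h1, comp_zero, comp_zero]

theorem swap_tensor (h : NoMap E (Y ⊗ Y') N) : NoMap E (Y' ⊗ Y) N := h.of_iso (β_ _ _)

theorem left_comm {Z : T} (h : NoMap E (Y ⊗ (Z ⊗ Y')) N) : NoMap E (Z ⊗ (Y ⊗ Y')) N :=
  h.of_iso ((α_ Y Z Y').symm ≪≫ whiskerRightIso (β_ Y Z) Y' ≪≫ α_ Z Y Y')

theorem assoc {Z : T} (h : NoMap E (Y ⊗ (Z ⊗ Y')) N) : NoMap E ((Y ⊗ Z) ⊗ Y') N :=
  h.of_iso (α_ Y Z Y').symm

theorem assoc' {Z : T} (h : NoMap E ((Y ⊗ Z) ⊗ Y') N) : NoMap E (Y ⊗ (Z ⊗ Y')) N :=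
  h.of_iso (α_ Y Z Y')

/-- Coproducts. -/
theorem coprod {I : Type} (Y : I → T) (h : ∀ i, NoMap E (Y i) N) : NoMap E (∐ Y) N := by
  intro k f
  have hl : (tensorLeft (E.S k)).IsLeftAdjoint := ⟨_, ⟨ihom.adjunction _⟩⟩
  have h1 : sigmaComparison (tensorLeft (E.S k)) Y ≫ f = 0 := by
    apply Sigma.hom_ext
    intro i
    have e1 : Sigma.ι (fun i => E.S k ⊗ Y i) i ≫ sigmaComparison (tensorLeft (E.S k)) Y =
      E.S k ◁ Sigma.ι Y i := ι_comp_sigmaComparison (tensorLeft (E.S k)) Y i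
    have e2 : E.S k ◁ Sigma.ι Y i ≫ f = 0 := h i k _
    rw [comp_zero, ← e2, ← e1, Category.assoc]
    rfl
  have h2 : f = inv (sigmaComparison (tensorLeft (E.S k)) Y) ≫
      sigmaComparison (tensorLeft (E.S k)) Y ≫ f := by simp
  rw [h2, h1, comp_zero]

/-- Extensions. -/
theorem ext₂ {Δ : Triangle T} (hΔ : Δ ∈ distTriang T) (h₁ : NoMap E Δ.obj₁ N)
    (h₃ : NoMap E Δ.obj₃ N) : NoMap E Δ.obj₂ N := by
  intro k f
  have hd := TensorTriangulated.distinguished (E.S k) Δ hΔ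
  obtain ⟨g, hg⟩ := Triangle.yoneda_exact₂ _ hd f (h₁ k _)
  have hg0 : g = 0 := h₃ k g
  rw [hg, hg0]
  exact comp_zero

theorem ext₃ {Δ : Triangle T} (hΔ : Δ ∈ distTriang T) (h₁ : NoMap E (Δ.obj₁⟦(1 : ℤ)⟧) N)
    (h₂ : NoMap E Δ.obj₂ N) : NoMap E Δ.obj₃ N :=
  ext₂ (rot_of_distTriang Δ hΔ) h₂ h₁

theorem ext₁ {Δ : Triangle T} (hΔ : Δ ∈ distTriang T) (h₂ : NoMap E Δ.obj₂ N)
    (h₃ : NoMap E (Δ.obj₃⟦(-1 : ℤ)⟧) N) : NoMap E Δ.obj₁ N :=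
  ext₂ (inv_rot_of_distTriang Δ hΔ) h₃ h₂

/-- **The key step**: the linear extension of `f : X ⊗ Y ⟶ N` is defined on
`R ⊗ X ⊗ Y = ∐ R ⊗ S(k_j) ⊗ Y`. -/
theorem eq_zero_of_basis {R X : T} [MonObj R] [MonObj X] (M : ModStr R N) {J : Type}
    (b : GBasis E (inlM R X) J) (h : NoMap E Y N) (f : X ⊗ Y ⟶ N) : f = 0 := by
  have hb := b.isIsoY Y
  have h1 : Sigma.desc (fun j => ((inlM R X ⊗ₘ b.w j) ≫ μ[R ⊗ X]) ▷ Y) ≫ (α_ R X Y).hom ≫
      linExt M f = 0 := by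
    apply Sigma.hom_ext
    intro j
    rw [Sigma.ι_desc_assoc, comp_zero, inlM_tensor_mul (b.w j)]
    rw [bind_whiskerRight, Category.assoc, Category.assoc, Iso.inv_hom_id_assoc, bind_linExt]
    have h2 : (b.w j ▷ Y ≫ (α_ R X Y).hom) ≫ linExt M f = 0 := h _ _
    rw [h2, linExt, MonoidalPreadditive.whiskerLeft_zero, zero_comp, comp_zero]
  have h3 : (α_ R X Y).hom ≫ linExt M f = 0 := by
    rw [← cancel_epi (Sigma.desc fun j => ((inlM R X ⊗ₘ b.w j) ≫ μ[R ⊗ X]) ▷ Y), h1, comp_zero]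
  have h4 : linExt M f = 0 := by
    rw [← cancel_epi (α_ R X Y).hom, h3, comp_zero]
  rw [← unit_linExt M f, h4, comp_zero]

theorem basis {R X : T} [MonObj R] [MonObj X] (M : ModStr R N) {J : Type}
    (b : GBasis E (inlM R X) J) (h : NoMap E Y N) : NoMap E (X ⊗ Y) N := by
  intro k f
  have h1 : (α_ X (E.S k) Y).inv ≫ (β_ X (E.S k)).hom ▷ Y ≫ (α_ (E.S k) X Y).hom ≫ f = 0 :=
    eq_zero_of_basis M b (h.sphere k) _
  have h2 : f = (α_ (E.S k) X Y).inv ≫ (β_ X (E.S k)).inv ▷ Y ≫ (α_ X (E.S k) Y).hom ≫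
      (α_ X (E.S k) Y).inv ≫ (β_ X (E.S k)).hom ▷ Y ≫ (α_ (E.S k) X Y).hom ≫ f := by
    rw [Iso.hom_inv_id_assoc, ← comp_whiskerRight_assoc, Iso.inv_hom_id, id_whiskerRight,
      Category.id_comp, Iso.inv_hom_id_assoc]
  rw [h2, h1, comp_zero, comp_zero, comp_zero]

/-! ### `R = MU` -/

section MU

variable {F : SpaceFunctor T} {e : F.S.obj CCF ≅ (stdEven T).L} {D : MUData T}

theorem exists_gbasis (H : MUUniv e D) :
    ∃ b : GBasis (stdEven T) (inlM D.R D.R) (ℕ →₀ ℕ), ∀ a, b.k a = _root_.Vale.Agent.P251.F.Cob.degU a := by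
  obtain ⟨b, hk, _⟩ := H.basis
  have : IsMonHom (λ_ D.R).hom := inferInstance
  exact ⟨b.push (v := ((λ_ D.R).hom : Am D.R 1 ⟶ D.R)), hk⟩

/-- `NoMap` is stable under `R ⊗ -`. -/
theorem R_left (H : MUUniv e D) (M : ModStr D.R N) (h : NoMap (stdEven T) Y N) :
    NoMap (stdEven T) (D.R ⊗ Y) N := by
  obtain ⟨b, _⟩ := exists_gbasis H
  exact h.basis M b

/-- `NoMap` is stable under `- ⊗ R`. -/
theorem R_right (H : MUUniv e D) (M : ModStr D.R N) (h : NoMap (stdEven T) Y N) :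
    NoMap (stdEven T) (Y ⊗ D.R) N := (h.R_left H M).swap_tensor

end MU

/-! ### Odd spheres -/

theorem nonempty_odd (k : ℤ) :
    Nonempty ((stdEven T).S k ⊗ (𝟙_ T)⟦(1 : ℤ)⟧ ≅ (𝟙_ T)⟦2 * k + 1⟧) :=
  ⟨TensorTriangulated.e _ ≪≫ (shiftFunctor T (1 : ℤ)).mapIso ((stdEven T).sphIso (Iso.refl _) k) ≪≫
    ((shiftFunctorAdd T (2 * k) 1).app (𝟙_ T)).symm⟩

theorem noMap_odd_iff : NoMap (stdEven T) ((𝟙_ T)⟦(1 : ℤ)⟧) N ↔ Odd0 N := by
  constructor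
  · intro h k f
    obtain ⟨i⟩ := nonempty_odd (T := T) k
    rw [← cancel_epi i.hom, h k (i.hom ≫ f), comp_zero]
  · intro h k f
    obtain ⟨i⟩ := nonempty_odd (T := T) k
    rw [← cancel_epi i.inv, h k (i.inv ≫ f), comp_zero]

/-- `NoMap` for `S¹` if the odd homotopy of `N` vanishes. -/
theorem _root_.Vale.Agent.P251.X.Odd0.noMap (h : Odd0 N) :
    NoMap (stdEven T) ((𝟙_ T)⟦(1 : ℤ)⟧) N := noMap_odd_iff.mpr h

/-- `S¹ ⊗ S¹ = S²`. -/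
theorem two (h : NoMap (stdEven T) Y N) :
    NoMap (stdEven T) ((𝟙_ T)⟦(1 : ℤ)⟧ ⊗ ((𝟙_ T)⟦(1 : ℤ)⟧ ⊗ Y)) N :=
  (h.sphere 1).of_iso (whiskerRightIso (ρ_ (stdEven T).L) Y ≪≫
    (α_ ((𝟙_ T)⟦(1 : ℤ)⟧) ((𝟙_ T)⟦(1 : ℤ)⟧) Y))

end NoMap

/-! ### The vanishing hypotheses of the quotient lemma -/

section van

variable {N : T}

theorem Odd0.h1 (h : Odd0 N) (d : ℤ) (f : (stdEven T).S d ⊗ (𝟙_ T)⟦(1 : ℤ)⟧ ⟶ N) : f = 0 :=
  h.noMap d f

theorem Odd0.h2 (h : Odd0 N) (d : ℤ)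
    (f : (stdEven T).S d ⊗ ((stdEven T).S d ⊗ (𝟙_ T)⟦(1 : ℤ)⟧) ⟶ N) : f = 0 :=
  (h.noMap.sphere d) d f

theorem Odd0.h3 (h : Odd0 N) (d : ℤ)
    (f : ((stdEven T).S d ⊗ (𝟙_ T)⟦(1 : ℤ)⟧) ⊗ (((stdEven T).S d ⊗ (𝟙_ T)⟦(1 : ℤ)⟧) ⊗
      ((stdEven T).S d ⊗ (𝟙_ T)⟦(1 : ℤ)⟧)) ⟶ N) : f = 0 := by
  apply NoMap.eq_zero (E := stdEven T)
  apply NoMap.assoc
  apply NoMap.sphere
  -- `S₁ ⊗ ((S d ⊗ S₁) ⊗ (S d ⊗ S₁))`
  refine NoMap.of_iso (whiskerLeftIso _ ((α_ _ _ _).symm)) ?_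
  refine NoMap.of_iso (Y := (stdEven T).S d ⊗ ((𝟙_ T)⟦(1 : ℤ)⟧ ⊗ ((𝟙_ T)⟦(1 : ℤ)⟧ ⊗
    ((stdEven T).S d ⊗ (𝟙_ T)⟦(1 : ℤ)⟧)))) ?_ ?_
  · exact (α_ _ _ _).symm ≪≫ whiskerRightIso (β_ _ _) _ ≪≫ α_ _ _ _
  · exact (h.noMap.sphere d).two.sphere d

theorem braid_sphere (E : EvenSpheres T) (d : ℤ) : (β_ (E.S d) (E.S d)).hom = 𝟙 _ := by
  have h := E.mu_comm d d (d + d) rfl rfl
  rw [← cancel_mono (E.mu d d (d + d) rfl).hom, h, Category.id_comp]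

theorem swap_mul {A B : T} (hA : (β_ A A).hom = 𝟙 (A ⊗ A)) (hB : (β_ B B).hom = -𝟙 (B ⊗ B)) :
    (β_ (A ⊗ B) (A ⊗ B)).hom = -𝟙 ((A ⊗ B) ⊗ (A ⊗ B)) := by
  have e1 : (β_ B (A ⊗ B)).hom = -((α_ B A B).inv ≫ (β_ B A).hom ▷ B) := by
    rw [BraidedCategory.braiding_tensor_right_hom, hB, whiskerLeft_neg']
    simp
  have e2 : (β_ A (A ⊗ B)).hom = A ◁ (β_ A B).hom ≫ (α_ A B A).inv := by
    rw [BraidedCategory.braiding_tensor_right_hom, hA]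
    simp
  rw [BraidedCategory.braiding_tensor_left_hom, e1, e2, whiskerLeft_neg']
  simp only [Preadditive.neg_comp, Preadditive.comp_neg]
  congr 1
  simp only [MonoidalCategory.whiskerLeft_comp, comp_whiskerRight, Category.assoc]
  rw [associator_inv_naturality_middle_assoc, ← comp_whiskerRight_assoc,
    ← MonoidalCategory.whiskerLeft_comp, SymmetricCategory.symmetry,
    MonoidalCategory.whiskerLeft_id, id_whiskerRight, Category.id_comp]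
  monoidal

/-- The swap of an odd sphere with itself. -/
theorem swap_odd (d : ℤ) : (β_ ((stdEven T).S d ⊗ (𝟙_ T)⟦(1 : ℤ)⟧)
    ((stdEven T).S d ⊗ (𝟙_ T)⟦(1 : ℤ)⟧)).hom = -𝟙 _ :=
  swap_mul (braid_sphere _ d) TensorTriangulated.sign

/-- The vanishing hypotheses of the quotient lemma. -/
theorem QIn.van_of_odd {A C : T} {d : ℤ} [MonObj A] [IsCommMonObj A]
    (q : QIn A C ((stdEven T).S d) ((𝟙_ T)⟦(1 : ℤ)⟧)) (h : Odd0 C)
    (half : ∃ t : C ⟶ C, t + t = 𝟙 C) : q.Van where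
  h1 := h.h1 d
  h2 := h.h2 d
  h3 := h.h3 d
  half := half
  swap := swap_odd d

end van

end Vale.Agent.P251.X
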