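import Vale.Agent.P251.X.PiP
import Vale.Agent.P251.X.Free
import Vale.Agent.P251.F.WtProj

/-!
# P251, part X (X3b): the base case `P = MU/p`

`P = R ⊗ S/p` with a commutative monoid structure for which `i₀ : R ⟶ R ⊗ S/p` is a morphism of
monoids: `HRing P = Laz / p`, the odd homotopy vanishes.
-/

open CategoryTheory MonoidalCategory Limits Pretriangulated MonObj

set_option linter.unusedSectionVars false

universe v u

namespace Vale.Agent.P251.X

open Vale.Agent.P251.T Vale.Agent.P251.M Vale.Agent.P251.M.EvenSpheres Vale.Agent.P251.S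
  Vale.Agent.P251.F Vale.Agent.P251.I Vale.Agent.P251.Z Vale.Agent.P251.H

variable {T : Type u} [Category.{v} T] [Preadditive T] [HasZeroObject T]
    [HasShift T ℤ] [∀ n : ℤ, (shiftFunctor T n).Additive] [Pretriangulated T] [IsTriangulated T]
    [MonoidalCategory T] [SymmetricCategory T] [TensorTriangulated T] [MonoidalClosed T]
    [HasCoproducts.{0} T] [HasProducts.{0} T] [StableCat T] (D : MUData T)

/-- `R ⟶ R ⊗ M` -/
noncomputable def iB {M : T} (iM : 𝟙_ T ⟶ M) : D.R ⟶ D.R ⊗ M := (ρ_ D.R).inv ≫ D.R ◁ iM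

theorem amOne_iB {M : T} (iM : 𝟙_ T ⟶ M) : amOne D.R ≫ iB D iM =
    (ρ_ (Am D.R 1)).inv ≫ (Am D.R 1 ◁ iM) ≫ amOne D.R ▷ M := by
  unfold iB
  rw [whisker_exchange, ← Category.assoc, ← Category.assoc, ← rightUnitor_inv_naturality]

theorem C_surj0 (z : Cob Laz 0) : ∃ y : Laz, MvPolynomial.C y = z :=
  MvPolynomial.C_surjective (Fin 0 × ℕ) z

section base

variable {p : ℕ} [Fact p.Prime] (hp : p ≠ 2) {M : T} {iM : 𝟙_ T ⟶ M}
  {δM : M ⟶ (𝟙_ T)⟦(1 : ℤ)⟧} (hM : Triangle.mk ((p : ℤ) • 𝟙 (𝟙_ T)) iM δM ∈ distTriang T)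

include hp hM

theorem odd_base : Odd0 (D.R ⊗ M) := by
  intro l f
  have h1 := D.odd p hp 0 M iM δM hM l (f ≫ (λ_ D.R).inv ▷ M)
  rw [← cancel_mono ((λ_ D.R).inv ▷ M), zero_comp]
  exact h1

theorem surj_base (w : ℤ) (f : (stdEven T).S w ⟶ D.R ⊗ M) :
    ∃ (z : Laz) (a : (stdEven T).S w ⟶ Am D.R 1),
      D.ev 0 (MvPolynomial.C z) = HRing.of (stdEven T) (Am D.R 1) w a ∧
      f = a ≫ amOne D.R ≫ iB D iM := by
  obtain ⟨z, a, -, h2, h3⟩ := D.surj p hp 0 M iM δM hM w (f ≫ (λ_ D.R).inv ▷ M)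
  obtain ⟨z, rfl⟩ := C_surj0 z
  refine ⟨z, a, h2, ?_⟩
  rw [amOne_iB]
  have h4 : f = (f ≫ (λ_ D.R).inv ▷ M) ≫ amOne D.R ▷ M := by
    unfold amOne
    rw [Category.assoc, ← comp_whiskerRight, Iso.inv_hom_id, id_whiskerRight, Category.comp_id]
  rw [h4, h3]
  simp only [Category.assoc]

theorem ker_base (w : ℤ) (z : Cob Laz 0) (hz : Cob.IsWt w z) (a : (stdEven T).S w ⟶ Am D.R 1)
    (ha : D.ev 0 z = HRing.of (stdEven T) (Am D.R 1) w a)
    (h : a ≫ amOne D.R ≫ iB D iM = 0) : ∃ y : Cob Laz 0, z = (p : ℤ) • y := by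
  have h1 : a ≫ (ρ_ (Am D.R 1)).inv ≫ (Am D.R 1 ◁ iM) = 0 := by
    have h2 : IsIso (amOne D.R ▷ M) := inferInstanceAs (IsIso ((λ_ D.R).hom ▷ M))
    rw [← cancel_mono (amOne D.R ▷ M), zero_comp, Category.assoc, Category.assoc, ← amOne_iB, h]
  obtain ⟨y, -, hy⟩ := D.ker p hp 0 M iM δM hM w z hz a ha h1
  exact ⟨y, hy⟩

variable [MonObj (D.R ⊗ M)] [IsCommMonObj (D.R ⊗ M)] [IsMonHom (iB D iM)]

omit [Fact p.Prime] hp in
theorem natCast_base : (p : HRing (stdEven T) (D.R ⊗ M)) = 0 := by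
  have h1 : ((p : ℤ) • 𝟙 (𝟙_ T)) ≫ iM = 0 := comp_distTriang_mor_zero₁₂ _ hM
  rw [Preadditive.zsmul_comp, Category.id_comp] at h1
  have h2 : (p : ℤ) • iB D iM = 0 := by
    unfold iB
    have h3 : D.R ◁ ((p : ℤ) • iM) = (p : ℤ) • D.R ◁ iM :=
      (tensorLeft D.R).map_zsmul (f := iM) (r := (p : ℤ))
    rw [← Preadditive.comp_zsmul, ← h3, h1, MonoidalPreadditive.whiskerLeft_zero, comp_zero]
  have h3 : (p : HRing (stdEven T) (D.R ⊗ M)) = (p : ℤ) • (1 : HRing (stdEven T) (D.R ⊗ M)) := by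
    rw [zsmul_eq_mul, _root_.mul_one, Int.cast_natCast]
  have h4 : (1 : HRing (stdEven T) (D.R ⊗ M)) =
      HRing.of (stdEven T) (D.R ⊗ M) 0 (((stdEven T).zero.inv ≫ η[D.R]) ≫ iB D iM) := by
    rw [← HRing.map_of, of_one, map_one]
  rw [h3, h4, ← map_zsmul, ← Preadditive.comp_zsmul, h2, comp_zero]
  exact map_zero _

theorem lift_base (z : Laz) : Laz.lift (lawOf (iB D iM)) z =
    HRing.map (E := stdEven T) (amOne D.R ≫ iB D iM) (D.ev 0 (MvPolynomial.C z)) := by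
  unfold lawOf MUData.law MUData.law1
  rw [Law.map_map, Law.map_map, Laz.lift_map_univ, ← HRing.map_comp]
  rfl

theorem surj_lift_base : Function.Surjective (Laz.lift (lawOf (iB D iM))) := by
  intro y
  induction y using DirectSum.induction_on with
  | zero => exact ⟨0, map_zero _⟩
  | of w f =>
    obtain ⟨z, a, h1, h2⟩ := surj_base D hp hM w f
    refine ⟨z, ?_⟩
    rw [lift_base D hp hM, h1, HRing.map_of, h2]
  | add x y hx hy =>
    obtain ⟨a, ha⟩ := hx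
    obtain ⟨b, hb⟩ := hy
    exact ⟨a + b, by rw [map_add, ha, hb]⟩

theorem ker_lift_base (z : Laz) :
    Laz.lift (lawOf (iB D iM)) z = 0 ↔ z ∈ Laz.I p 1 := by
  classical
  constructor
  · intro h
    set x : Cob Laz 0 := MvPolynomial.C z with hx
    set Λ : Cob Laz 0 →+* HRing (stdEven T) (D.R ⊗ M) :=
      (HRing.map (E := stdEven T) (amOne D.R ≫ iB D iM)).comp (D.ev 0) with hΛ
    have h1 : Λ x = 0 := by rw [← h, lift_base D hp hM]; rfl
    -- the homogeneous parts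
    have h2 : ∀ w : ℤ, ∃ a : (stdEven T).S w ⟶ Am D.R 1,
        D.ev 0 (Cob.pr Laz 0 w x) = HRing.of (stdEven T) (Am D.R 1) w a := fun w =>
      D.ev_wt 0 w _ (Cob.isWt_pr w x)
    choose a ha using h2
    have h3 : ∀ w, Λ (Cob.pr Laz 0 w x) =
        HRing.of (stdEven T) (D.R ⊗ M) w (a w ≫ amOne D.R ≫ iB D iM) := fun w => by
      rw [hΛ, RingHom.comp_apply, ha, HRing.map_of]
    set s := (Cob.chi (Cob.univ Laz 0) x).coeff.support with hs
    have h4 : ∑ w ∈ s, Cob.pr Laz 0 w x = x := Cob.sum_pr x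
    have h5 : ∀ w ∈ s, a w ≫ amOne D.R ≫ iB D iM = 0 := by
      intro w hw
      have h6 : (∑ v ∈ s, HRing.of (stdEven T) (D.R ⊗ M) v (a v ≫ amOne D.R ≫ iB D iM)) = 0 := by
        rw [← Finset.sum_congr rfl fun v _ => h3 v, ← map_sum, h4, h1]
      have h7 := congrArg (fun y : HRing (stdEven T) (D.R ⊗ M) => y w) h6
      simp only [DirectSum.zero_apply] at h7
      rw [DFinsupp.finsetSum_apply, Finset.sum_eq_single w] at h7
      · rwa [DirectSum.of_eq_same] at h7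
      · intro v _ hv
        exact DirectSum.of_eq_of_ne _ _ _ hv.symm
      · intro h8
        exact absurd hw h8
    have h6 : ∀ w, ∃ y : Cob Laz 0, w ∈ s → Cob.pr Laz 0 w x = (p : ℤ) • y := by
      intro w
      by_cases hw : w ∈ s
      · obtain ⟨y, hy⟩ := ker_base D hp hM w _ (Cob.isWt_pr w x) (a w) (ha w) (h5 w hw)
        exact ⟨y, fun _ => hy⟩
      · exact ⟨0, fun h => absurd h hw⟩
    choose y hy using h6
    obtain ⟨t, ht⟩ := C_surj0 (∑ w ∈ s, y w)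
    have h7 : x = MvPolynomial.C ((p : ℤ) • t) := by
      rw [map_zsmul, ht, Finset.smul_sum, ← Finset.sum_congr rfl fun w hw => hy w hw, h4]
    have h8 : z = (p : ℤ) • t := MvPolynomial.C_injective _ _ h7
    rw [h8, zsmul_eq_mul, Int.cast_natCast, ← vv_zero p Laz.univ]
    exact Ideal.mul_mem_right _ _ (vv_mem_Ih zero_lt_one _)
  · intro h
    have h1 : Laz.I p 1 ≤ RingHom.ker (Laz.lift (lawOf (iB D iM))) := by
      rw [Laz.I, Ih, Ideal.span_le]
      rintro _ ⟨i, hi, rfl⟩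
      obtain rfl : i = 0 := by
        have : i < 1 := hi
        omega
      change Laz.lift (lawOf (iB D iM)) (vv p 0 Laz.univ) = 0
      rw [vv_zero, map_natCast]
      exact natCast_base D hM
    exact h1 h

end base

section tors

variable {D}

theorem vv_zero_lawOf_iff {N : T} [MonObj N] [IsCommMonObj N] (g : D.R ⟶ N) [IsMonHom g]
    {p : ℕ} : vv p 0 (lawOf g) = 0 ↔ (p : ℤ) • η[N] = 0 := by
  have h1 : vv p 0 (lawOf g) = HRing.of (stdEven T) N 0
      ((stdEven T).zero.inv ≫ ((p : ℤ) • η[N])) := by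
    rw [vv_zero, Preadditive.comp_zsmul]
    refine Eq.trans ?_ (map_zsmul (DirectSum.of ((stdEven T).Gr N) 0) (p : ℤ) _).symm
    have h2 : DirectSum.of ((stdEven T).Gr N) 0 ((stdEven T).zero.inv ≫ η[N]) =
      (1 : HRing (stdEven T) N) := of_one
    rw [h2, zsmul_eq_mul, _root_.mul_one, Int.cast_natCast]
  rw [h1]
  constructor
  · intro h
    have h2 := DirectSum.of_injective (β := (stdEven T).Gr N) 0
      (h.trans (map_zero (DirectSum.of ((stdEven T).Gr N) 0)).symm)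
    rwa [← cancel_epi ((stdEven T).zero.inv), comp_zero]
  · intro h
    rw [h, comp_zero]
    exact map_zero _

omit [IsTriangulated T] [MonoidalClosed T] [HasCoproducts.{0} T] [HasProducts.{0} T]
  [StableCat T] in
theorem zsmul_id_eq_zero {N : T} [MonObj N] {m : ℤ} (h : m • η[N] = 0) : m • 𝟙 N = 0 := by
  have h1 : 𝟙 N = (λ_ N).inv ≫ η[N] ▷ N ≫ μ[N] := by
    rw [MonObj.one_mul, Iso.inv_hom_id]
  have h2 : (m • η[N]) ▷ N = m • (η[N] ▷ N) := (tensorRight N).map_zsmul (f := η[N]) (r := m)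
  rw [h1, ← Preadditive.comp_zsmul, ← Preadditive.zsmul_comp, ← h2, h,
    MonoidalPreadditive.zero_whiskerRight, zero_comp, comp_zero]

omit [IsTriangulated T] [MonoidalClosed T] [HasCoproducts.{0} T] [HasProducts.{0} T]
  [StableCat T] in
/-- no 2-torsion in monoids with `p = 0`, `p` odd -/
theorem eq_zero_of_two {p : ℕ} [Fact p.Prime] (hp : p ≠ 2) {N : T} [MonObj N]
    (h : (p : ℤ) • η[N] = 0) {X : T} (f : X ⟶ N) (hf : f + f = 0) : f = 0 := by
  have h1 : (p : ℤ) • f = 0 := by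
    have h2 : f ≫ ((p : ℤ) • 𝟙 N) = (p : ℤ) • f := by
      rw [Preadditive.comp_zsmul, Category.comp_id]
    rw [← h2, zsmul_id_eq_zero h, comp_zero]
  obtain ⟨k, hk⟩ := (Fact.out : p.Prime).odd_of_ne_two hp
  have h2 : (p : ℤ) = k * 2 + 1 := by
    rw [hk]
    push_cast
    ring
  rw [h2, add_smul, mul_smul, one_smul, two_smul, hf, smul_zero, zero_add] at h1
  exact h1

theorem eq_zero_of_two' {p : ℕ} [Fact p.Prime] (hp : p ≠ 2) {N : T} [MonObj N]
    [IsCommMonObj N] (g : D.R ⟶ N) [IsMonHom g] (h : vv p 0 (lawOf g) = 0) {X : T} (f : X ⟶ N)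
    (hf : f + f = 0) : f = 0 :=
  eq_zero_of_two hp ((vv_zero_lawOf_iff g).1 h) f hf

end tors

/-- **The base case.** -/
theorem exists_PD_one {p : ℕ} [Fact p.Prime] (hp : p ≠ 2) {M : T} {iM : 𝟙_ T ⟶ M}
    {δM : M ⟶ (𝟙_ T)⟦(1 : ℤ)⟧} (hM : Triangle.mk ((p : ℤ) • 𝟙 (𝟙_ T)) iM δM ∈ distTriang T)
    (q : QIn D.R (D.R ⊗ M) (𝟙_ T) ((𝟙_ T)⟦(1 : ℤ)⟧)) (hi : q.i = iB D iM)
    (hv : q.v = (p : ℤ) • η[D.R]) (o : q.Out) : Nonempty (PD D p 1) := by
  let _ := o.mon
  have _ := o.comm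
  have h1 : IsMonHom (iB D iM) := hi ▸ o.hom
  refine ⟨{ P := D.R ⊗ M
            u := iB D iM
            odd := odd_base D hp hM
            surj := surj_lift_base D hp hM
            ker := ker_lift_base D hp hM
            desc := ?_
            uniq := ?_ }⟩
  · intro N _ _ g _ hN hg
    have h2 := (vv_zero_lawOf_iff g).1 (hg 0 zero_lt_one)
    have h3 : q.v ≫ g = 0 := by
      rw [hv, Preadditive.zsmul_comp, IsMonHom.one_hom, h2]
    obtain ⟨f, hf, hf'⟩ := o.desc N g h3 (fun f => hN.h1 0 f) fun f hf =>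
      eq_zero_of_two hp h2 f hf
    exact ⟨f, hf, by rw [← hi]; exact hf'⟩
  · intro N _ f f' hf hf' hN h
    exact o.uniq N f f' hf hf' (by rw [hi]; exact h) (fun f => hN.h1 0 f)

end Vale.Agent.P251.X
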