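import Vale.Agent.P251.Z.KFree

/-!
# P251, part X4b: `𝔽_p[b]` is free over `Laz/(I_n, v_n - 1)`

`F` a law over `𝔽_p` with `v_i = 0` for `i < n` and `v_n = 1`. The homomorphism
`Laz → 𝔽_p[b_0, b_1, …]` which classifies `bL F = (x + b_0 x^2 + …) • F` factors over
`Laz/(I_n, v_n - 1)`, and `𝔽_p[b]` is free over it on the small monomials.
-/

namespace Vale.Agent.P251.X

open Vale.Agent.P217 Vale.Agent.P251.F Vale.Agent.P251.Z

variable {p n : ℕ} [hp : Fact p.Prime]

/-- the ideal `(I_n, v_n - 1)` of the Lazard ring -/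
noncomputable def idV (p n : ℕ) : Ideal Laz := Laz.I p n ⊔ Ideal.span {Laz.v p n - 1}

omit hp in
theorem exists_of_mem_idV {z : Laz} (hz : z ∈ idV p n) :
    ∃ w : Laz, z - (Laz.v p n - 1) * w ∈ Laz.I p n := by
  obtain ⟨y, hy, x, hx, rfl⟩ := Submodule.mem_sup.1 hz
  obtain ⟨w, rfl⟩ := Ideal.mem_span_singleton'.1 hx
  exact ⟨w, by rw [mul_comm w, add_sub_cancel_right]; exact hy⟩

/-- `Laz/(I_n, v_n - 1)` is generated by the `kgen` -/
theorem exists_kgen (hn : n ≠ 0) (z : Laz) : ∃ P : MvPolynomial ℕ ℤ,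
    z - MvPolynomial.aeval (kgen p n Laz.univ) P ∈ idV p n := by
  set q : Laz →+* Laz ⧸ idV p n := Ideal.Quotient.mk _ with hq
  set U : Law (Laz ⧸ idV p n) := Laz.univ.map q with hU
  have hUv : ∀ i < n, vv p i U = 0 := fun i hi => by
    rw [hU, vv_map]
    exact Ideal.Quotient.eq_zero_iff_mem.2 (Submodule.mem_sup_left (vv_mem_Ih hi _))
  have hL : (p : Laz ⧸ idV p n) = 0 := by
    rw [← vv_zero p U]
    exact hUv 0 (Nat.pos_of_ne_zero hn)
  have hUn : vv p n U = 1 := by
    rw [hU, vv_map, ← sub_eq_zero, ← map_one q, ← map_sub]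
    exact Ideal.Quotient.eq_zero_iff_mem.2
      (Submodule.mem_sup_right (Ideal.mem_span_singleton_self _))
  set Θ : MvPolynomial ℕ ℤ →+* Laz ⧸ idV p n :=
    MvPolynomial.eval₂Hom (Int.castRingHom _) (kgen p n U) with hΘ
  have hkr : ∀ j, kgen p n U j ∈ Θ.range := fun j => ⟨MvPolynomial.X j, by
    rw [hΘ, MvPolynomial.eval₂Hom_X']⟩
  have hvr : ∀ i, vv p i U ∈ Θ.range := by
    intro i
    rcases lt_trichotomy i n with hi | rfl | hi
    · rw [hUv i hi]
      exact Subring.zero_mem _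
    · rw [hUn]
      exact Subring.one_mem _
    · have h1 := hkr (p ^ (i - n) - 2)
      rwa [kgen_of_pow hp.out n _ (by omega), Nat.add_sub_cancel' hi.le] at h1
  have hyr : ∀ m, yF p U m ∈ Θ.range := by
    intro m
    by_cases hm : ∃ i, m + 2 = p ^ i
    · obtain ⟨i, hi⟩ := hm
      rw [yF_eq_vv U hi]
      exact hvr i
    · rw [yF_eq_xC U hm, ← kgen_of_not n U hm]
      exact hkr m
  have hqr : q z ∈ Θ.range := by
    rcases subsingleton_or_nontrivial (Laz ⧸ idV p n) with h1 | h1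
    · rw [Subsingleton.elim (q z) 0]
      exact Subring.zero_mem _
    have hc : CharP (Laz ⧸ idV p n) p := (CharP.charP_iff_prime_eq_zero hp.out).2 hL
    have h2 : q z = MvPolynomial.eval₂Hom (ZMod.castHom dvd_rfl _) (yF p U) (toY p z) := by
      rw [← RingHom.comp_apply, ← lift_eq_comp_toY p U, hU, Laz.lift_map_univ]
    rw [h2]
    generalize toY p z = P
    induction P using MvPolynomial.induction_on with
    | C r =>
      rw [MvPolynomial.eval₂Hom_C, ← ZMod.natCast_zmod_val r, map_natCast]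
      exact natCast_mem _ _
    | add P Q hP hQ => rw [map_add]; exact Subring.add_mem _ hP hQ
    | mul_X P n hP =>
      rw [map_mul, MvPolynomial.eval₂Hom_X']
      exact Subring.mul_mem _ hP (hyr n)
  obtain ⟨P, hP⟩ := hqr
  refine ⟨P, ?_⟩
  rw [← Ideal.Quotient.eq_zero_iff_mem]
  change q (z - _) = 0
  have h3 : q.comp (MvPolynomial.aeval (kgen p n Laz.univ) :
      MvPolynomial ℕ ℤ →ₐ[ℤ] Laz).toRingHom = Θ := by
    apply MvPolynomial.ringHom_ext
    · intro r
      simp [hΘ]
    · intro j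
      rw [hΘ, MvPolynomial.eval₂Hom_X', hU, ← map_kgen]
      simp
  rw [map_sub, ← hP, ← h3, sub_eq_zero]
  rfl

variable (Fb : Law (ZMod p)) (hF : ∀ i < n, vv p i Fb = 0) (hv : vv p n Fb = 1)

theorem natCast_zmod : ((p : ℕ) : ZMod p) = 0 := CharP.cast_eq_zero _ _

include hF in
theorem lift_bL_of_mem_I {z : Laz} (hz : z ∈ Laz.I p n) : Laz.lift (bL Fb) z = 0 := by
  have h1 : Laz.I p n ≤ RingHom.ker (Laz.lift (bL Fb)) := by
    rw [Laz.I, Ih, Ideal.span_le]
    rintro _ ⟨i, hi, rfl⟩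
    change Laz.lift (bL Fb) (Laz.v p i) = 0
    rw [Laz.lift_v]
    exact vv_bL_lt hF hi
  exact h1 hz

include hF hv in
theorem lift_bL_v : Laz.lift (bL Fb) (Laz.v p n) = 1 := by
  rw [Laz.lift_v, vv_bL_self hF, hv, map_one]

include hF hv in
theorem lift_bL_of_mem {z : Laz} (hz : z ∈ idV p n) : Laz.lift (bL Fb) z = 0 := by
  obtain ⟨w, hw⟩ := exists_of_mem_idV hz
  have h1 := lift_bL_of_mem_I Fb hF hw
  rwa [map_sub, map_mul, map_sub, lift_bL_v Fb hF hv, map_one, sub_self, zero_mul, sub_zero] at h1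

theorem lift_bL_kgen (P : MvPolynomial ℕ ℤ) :
    Laz.lift (bL Fb) (MvPolynomial.aeval (kgen p n Laz.univ) P) =
      MvPolynomial.aeval (kgen p n (bL Fb)) (MvPolynomial.map (Int.castRingHom (ZMod p)) P) := by
  have h3 : (Laz.lift (bL Fb)).comp (MvPolynomial.aeval (kgen p n Laz.univ) :
      MvPolynomial ℕ ℤ →ₐ[ℤ] Laz).toRingHom =
      ((MvPolynomial.aeval (kgen p n (bL Fb)) : MvPolynomial ℕ (ZMod p) →ₐ[ZMod p] _) :
        MvPolynomial ℕ (ZMod p) →+* MvPolynomial ℕ (ZMod p)).comp
        (MvPolynomial.map (Int.castRingHom (ZMod p))) := by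
    apply MvPolynomial.ringHom_ext
    · intro r
      simp
    · intro j
      have h4 : kgen p n (bL Fb) j = Laz.lift (bL Fb) (kgen p n Laz.univ j) := by
        rw [map_kgen, Laz.univ_map_lift]
      simp [h4]
  exact congrFun (congrArg DFunLike.coe h3) P

include hF hv in
/-- the freeness over the polynomial ring on the `kgen` -/
theorem freeMap_bL (hn : n ≠ 0) : Function.Bijective
    (freeMap (kdeg p n) (kgen p n (bL Fb)) : (Small (kdeg p n) →₀ MvPolynomial ℕ (ZMod p)) →
      MvPolynomial ℕ (ZMod p)) := by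
  choose r hr hkr using fun j => kgen_bL natCast_zmod hn hF j
  have hu : IsUnit (vv p n Fb) := by rw [hv]; exact isUnit_one
  have hfree := freeMap_bijective_nat (kdeg p n) (kdeg_pos hp.out.ne_zero n)
    (klead p (vv p n Fb)) (isUnit_klead natCast_zmod hu) r hr
  have hy : (fun j => MvPolynomial.C (klead p (vv p n Fb) j) * MvPolynomial.X j ^ kdeg p n j +
      r j) = kgen p n (bL Fb) := funext fun j => (hkr j).symm
  rw [hy] at hfree
  exact hfree

include hF hv in
/-- **`𝔽_p[b]` is generated by the small monomials over `Laz`.** -/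
theorem span_small (hn : n ≠ 0) (f : MvPolynomial ℕ (ZMod p)) : ∃ x : Small (kdeg p n) →₀ Laz,
    f = x.sum fun e z => Laz.lift (bL Fb) z * MvPolynomial.monomial (e : ℕ →₀ ℕ) 1 := by
  classical
  obtain ⟨y, rfl⟩ := (freeMap_bL Fb hF hv hn).2 f
  have hm : Function.Surjective (MvPolynomial.map (σ := ℕ) (Int.castRingHom (ZMod p))) :=
    MvPolynomial.map_surjective _ (ZMod.intCast_surjective)
  choose g hg using hm
  refine ⟨Finsupp.onFinset y.support (fun e => if e ∈ y.support then
    MvPolynomial.aeval (kgen p n Laz.univ) (g (y e)) else 0) (by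
      intro e he
      by_contra h1
      exact he (if_neg h1)), ?_⟩
  rw [freeMap_apply, Finsupp.onFinset_sum _ (by simp), Finsupp.sum]
  refine Finset.sum_congr rfl fun e he => ?_
  rw [if_pos he, lift_bL_kgen, hg]

include hF hv in
/-- **The small monomials are independent over `Laz/(I_n, v_n - 1)`.** -/
theorem ind_small (hn : n ≠ 0) (x : Small (kdeg p n) →₀ Laz)
    (hx : (x.sum fun e z => Laz.lift (bL Fb) z * MvPolynomial.monomial (e : ℕ →₀ ℕ) 1) = 0)
    (e : Small (kdeg p n)) : x e ∈ idV p n := by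
  classical
  choose g hg using fun z => exists_kgen (p := p) hn z
  have h1 : ∀ z, Laz.lift (bL Fb) z = MvPolynomial.aeval (kgen p n (bL Fb))
      (MvPolynomial.map (Int.castRingHom (ZMod p)) (g z)) := by
    intro z
    rw [← lift_bL_kgen, ← sub_eq_zero, ← map_sub]
    exact lift_bL_of_mem Fb hF hv (hg z)
  set y : Small (kdeg p n) →₀ MvPolynomial ℕ (ZMod p) :=
    Finsupp.onFinset x.support (fun e => if e ∈ x.support then
      MvPolynomial.map (Int.castRingHom (ZMod p)) (g (x e)) else 0) (by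
        intro e he
        by_contra h2
        exact he (if_neg h2)) with hy
  have h2 : y = 0 := by
    apply (freeMap_bL Fb hF hv hn).1
    rw [map_zero, freeMap_apply, hy, Finsupp.onFinset_sum _ (by simp), ← hx, Finsupp.sum]
    refine Finset.sum_congr rfl fun e he => ?_
    rw [if_pos he, h1]
  by_cases he : e ∈ x.support
  · have h3 := DFunLike.congr_fun h2 e
    rw [hy, Finsupp.onFinset_apply, if_pos he] at h3
    have h4 : MvPolynomial.map (Int.castRingHom (ZMod p)) (g (x e)) = 0 := h3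
    -- `g (x e)` is divisible by `p`
    have h5 : ∃ Q, g (x e) = (p : MvPolynomial ℕ ℤ) * Q := by
      have h6 : MvPolynomial.C (p : ℤ) ∣ g (x e) := by
        rw [MvPolynomial.C_dvd_iff_map_hom_eq_zero (Int.castRingHom (ZMod p)) (p : ℤ)
          (fun z => by simpa using ZMod.intCast_zmod_eq_zero_iff_dvd z p)]
        exact h4
      obtain ⟨Q, hQ⟩ := h6
      exact ⟨Q, by rw [hQ]; simp⟩
    obtain ⟨Q, hQ⟩ := h5
    have h7 := hg (x e)
    rw [hQ] at h7
    have h8 : MvPolynomial.aeval (kgen p n Laz.univ) ((p : MvPolynomial ℕ ℤ) * Q) ∈ idV p n := by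
      rw [map_mul, map_natCast]
      refine Ideal.mul_mem_right _ _ (Submodule.mem_sup_left ?_)
      have := vv_mem_Ih (p := p) (Nat.pos_of_ne_zero hn) Laz.univ
      rwa [vv_zero] at this
    have h9 := add_mem h7 h8
    rwa [sub_add_cancel] at h9
  · rw [Finsupp.notMem_support_iff.1 he]
    exact zero_mem _

end Vale.Agent.P251.X
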