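import Vale.Agent.P251.X.VDefs

/-!
# P251, part X: the graded lemma

`exists_of_sub` : if `M X ⟶ M Y ⟶ M Z` is exact in each degree then `M X / (a - 1) ⟶ M Y / (a - 1)
⟶ M Z / (a - 1)` is exact, for a homogeneous element `a` of degree `N > 0`.
-/

open CategoryTheory MonoidalCategory Limits MonObj

set_option linter.unusedSectionVars false

universe v u

noncomputable section

namespace Vale.Agent.P251.X

open Vale.Agent.P251.M Vale.Agent.P251.M.EvenSpheres Vale.Agent.P251.S

variable {T : Type u} [Category.{v} T] [Preadditive T] [MonoidalCategory T]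
  [MonoidalPreadditive T] [SymmetricCategory T] {E : EvenSpheres T} {P : T} [MonObj P]

namespace Gr

variable {N : ℕ} (a : E.S N ⟶ P)

/-- multiplication by a power of `a` -/
def mulPow (W : T) (k : ℕ) : MP E P W →+ MP E P W :=
  DistribSMul.toAddMonoidHom (MP E P W) ((HRing.of E P N a) ^ k)

theorem mulPow_apply {W : T} (k : ℕ) (x : MP E P W) :
    mulPow a W k x = (HRing.of E P N a) ^ k • x := rfl

/-- `S m y = ∑_k a^k y_{m - k N}` -/
def S (W : T) (m : ℤ) : MP E P W →+ MP E P W :=
  MP.lift fun j => if j ≤ m ∧ (N : ℤ) ∣ m - j then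
    (mulPow a W ((m - j) / N).toNat).comp (MP.of E P W j) else 0

theorem S_of {W : T} (m j : ℤ) (x : E.S j ⟶ P ⊗ W) : S a W m (MP.of E P W j x) =
    if j ≤ m ∧ (N : ℤ) ∣ m - j then
      (HRing.of E P N a) ^ ((m - j) / N).toNat • MP.of E P W j x else 0 := by
  unfold S
  rw [MP.lift_of]
  split_ifs
  · rfl
  · rfl

/-- `pr m y = ∑_k y_{m - k N}` -/
def pr (E : EvenSpheres T) (P : T) [MonObj P] (N : ℕ) (W : T) (m : ℤ) : MP E P W →+ MP E P W :=
  MP.lift fun j => if (N : ℤ) ∣ m - j then MP.of E P W j else 0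

theorem pr_of {W : T} (m j : ℤ) (x : E.S j ⟶ P ⊗ W) : pr E P N W m (MP.of E P W j x) =
    if (N : ℤ) ∣ m - j then MP.of E P W j x else 0 := by
  unfold pr
  rw [MP.lift_of]
  split_ifs
  · rfl
  · rfl

theorem S_map {X Y : T} (f : X ⟶ Y) (m : ℤ) (y : MP E P X) :
    S a Y m (MP.map E P f y) = MP.map E P f (S a X m y) := by
  induction y using MP.ind with
  | zero => simp
  | of j x =>
    rw [MP.map_of, S_of, S_of]
    split_ifs
    · rw [LinearMap.map_smul, MP.map_of]
    · rw [map_zero]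
  | add x y hx hy => rw [map_add, map_add, map_add, map_add, hx, hy]

/-- `a^k x` is homogeneous -/
theorem exists_pow_smul {W : T} (k : ℕ) {j m : ℤ} (h : (k : ℤ) * N + j = m)
    (x : E.S j ⟶ P ⊗ W) : ∃ y : E.S m ⟶ P ⊗ W,
      (HRing.of E P N a) ^ k • MP.of E P W j x = MP.of E P W m y := by
  induction k generalizing m with
  | zero =>
    obtain rfl : j = m := by simpa using h
    exact ⟨x, by rw [pow_zero, one_smul]⟩
  | succ k ih =>
    obtain ⟨y, hy⟩ := ih (m := (k : ℤ) * N + j) rfl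
    refine ⟨gsmul (ModStr.free P W) (by push_cast at h; linarith) a y, ?_⟩
    rw [pow_succ', mul_smul, hy, MP.smul_of]

theorem exists_S {W : T} (hN : N ≠ 0) (m : ℤ) (y : MP E P W) :
    ∃ y' : E.S m ⟶ P ⊗ W, S a W m y = MP.of E P W m y' := by
  induction y using MP.ind with
  | zero => exact ⟨0, by simp⟩
  | of j x =>
    rw [S_of]
    split_ifs with h
    · obtain ⟨h1, k, hk⟩ := h
      have hN' : (0 : ℤ) < N := by exact_mod_cast Nat.pos_of_ne_zero hN
      have hk0 : 0 ≤ k := by
        by_contra hc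
        have : (N : ℤ) * k < 0 := mul_neg_of_pos_of_neg hN' (by omega)
        omega
      have h2 : ((m - j) / N).toNat = k.toNat := by
        rw [hk, Int.mul_ediv_cancel_left _ hN'.ne']
      refine exists_pow_smul a _ ?_ x
      rw [h2, Int.toNat_of_nonneg hk0]
      linarith
    · exact ⟨0, by simp⟩
  | add x y hx hy =>
    obtain ⟨x', hx⟩ := hx
    obtain ⟨y', hy⟩ := hy
    exact ⟨x' + y', by rw [map_add, hx, hy, map_add]⟩

/-- `S m` kills `a z - z` for large `m` -/
theorem exists_S_sub {W : T} (hN : N ≠ 0) (z : MP E P W) :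
    ∃ m₀ : ℤ, ∀ m ≥ m₀, S a W m (HRing.of E P N a • z - z) = 0 := by
  have hN' : (0 : ℤ) < N := by exact_mod_cast Nat.pos_of_ne_zero hN
  induction z using MP.ind with
  | zero => exact ⟨0, fun m _ => by simp⟩
  | of j x =>
    refine ⟨N + j, fun m hm => ?_⟩
    rw [map_sub, sub_eq_zero, MP.smul_of (k := N + j) rfl, S_of, S_of,
      ← MP.smul_of (k := N + j) rfl]
    by_cases h : (N : ℤ) ∣ m - j
    · have h1 : (N : ℤ) ∣ m - (N + j) := by
        have : m - (N + j) = (m - j) - N := by ring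
        rw [this]
        exact dvd_sub h (dvd_refl _)
      rw [if_pos ⟨by omega, h1⟩, if_pos ⟨by omega, h⟩, ← mul_smul, ← pow_succ]
      congr 2
      obtain ⟨k, hk⟩ := h
      have h2 : m - (N + j) = N * (k - 1) := by linarith
      have h3 : 0 ≤ k - 1 := by
        by_contra hc
        have : (N : ℤ) * (k - 1) < 0 := mul_neg_of_pos_of_neg hN' (by omega)
        omega
      rw [h2, hk, Int.mul_ediv_cancel_left _ hN'.ne', Int.mul_ediv_cancel_left _ hN'.ne']
      omega
    · have h1 : ¬ (N : ℤ) ∣ m - (N + j) := by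
        intro hc
        apply h
        have : m - j = (m - (N + j)) + N := by ring
        rw [this]
        exact dvd_add hc (dvd_refl _)
      rw [if_neg fun hc => h1 hc.2, if_neg fun hc => h hc.2]
  | add x y hx hy =>
    obtain ⟨m₁, h1⟩ := hx
    obtain ⟨m₂, h2⟩ := hy
    refine ⟨max m₁ m₂, fun m hm => ?_⟩
    have h3 : HRing.of E P N a • (x + y) - (x + y) =
        (HRing.of E P N a • x - x) + (HRing.of E P N a • y - y) := by
      rw [smul_add]; abel
    rw [h3, map_add, h1 m (le_trans (le_max_left _ _) hm), h2 m (le_trans (le_max_right _ _) hm),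
      add_zero]

/-- `S m y = pr m y` modulo `a - 1`, for large `m` -/
theorem exists_S_pr {W : T} (y : MP E P W) :
    ∃ m₀ : ℤ, ∀ m ≥ m₀, ∃ w : MP E P W,
      S a W m y - pr E P N W m y = HRing.of E P N a • w - w := by
  induction y using MP.ind with
  | zero => exact ⟨0, fun m _ => ⟨0, by simp⟩⟩
  | of j x =>
    refine ⟨j, fun m hm => ?_⟩
    rw [S_of, pr_of]
    by_cases h : (N : ℤ) ∣ m - j
    · rw [if_pos ⟨hm, h⟩, if_pos h]
      obtain ⟨c, hc⟩ := (Commute.one_right (HRing.of E P N a)).sub_dvd_pow_sub_pow ((m - j) / N).toNat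
      rw [one_pow] at hc
      refine ⟨c • MP.of E P W j x, ?_⟩
      have h1 : ∀ b : HRing E P, ∀ u : MP E P W, b • u - u = (b - 1) • u := fun b u => by
        rw [sub_smul, one_smul]
      rw [h1, h1, hc, mul_smul]
    · rw [if_neg fun hc => h hc.2, if_neg h]
      exact ⟨0, by simp⟩
  | add x y hx hy =>
    obtain ⟨m₁, h1⟩ := hx
    obtain ⟨m₂, h2⟩ := hy
    refine ⟨max m₁ m₂, fun m hm => ?_⟩
    obtain ⟨w₁, hw₁⟩ := h1 m (le_trans (le_max_left _ _) hm)
    obtain ⟨w₂, hw₂⟩ := h2 m (le_trans (le_max_right _ _) hm)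
    refine ⟨w₁ + w₂, ?_⟩
    rw [map_add, map_add, smul_add]
    have h3 : S a W m x + S a W m y - (pr E P N W m x + pr E P N W m y) =
        (S a W m x - pr E P N W m x) + (S a W m y - pr E P N W m y) := by abel
    rw [h3, hw₁, hw₂]
    abel

/-- `y` is the sum of its components modulo `N` -/
theorem sum_pr {W : T} (hN : N ≠ 0) (m : ℤ) (y : MP E P W) :
    ∑ r ∈ Finset.range N, pr E P N W (m + r) y = y := by
  have hN' : (0 : ℤ) < N := by exact_mod_cast Nat.pos_of_ne_zero hN
  induction y using MP.ind with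
  | zero => simp
  | of j x =>
    simp only [pr_of]
    have h0 : 0 ≤ (j - m) % N := Int.emod_nonneg _ hN'.ne'
    have h1 : (j - m) % N < N := Int.emod_lt_of_pos _ hN'
    rw [Finset.sum_eq_single ((j - m) % N).toNat]
    · rw [if_pos]
      rw [Int.toNat_of_nonneg h0]
      have h2 := Int.emod_add_mul_ediv (j - m) N
      refine ⟨-((j - m) / N), ?_⟩
      linarith
    · intro r hr hne
      rw [if_neg]
      intro hd
      apply hne
      have hr' : (r : ℤ) < N := by exact_mod_cast Finset.mem_range.1 hr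
      have h2 : (j - m) % N = r := by
        obtain ⟨k, hk⟩ := hd
        have h3 : j - m = r + N * (-k) := by linarith
        rw [h3, Int.add_mul_emod_self_left]
        exact Int.emod_eq_of_lt (by omega) hr'
      omega
    · intro h2
      exfalso
      apply h2
      rw [Finset.mem_range]
      omega
  | add x y hx hy =>
    simp only [map_add]
    rw [Finset.sum_add_distrib, hx, hy]

end Gr

/-- **The graded lemma.** -/
theorem exists_of_sub {N : ℕ} (hN : N ≠ 0) (a : E.S N ⟶ P) {X Y Z : T} (f : X ⟶ Y) (g : Y ⟶ Z)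
    (hex : ∀ (m : ℤ) (y : E.S m ⟶ P ⊗ Y), y ≫ P ◁ g = 0 → ∃ x : E.S m ⟶ P ⊗ X, x ≫ P ◁ f = y)
    (y : MP E P Y) (z : MP E P Z) (hz : MP.map E P g y = HRing.of E P N a • z - z) :
    ∃ (x : MP E P X) (y' : MP E P Y), y = MP.map E P f x + (HRing.of E P N a • y' - y') := by
  obtain ⟨m₁, h1⟩ := Gr.exists_S_sub a hN z
  obtain ⟨m₂, h2⟩ := Gr.exists_S_pr a y
  have key : ∀ r : ℕ, ∃ (x : MP E P X) (w : MP E P Y),
      Gr.pr E P N Y (max m₁ m₂ + r) y = MP.map E P f x + (HRing.of E P N a • w - w) := by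
    intro r
    obtain ⟨w, hw⟩ := h2 (max m₁ m₂ + r) (by have := le_max_right m₁ m₂; omega)
    obtain ⟨s, hs⟩ := Gr.exists_S a hN (max m₁ m₂ + r) y
    have h3 : s ≫ P ◁ g = 0 := by
      apply MP.of_injective (E := E) (P := P) (W := Z)
      rw [← MP.map_of, ← hs, ← Gr.S_map, hz, h1 _ (by have := le_max_left m₁ m₂; omega), map_zero]
    obtain ⟨x, hx⟩ := hex _ s h3
    refine ⟨MP.of E P X _ x, -w, ?_⟩
    rw [MP.map_of, hx, ← hs, smul_neg]
    have h4 : Gr.pr E P N Y (max m₁ m₂ + r) y = Gr.S a Y (max m₁ m₂ + r) y -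
        (HRing.of E P N a • w - w) := by
      rw [← hw]; abel
    rw [h4]
    abel
  choose x w hxw using key
  refine ⟨∑ r ∈ Finset.range N, x r, ∑ r ∈ Finset.range N, w r, ?_⟩
  rw [map_sum, Finset.smul_sum, ← Finset.sum_sub_distrib, ← Finset.sum_add_distrib]
  conv_lhs => rw [← Gr.sum_pr hN (max m₁ m₂) y]
  exact Finset.sum_congr rfl fun r _ => hxw r

end Vale.Agent.P251.X
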