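import Vale.Agent.P251.X.Defs
import Vale.Agent.P251.Z.KMU

/-!
# P251, part X (X3b): invariance and regularity of `v_j`

* `vel_comp_eq` : two morphisms of monoids `g g' : MU ⟶ N` with `v_i = 0`, `i < j`, for `g`, have
  the same `v_j`, and `v_i = 0`, `i < j`, for `g'` too.
* `PD.regular` : `v_j` is a nonzerodivisor on `π_*(P ⊗ MU)`, `P = MU/I_j`.
-/

open CategoryTheory MonoidalCategory Limits Pretriangulated MonObj

set_option linter.unusedSectionVars false

universe v u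

namespace Vale.Agent.P251.X

open Vale.Agent.P251.T Vale.Agent.P251.M Vale.Agent.P251.M.EvenSpheres Vale.Agent.P251.S
  Vale.Agent.P251.F Vale.Agent.P251.I Vale.Agent.P251.Z

variable {T : Type u} [Category.{v} T] [Preadditive T] [HasZeroObject T]
    [HasShift T ℤ] [∀ n : ℤ, (shiftFunctor T n).Additive] [Pretriangulated T] [IsTriangulated T]
    [MonoidalCategory T] [SymmetricCategory T] [TensorTriangulated T] [MonoidalClosed T]
    [HasCoproducts.{0} T] [HasProducts.{0} T] [StableCat T] {D : MUData T}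

theorem lawOf_comp {N N' : T} [MonObj N] [IsCommMonObj N] [MonObj N'] [IsCommMonObj N']
    (g : D.R ⟶ N) [IsMonHom g] (f : N ⟶ N') [IsMonHom f] :
    lawOf (g ≫ f) = (lawOf g).map (HRing.map f) := by
  unfold lawOf
  rw [Law.map_map, ← HRing.map_comp]

theorem lawOf_congr {N : T} [MonObj N] [IsCommMonObj N] {g g' : D.R ⟶ N} [IsMonHom g]
    [IsMonHom g'] (h : g = g') : lawOf g = lawOf g' := by
  subst h
  rfl

theorem vv_lawOf {N : T} [MonObj N] [IsCommMonObj N] (g : D.R ⟶ N) [IsMonHom g] (p i : ℕ) :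
    vv p i (lawOf g) = HRing.of (stdEven T) N _ (D.vel p i ≫ g) := by
  unfold lawOf
  rw [vv_map, D.vel_spec, HRing.map_of]

theorem vv_lawOf_eq_zero_iff {N : T} [MonObj N] [IsCommMonObj N] (g : D.R ⟶ N) [IsMonHom g]
    (p i : ℕ) : vv p i (lawOf g) = 0 ↔ D.vel p i ≫ g = 0 := by
  rw [vv_lawOf]
  constructor
  · intro h
    have h1 := DirectSum.of_injective (β := (stdEven T).Gr N) _
      (h.trans (map_zero (DirectSum.of ((stdEven T).Gr N) ((p ^ i : ℤ) - 1))).symm)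
    exact h1
  · intro h
    rw [h]
    exact map_zero _

section inv

variable {N : T} [MonObj N] [IsCommMonObj N] (g g' : D.R ⟶ N) [IsMonHom g] [IsMonHom g']
  {p : ℕ} [Fact p.Prime] {j : ℕ}

/-- the law of the second orientation over the ring `N_*[b_0, b_1, …]` -/
theorem vv_lawOf_eq (i : ℕ) : vv p i (lawOf g') =
    HRing.map (descM (𝟙 N) g') (epsH (bK D g) (vv p i (bL (lawOf g)))) := by
  have h1 : lawOf g' = (lawOf (inrM N D.R)).map (HRing.map (descM (𝟙 N) g')) := by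
    rw [← lawOf_comp]
    exact lawOf_congr (inrM_descM _ _).symm
  have h2 : lawOf (inrM N D.R) = (bL (lawOf g)).map (epsH (bK D g)) := law_inr D g
  rw [h1, h2, vv_map, vv_map]

variable (h0 : ∀ i < j, vv p i (lawOf g) = 0)

include h0

theorem vv_lawOf_lt {i : ℕ} (hi : i < j) : vv p i (lawOf g') = 0 := by
  rw [vv_lawOf_eq g g', vv_bL_lt h0 hi, map_zero, map_zero]

theorem vv_lawOf_self : vv p j (lawOf g') = vv p j (lawOf g) := by
  rw [vv_lawOf_eq g g', vv_bL_self h0, epsH_C, ← RingHom.comp_apply, ← HRing.map_comp,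
    HRing_map_congr (inlM_descM _ _), HRing.map_id, RingHom.id_apply]

theorem vel_comp_eq : D.vel p j ≫ g = D.vel p j ≫ g' := by
  have h := vv_lawOf_self g g' h0
  rw [vv_lawOf, vv_lawOf] at h
  exact (DirectSum.of_injective (β := (stdEven T).Gr N) _ h).symm

end inv

namespace PD

variable {p j : ℕ} [Fact p.Prime] (Q : PD D p j)

theorem vv_zero_of_lt {i : ℕ} (hi : i < j) : vv p i (lawOf Q.u) = 0 := by
  have h := (Q.ker (Laz.v p i)).2 (vv_mem_Ih hi _)
  rwa [Laz.lift_v] at h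

theorem vv_inl {i : ℕ} (hi : i < j) : vv p i (lawOf (Q.u ≫ inlM Q.P D.R)) = 0 := by
  rw [lawOf_comp, vv_map, Q.vv_zero_of_lt hi, map_zero]

/-- `v_j` of `MU` and `v_j` of `P` agree in `π_*(P ⊗ MU)`. -/
theorem vel_inl_eq_inr : D.vel p j ≫ Q.u ≫ inlM Q.P D.R = D.vel p j ≫ inrM Q.P D.R :=
  vel_comp_eq (Q.u ≫ inlM Q.P D.R) (inrM Q.P D.R) fun _ hi => Q.vv_inl hi

theorem vv_inr {i : ℕ} (hi : i < j) : vv p i (lawOf (inrM Q.P D.R)) = 0 :=
  vv_lawOf_lt (Q.u ≫ inlM Q.P D.R) (inrM Q.P D.R) (fun _ hi => Q.vv_inl hi) hi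

theorem mul_vv_eq_zero {a : HRing (stdEven T) Q.P} (ha : vv p j (lawOf Q.u) * a = 0) : a = 0 := by
  obtain ⟨z, rfl⟩ := Q.surj a
  rw [← Laz.lift_v, ← map_mul, Q.ker] at ha
  exact (Q.ker z).2 (mem_I_of_v_mul p le_rfl ha)

/-- **Regularity of `v_j` on `π_*(P ⊗ MU)`.** -/
theorem regular {F : SpaceFunctor T} {e : F.S.obj CCF ≅ (stdEven T).L} (H : MUUniv e D)
    {x : HRing (stdEven T) (Q.P ⊗ D.R)} (hx : vv p j (lawOf (inrM Q.P D.R)) * x = 0) : x = 0 := by
  have hb := epsK_bijective (D := D) Q.u H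
  obtain ⟨f, rfl⟩ := hb.2 x
  have h1 : vv p j (lawOf (inrM Q.P D.R)) = epsH (bK D Q.u) (MvPolynomial.C
      (vv p j (lawOf Q.u))) := by
    rw [epsH_C, ← vv_map, ← lawOf_comp]
    exact vv_lawOf_self (Q.u ≫ inlM Q.P D.R) (inrM Q.P D.R) fun _ hi => Q.vv_inl hi
  rw [h1, ← map_mul] at hx
  have h2 : MvPolynomial.C (vv p j (lawOf Q.u)) * f = 0 := hb.1 (hx.trans (map_zero _).symm)
  have h3 : f = 0 := by
    apply MvPolynomial.ext
    intro m
    have h4 := congrArg (MvPolynomial.coeff m) h2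
    rw [MvPolynomial.coeff_C_mul, MvPolynomial.coeff_zero] at h4
    rw [MvPolynomial.coeff_zero]
    exact Q.mul_vv_eq_zero h4
  rw [h3, map_zero]

/-- regularity, for homogeneous elements -/
theorem regular' {F : SpaceFunctor T} {e : F.S.obj CCF ≅ (stdEven T).L} (H : MUUniv e D)
    {m n : ℤ} (h : (p ^ j : ℤ) - 1 + m = n) (x : (stdEven T).S m ⟶ Q.P ⊗ D.R)
    (hx : gmul h (D.vel p j ≫ inrM Q.P D.R) x = 0) : x = 0 := by
  have h1 : vv p j (lawOf (inrM Q.P D.R)) * HRing.of (stdEven T) (Q.P ⊗ D.R) m x = 0 := by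
    rw [vv_lawOf, of_mul_of h, hx]
    exact map_zero _
  have h2 := Q.regular H h1
  exact DirectSum.of_injective (β := (stdEven T).Gr (Q.P ⊗ D.R)) _ (h2.trans (map_zero _).symm)

/-- the odd homotopy of `P ⊗ MU` vanishes -/
theorem odd_tensor {F : SpaceFunctor T} {e : F.S.obj CCF ≅ (stdEven T).L} (H : MUUniv e D) :
    Odd0 (Q.P ⊗ D.R) := by
  obtain ⟨b, -, -⟩ := D.exists_basis_of Q.u H
  intro l f
  have h1 := b.odd (Iso.refl _) (𝟙_ T) (fun l f => by
    rw [← cancel_mono (ρ_ Q.P).hom, zero_comp]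
    exact Q.odd l _) l (f ≫ (ρ_ _).inv)
  rwa [← cancel_mono (ρ_ (Q.P ⊗ D.R)).inv, zero_comp]

end PD

end Vale.Agent.P251.X
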