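import Vale.Agent.P251.Z.KFree
import Vale.Agent.P251.F.WtProj
import Vale.Agent.P251.F.LazWt

/-!
# P251, part X (X4a): the graded point of height `n` of the Lazard ring

`ptLaw p n hA a` is the law over `A` (`p = 0` in `A`) with `v_n = a` and all other generators
zero. Over `A = 𝔽_p[v, v⁻¹]` (in the form of `Z.kfree`) with `a = v` its classifying map is
homogeneous: an element of weight `w` goes to `χ z • v ^ (w / N)`, `N = p ^ n - 1`, which is zero
unless `N ∣ w`. `chiPt p n : Laz →+* 𝔽_p` is the value at `v = 1`.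
-/

namespace Vale.Agent.P251.X

open Vale.Agent.P217 Vale.Agent.P251.F Vale.Agent.P251.Z

section Law

variable (p n : ℕ) [hp : Fact p.Prime] {A B : Type*} [CommRing A] [CommRing B]

/-- The law with `v_n = a` and all other generators zero. -/
noncomputable def ptLaw (hA : (p : A) = 0) (a : A) : Law A :=
  lawOfY hA fun m => if m + 2 = p ^ n then a else 0

variable {p n}

theorem yF_ptLaw (hA : (p : A) = 0) (a : A) (m : ℕ) :
    yF p (ptLaw p n hA a) m = if m + 2 = p ^ n then a else 0 := yF_lawOfY hA _ m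

theorem vv_ptLaw_of_ne (hA : (p : A) = 0) (a : A) {i : ℕ} (hi : i ≠ n) :
    vv p i (ptLaw p n hA a) = 0 := by
  rcases eq_or_ne i 0 with rfl | hi0
  · rw [vv_zero, hA]
  · rw [← yF_pow_sub hp.out _ hi0, yF_ptLaw, Nat.sub_add_cancel (two_le_pow hp.out hi0),
      if_neg fun h => hi (Nat.pow_right_injective hp.out.two_le h)]

theorem vv_ptLaw (hn : n ≠ 0) (hA : (p : A) = 0) (a : A) : vv p n (ptLaw p n hA a) = a := by
  rw [← yF_pow_sub hp.out _ hn, yF_ptLaw, Nat.sub_add_cancel (two_le_pow hp.out hn), if_pos rfl]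

theorem map_ptLaw (φ : A →+* B) (hA : (p : A) = 0) (hB : (p : B) = 0) (a : A) :
    (ptLaw p n hA a).map φ = ptLaw p n hB (φ a) :=
  law_ext_yF hB fun m => by
    rw [← map_yF, yF_ptLaw, yF_ptLaw]
    split_ifs
    · rfl
    · exact map_zero φ

theorem lin_inv_smul_ptLaw (hA : (p : A) = 0) (a : A) (u : Aˣ) :
    (InvSeries.lin u)⁻¹ • ptLaw p n hA a = ptLaw p n hA ((u : A) ^ (p ^ n - 1) * a) :=
  law_ext_yF hA fun m => by
    rw [yF_lin_inv_smul, yF_ptLaw, yF_ptLaw]
    split_ifs with h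
    · rw [← h]
      rfl
    · exact mul_zero _

/-- Rescaling of `v` by `u ^ N` multiplies the value on an element of weight `w` by `u ^ w`. -/
theorem lift_ptLaw_wt {B : Type} [CommRing B] (hB : (p : B) = 0) (a : B) (u : Bˣ) {w : ℤ}
    {z : Laz} (hz : Cob.IsWt w (MvPolynomial.C z : Cob Laz 0)) :
    Laz.lift (ptLaw p n hB ((u : B) ^ (p ^ n - 1) * a)) z =
      ((u ^ w : Bˣ) : B) * Laz.lift (ptLaw p n hB a) z := by
  have h := hz B
    { pt := Laz.lift (ptLaw p n hB a)
      g := fun _ => 1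
      strict := fun _ => one_mem _
      zero := rfl } u
  rw [Cob.ev_C, Cob.ev_C] at h
  change LawRing.act (InvSeries.lin u)⁻¹ (Laz.lift (ptLaw p n hB a)) z = _ at h
  rw [Laz.act_eq, Laz.univ_map_lift, lin_inv_smul_ptLaw] at h
  exact h

end Law

section Poly

variable (p n : ℕ) [hp : Fact p.Prime]

theorem natCast_poly : ((p : ℕ) : Polynomial (ZMod p)) = 0 := by
  rw [← map_natCast (Polynomial.C (R := ZMod p)), CharP.cast_eq_zero, map_zero]

/-- The point over `𝔽_p[X]`, `v_n ↦ X`. -/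
noncomputable def ptX : Laz →+* Polynomial (ZMod p) :=
  Laz.lift (ptLaw p n (natCast_poly p) Polynomial.X)

/-- The point over `𝔽_p`, `v_n ↦ 1`. -/
noncomputable def chiPt : Laz →+* ZMod p := (Polynomial.evalRingHom 1).comp (ptX p n)

theorem chiPt_eq_lift : chiPt p n = Laz.lift (ptLaw p n (CharP.cast_eq_zero (ZMod p) p) 1) := by
  rw [chiPt, ptX, Laz.comp_lift, map_ptLaw _ _ (CharP.cast_eq_zero (ZMod p) p)]
  congr 2
  exact Polynomial.eval_X

theorem univ_map_chiPt :
    Laz.univ.map (chiPt p n) = ptLaw p n (CharP.cast_eq_zero (ZMod p) p) 1 := by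
  rw [chiPt_eq_lift, Laz.univ_map_lift]

variable {p n}

theorem coeff_ptX {w : ℤ} {z : Laz} (hz : Cob.IsWt w (MvPolynomial.C z : Cob Laz 0)) {i : ℕ}
    (hi : ((p ^ n - 1 : ℕ) : ℤ) * i ≠ w) : (ptX p n z).coeff i = 0 := by
  classical
  set N := p ^ n - 1 with hN
  -- the Laurent polynomials over `𝔽_p[X]`
  have hB : ((p : ℕ) : LaurentPolynomial (Polynomial (ZMod p))) = 0 := by
    rw [← map_natCast (LaurentPolynomial.C (R := Polynomial (ZMod p))), natCast_poly, map_zero]
  have h := lift_ptLaw_wt (n := n) hB (LaurentPolynomial.C Polynomial.X)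
    (tU (Polynomial (ZMod p))) hz
  -- the left side
  set ψ : Polynomial (ZMod p) →+* LaurentPolynomial (Polynomial (ZMod p)) :=
    Polynomial.eval₂RingHom ((LaurentPolynomial.C (R := Polynomial (ZMod p))).comp Polynomial.C)
      ((tU (Polynomial (ZMod p)) : LaurentPolynomial (Polynomial (ZMod p))) ^ N *
        LaurentPolynomial.C Polynomial.X) with hψ
  have h1 : Laz.lift (ptLaw p n hB (((tU (Polynomial (ZMod p)) :
      LaurentPolynomial (Polynomial (ZMod p)))) ^ (p ^ n - 1) *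
        LaurentPolynomial.C Polynomial.X)) z = ψ (ptX p n z) := by
    rw [ptX, Laz.map_lift, map_ptLaw ψ _ hB]
    congr 3
    rw [hψ, Polynomial.coe_eval₂RingHom, Polynomial.eval₂_X]
  have h2 : Laz.lift (ptLaw p n hB (LaurentPolynomial.C (Polynomial.X : Polynomial (ZMod p)))) z =
      LaurentPolynomial.C (ptX p n z) := by
    rw [ptX, Laz.map_lift, map_ptLaw (LaurentPolynomial.C (R := Polynomial (ZMod p))) _ hB]
  rw [h1, h2, tU_zpow, mul_comm] at h
  -- the coefficient at `N * i` and then the coefficient at `i`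
  have key : ∀ (f : Polynomial (ZMod p)) (k : ℤ),
      (ψ f).coeff k = f.sum fun j c => if (N : ℤ) * j = k then Polynomial.monomial j c else 0 := by
    intro f k
    rw [hψ, Polynomial.coe_eval₂RingHom, Polynomial.eval₂_eq_sum, Polynomial.sum, Polynomial.sum]
    have hs : ∀ (s : Finset ℕ) (g : ℕ → LaurentPolynomial (Polynomial (ZMod p))),
        (∑ j ∈ s, g j).coeff k = ∑ j ∈ s, (g j).coeff k := by
      intro s g
      induction s using Finset.induction_on with
      | empty => rfl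
      | insert a s ha ih =>
        rw [Finset.sum_insert ha, Finset.sum_insert ha, ← ih]
        rfl
    rw [hs]
    refine Finset.sum_congr rfl fun j _ => ?_
    have e1 : ((LaurentPolynomial.C (R := Polynomial (ZMod p))).comp Polynomial.C) (f.coeff j) *
        ((tU (Polynomial (ZMod p)) : LaurentPolynomial (Polynomial (ZMod p))) ^ N *
          LaurentPolynomial.C Polynomial.X) ^ j =
        LaurentPolynomial.C (Polynomial.monomial j (f.coeff j)) *
          LaurentPolynomial.T ((N : ℤ) * j) := by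
      have e2 : (tU (Polynomial (ZMod p)) : LaurentPolynomial (Polynomial (ZMod p))) =
          LaurentPolynomial.T 1 := rfl
      rw [e2, LaurentPolynomial.T_pow, mul_one, mul_pow, LaurentPolynomial.T_pow, ← map_pow,
        ← Polynomial.C_mul_X_pow_eq_monomial, map_mul, RingHom.comp_apply, mul_comm (j : ℤ)]
      ring
    rw [e1, coeff_C_mul_TW]
  have h3 := congrArg (fun q : LaurentPolynomial (Polynomial (ZMod p)) =>
    (q.coeff ((N : ℤ) * i)).coeff i) h
  simp only [key, coeff_C_mul_TW] at h3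
  rw [if_neg fun e => hi e.symm, Polynomial.coeff_zero] at h3
  rw [Polynomial.sum, Polynomial.finsetSum_coeff] at h3
  by_contra hne
  apply hne
  rw [Finset.sum_eq_single i] at h3
  · rwa [if_pos rfl, Polynomial.coeff_monomial, if_pos rfl] at h3
  · intro j _ hj
    split_ifs
    · rw [Polynomial.coeff_monomial, if_neg hj]
    · exact Polynomial.coeff_zero _
  · intro hi'
    rw [if_pos rfl, Polynomial.coeff_monomial, if_pos rfl]
    exact Polynomial.notMem_support_iff.1 hi'

/-- an element whose weight is not a multiple of `N = p ^ n - 1` goes to zero -/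
theorem ptX_eq_zero {w : ℤ} {z : Laz} (hz : Cob.IsWt w (MvPolynomial.C z : Cob Laz 0))
    (hw : ¬ (((p ^ n - 1 : ℕ) : ℤ) ∣ w)) : ptX p n z = 0 := by
  ext i
  rw [coeff_ptX hz fun h => hw ⟨i, h.symm⟩, Polynomial.coeff_zero]

/-- an element of negative weight goes to zero -/
theorem ptX_eq_zero_of_neg {w : ℤ} {z : Laz} (hz : Cob.IsWt w (MvPolynomial.C z : Cob Laz 0))
    (hw : w < 0) : ptX p n z = 0 := by
  ext i
  rw [coeff_ptX hz fun h => by
    have : (0 : ℤ) ≤ ((p ^ n - 1 : ℕ) : ℤ) * i := by positivity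
    omega, Polynomial.coeff_zero]

/-- an element of weight `i N` goes to `χ z • X ^ i` -/
theorem ptX_eq (hn : n ≠ 0) {i : ℕ} {w : ℤ} (hw : ((p ^ n - 1 : ℕ) : ℤ) * i = w) {z : Laz}
    (hz : Cob.IsWt w (MvPolynomial.C z : Cob Laz 0)) :
    ptX p n z = Polynomial.C (chiPt p n z) * Polynomial.X ^ i := by
  have h : ptX p n z = Polynomial.C ((ptX p n z).coeff i) * Polynomial.X ^ i := by
    ext j
    rw [Polynomial.coeff_C_mul_X_pow]
    split_ifs with hj
    · rw [hj]
    · refine coeff_ptX hz fun h => hj ?_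
      have h1 : ((p ^ n - 1 : ℕ) : ℤ) ≠ 0 := by
        have := two_le_pow hp.out hn
        omega
      exact_mod_cast mul_left_cancel₀ h1 (h.trans hw.symm)
  have h2 : chiPt p n z = (ptX p n z).coeff i := by
    rw [chiPt, RingHom.comp_apply]
    conv_lhs => rw [h]
    rw [Polynomial.coe_evalRingHom, Polynomial.eval_mul, Polynomial.eval_C, Polynomial.eval_pow,
      Polynomial.eval_X, one_pow, mul_one]
  rw [h2]
  exact h

theorem chiPt_eq_zero {w : ℤ} {z : Laz} (hz : Cob.IsWt w (MvPolynomial.C z : Cob Laz 0))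
    (hw : ¬ (((p ^ n - 1 : ℕ) : ℤ) ∣ w)) : chiPt p n z = 0 := by
  rw [chiPt, RingHom.comp_apply, ptX_eq_zero hz hw, map_zero]

theorem chiPt_v_of_ne {i : ℕ} (hi : i ≠ n) : chiPt p n (Laz.v p i) = 0 := by
  rw [chiPt_eq_lift, Laz.lift_v, vv_ptLaw_of_ne _ _ hi]

theorem chiPt_v (hn : n ≠ 0) : chiPt p n (Laz.v p n) = 1 := by
  rw [chiPt_eq_lift, Laz.lift_v, vv_ptLaw hn]

theorem ptX_v (hn : n ≠ 0) : ptX p n (Laz.v p n) = Polynomial.X := by
  rw [ptX, Laz.lift_v, vv_ptLaw hn]

theorem I_le_ker_ptX : Laz.I p n ≤ RingHom.ker (ptX p n) := by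
  refine Ideal.span_le.2 ?_
  rintro _ ⟨i, hi, rfl⟩
  rw [SetLike.mem_coe, RingHom.mem_ker]
  change ptX p n (Laz.v p i) = 0
  rw [ptX, Laz.lift_v, vv_ptLaw_of_ne _ _ hi.ne]

theorem I_le_ker_chiPt : Laz.I p n ≤ RingHom.ker (chiPt p n) := fun z hz => by
  rw [RingHom.mem_ker, chiPt, RingHom.comp_apply, (RingHom.mem_ker).1 (I_le_ker_ptX hz), map_zero]

theorem chiPt_surjective : Function.Surjective (chiPt p n) := ZMod.ringHom_surjective _

end Poly

section Loc

variable (p n : ℕ) [hp : Fact p.Prime] (A : Type*) [CommRing A] [Algebra (Polynomial (ZMod p)) A]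

/-- The law over `A = 𝔽_p[v, v⁻¹]` with `v_n = v`. -/
noncomputable def lawA : Law A :=
  ptLaw p n (natCast_eq_zero_of_loc p) (algebraMap (Polynomial (ZMod p)) A Polynomial.X)

/-- The point over `A = 𝔽_p[v, v⁻¹]`. -/
noncomputable def ptA : Laz →+* A := (algebraMap (Polynomial (ZMod p)) A).comp (ptX p n)

theorem ptA_eq_lift : ptA p n A = Laz.lift (lawA p n A) := by
  rw [ptA, ptX, Laz.comp_lift, map_ptLaw _ _ (natCast_eq_zero_of_loc p)]
  rfl

theorem lift_lawA (z : Laz) :
    Laz.lift (lawA p n A) z = algebraMap (Polynomial (ZMod p)) A (ptX p n z) := by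
  rw [← ptA_eq_lift]
  rfl

theorem univ_map_ptA : Laz.univ.map (ptA p n A) = lawA p n A := by
  rw [ptA_eq_lift, Laz.univ_map_lift]

variable {n}

theorem vv_lawA_lt (i : ℕ) (hi : i < n) : vv p i (lawA p n A) = 0 := vv_ptLaw_of_ne _ _ hi.ne

theorem vv_lawA (hn : n ≠ 0) :
    vv p n (lawA p n A) = algebraMap (Polynomial (ZMod p)) A Polynomial.X := vv_ptLaw hn _ _

variable {p A}

theorem lift_lawA_eq_zero {w : ℤ} {z : Laz} (hz : Cob.IsWt w (MvPolynomial.C z : Cob Laz 0))
    (hw : ¬ (((p ^ n - 1 : ℕ) : ℤ) ∣ w)) : Laz.lift (lawA p n A) z = 0 := by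
  rw [lift_lawA, ptX_eq_zero hz hw, map_zero]

theorem lift_lawA_eq_zero_of_neg {w : ℤ} {z : Laz}
    (hz : Cob.IsWt w (MvPolynomial.C z : Cob Laz 0)) (hw : w < 0) :
    Laz.lift (lawA p n A) z = 0 := by
  rw [lift_lawA, ptX_eq_zero_of_neg hz hw, map_zero]

theorem lift_lawA_eq (hn : n ≠ 0) {i : ℕ} {w : ℤ} (hw : ((p ^ n - 1 : ℕ) : ℤ) * i = w) {z : Laz}
    (hz : Cob.IsWt w (MvPolynomial.C z : Cob Laz 0)) :
    Laz.lift (lawA p n A) z =
      algebraMap (Polynomial (ZMod p)) A (Polynomial.C (chiPt p n z)) *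
        (algebraMap (Polynomial (ZMod p)) A Polynomial.X) ^ i := by
  rw [lift_lawA, ptX_eq hn hw hz, map_mul, map_pow]

variable (p A) [IsLocalization.Away (Polynomial.X : Polynomial (ZMod p)) A]

/-- `ρ : 𝔽_p[v, v⁻¹] → 𝔽_p`, `v ↦ 1` -/
noncomputable def rhoA : A →+* ZMod p :=
  (exists_hom_of_unit (A := A) p (CharP.cast_eq_zero (ZMod p) p) isUnit_one).choose

theorem rhoA_v : rhoA p A (algebraMap (Polynomial (ZMod p)) A Polynomial.X) = 1 :=
  (exists_hom_of_unit (A := A) p (CharP.cast_eq_zero (ZMod p) p) isUnit_one).choose_spec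

variable (n) in
theorem map_rhoA_lawA : (lawA p n A).map (rhoA p A) =
    ptLaw p n (CharP.cast_eq_zero (ZMod p) p) 1 := by
  rw [lawA, map_ptLaw _ _ (CharP.cast_eq_zero (ZMod p) p), rhoA_v]

theorem rhoA_lift (z : Laz) : rhoA p A (Laz.lift (lawA p n A) z) = chiPt p n z := by
  rw [Laz.map_lift, map_rhoA_lawA, chiPt_eq_lift]

end Loc

end Vale.Agent.P251.X
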