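import Vale.Agent.P251.X.Retract
import Vale.Agent.P251.X.FreeMod
import Vale.Agent.P251.X.Push
import Vale.Agent.P251.X.GrLem
import Vale.Agent.P251.X.PiInv
import Vale.Agent.P251.X.Point
import Vale.Agent.P251.M.QOut

/-!
# P251, part X4b: exactness of `W ↦ 𝔽_p ⊗ π_*(P ⊗ W)`

`P = MU/I_n`, `c : Pt (stdEven T) P p N` a point with `χ ∘ (Laz ⟶ π_{2*} P) = Laz.lift Fb`, for a law
`Fb` over `𝔽_p` with `v_i = 0` for `i < n` and `v_n = 1`. Then `W ↦ M W / (ker χ) M W` is exact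
(`exact_of_point`).
-/

open CategoryTheory MonoidalCategory Limits Pretriangulated MonObj

set_option linter.unusedSectionVars false

universe v u

noncomputable section

namespace Vale.Agent.P251.X

open Vale.Agent.P251.T Vale.Agent.P251.M Vale.Agent.P251.M.EvenSpheres Vale.Agent.P251.S
  Vale.Agent.P251.F Vale.Agent.P251.I Vale.Agent.P251.Z

variable {T : Type u} [Category.{v} T] [Preadditive T] [HasZeroObject T]
    [HasShift T ℤ] [∀ n : ℤ, (shiftFunctor T n).Additive] [Pretriangulated T] [IsTriangulated T]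
    [MonoidalCategory T] [SymmetricCategory T] [TensorTriangulated T] [MonoidalClosed T]
    [HasCoproducts.{0} T] [HasProducts.{0} T] [StableCat T] {D : MUData T}

section series

variable {B : Type*} [CommRing B]

/-- the coefficients of the inverse of `x + b₀ x² + …` -/
def invC (b : ℕ → B) (i : ℕ) : B := (strictMk b)⁻¹.c (i + 1)

theorem strictMk_zero : strictMk (fun _ => (0 : B)) = 1 := by
  apply InvSeries.ext_c
  rintro (_ | i)
  · rw [c_zero_strictMk, InvSeries.c_zero_one]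
  · rw [c_succ_strictMk, InvSeries.c_one_succ]

theorem map_constantCoeff_strictMk :
    InvSeries.map (MvPolynomial.constantCoeff (σ := ℕ) (R := B)) (strictMk MvPolynomial.X) = 1 := by
  rw [map_strictMk, ← strictMk_zero]
  congr 1
  funext i
  exact MvPolynomial.constantCoeff_X B i

theorem constantCoeff_invC (i : ℕ) :
    MvPolynomial.constantCoeff (invC (MvPolynomial.X : ℕ → MvPolynomial ℕ B) i) = 0 := by
  unfold invC
  rw [← InvSeries.c_map, map_inv, map_constantCoeff_strictMk, inv_one, InvSeries.c_one_succ]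

theorem map_constantCoeff_bL (F : Law B) :
    (bL F).map (MvPolynomial.constantCoeff (σ := ℕ)) = F := by
  unfold bL
  have h1 : (MvPolynomial.constantCoeff (σ := ℕ)).comp (MvPolynomial.C : B →+* _) =
      RingHom.id _ := RingHom.ext fun x => MvPolynomial.constantCoeff_C _ x
  rw [InvSeries.map_smul, Law.map_map, h1, map_constantCoeff_strictMk, one_smul, Law.map_id]

theorem strictMk_invC (b : ℕ → B) : strictMk (invC b) = (strictMk b)⁻¹ :=
  strictMk_c (inv_mem (strictMk_mem b))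

end series

namespace PD

variable {p n : ℕ} [hp : Fact p.Prime] (Q : PD D p n) (Fb : Law (ZMod p))
  (hF : ∀ i < n, vv p i Fb = 0)

/-- `π_{2*} P ⟶ 𝔽_p[b]`, the classifying map of `bL Fb` -/
def lam : HRing (stdEven T) Q.P →+* MvPolynomial ℕ (ZMod p) :=
  RingHom.liftOfSurjective (Laz.lift (lawOf Q.u)) Q.surj
    ⟨Laz.lift (bL Fb), fun z hz => lift_bL_of_mem_I Fb hF ((Q.ker z).1 hz)⟩

theorem lam_lift (z : Laz) : Q.lam Fb hF (Laz.lift (lawOf Q.u) z) = Laz.lift (bL Fb) z :=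
  RingHom.liftOfSurjective_comp_apply _ _ _ _

theorem map_lam : (lawOf Q.u).map (Q.lam Fb hF) = bL Fb := by
  have h : (Q.lam Fb hF).comp (Laz.lift (lawOf Q.u)) = Laz.lift (bL Fb) :=
    RingHom.ext (Q.lam_lift Fb hF)
  rw [Laz.comp_lift] at h
  have h2 := congrArg (Law.map · Laz.univ) h
  simpa using h2

variable {Fc : SpaceFunctor T} {e : Fc.S.obj CCF ≅ (stdEven T).L} (H : MUUniv e D)

/-- `π_{2*}(P ⊗ MU) ≃ (π_{2*} P)[b]` -/
def epsE : MvPolynomial ℕ (HRing (stdEven T) Q.P) ≃+* HRing (stdEven T) (Q.P ⊗ D.R) :=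
  RingEquiv.ofBijective (epsH (bK D Q.u)) (epsK_bijective Q.u H)

/-- the classifying map `π_{2*}(P ⊗ MU) ⟶ 𝔽_p[b]` -/
def tht : HRing (stdEven T) (Q.P ⊗ D.R) →+* MvPolynomial ℕ (ZMod p) :=
  (MvPolynomial.eval₂Hom (Q.lam Fb hF) (invC MvPolynomial.X)).comp (Q.epsE H).symm.toRingHom

theorem tht_eps (f : MvPolynomial ℕ (HRing (stdEven T) Q.P)) :
    Q.tht Fb hF H (epsH (bK D Q.u) f) =
      MvPolynomial.eval₂Hom (Q.lam Fb hF) (invC MvPolynomial.X) f := by
  unfold tht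
  rw [RingHom.comp_apply]
  congr 1
  exact (Q.epsE H).symm_apply_apply f

theorem tht_inl (h : HRing (stdEven T) Q.P) :
    Q.tht Fb hF H (HRing.map (inlM Q.P D.R) h) = Q.lam Fb hF h := by
  rw [← epsH_C (bK D Q.u), tht_eps, MvPolynomial.eval₂Hom_C]

theorem tht_bK (i : ℕ) : Q.tht Fb hF H (bK D Q.u i) = invC MvPolynomial.X i := by
  rw [← epsH_X (bK D Q.u), tht_eps, MvPolynomial.eval₂Hom_X']

theorem tht_inr : (lawOf (inrM Q.P D.R)).map (Q.tht Fb hF H) = Fb.map MvPolynomial.C := by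
  have h2 : lawOf (inrM Q.P D.R) = (bL (lawOf Q.u)).map (epsH (bK D Q.u)) := law_inr D Q.u
  have h3 : (Q.tht Fb hF H).comp (epsH (bK D Q.u)) =
      MvPolynomial.eval₂Hom (Q.lam Fb hF) (invC MvPolynomial.X) :=
    RingHom.ext (Q.tht_eps Fb hF H)
  rw [h2, Law.map_map, h3]
  unfold bL
  rw [InvSeries.map_smul, Law.map_map, map_strictMk]
  have h4 : (fun i => MvPolynomial.eval₂Hom (Q.lam Fb hF) (invC MvPolynomial.X)
      (MvPolynomial.X i)) = invC (MvPolynomial.X : ℕ → MvPolynomial ℕ (ZMod p)) := by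
    funext i
    rw [MvPolynomial.eval₂Hom_X']
  have h5 : (MvPolynomial.eval₂Hom (Q.lam Fb hF) (invC MvPolynomial.X)).comp MvPolynomial.C =
      Q.lam Fb hF := RingHom.ext fun x => MvPolynomial.eval₂Hom_C _ _ _
  rw [h4, h5, strictMk_invC, map_lam, bL, inv_smul_smul]

include H in
/-- the coaction `P ⟶ P ⊗ MU` -/
theorem exists_coact : ∃ f : Q.P ⟶ Q.P ⊗ D.R, IsMonHom f ∧ Q.u ≫ f = inrM Q.P D.R :=
  Q.desc (Q.P ⊗ D.R) (inrM Q.P D.R) (Q.odd_tensor H) fun _ hi => Q.vv_inr hi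

omit hp in
theorem coact_counit (f : Q.P ⟶ Q.P ⊗ D.R) [IsMonHom f] (hf : Q.u ≫ f = inrM Q.P D.R) :
    f ≫ descM (𝟙 Q.P) Q.u = 𝟙 Q.P := by
  refine Q.uniq Q.P _ _ inferInstance inferInstance Q.odd ?_
  rw [← Category.assoc, hf, inrM_descM, Category.comp_id]

theorem tht_coact (f : Q.P ⟶ Q.P ⊗ D.R) [IsMonHom f] (hf : Q.u ≫ f = inrM Q.P D.R)
    (χ : HRing (stdEven T) Q.P →+* ZMod p) (hχ : ∀ z, χ (Laz.lift (lawOf Q.u) z) = Laz.lift Fb z)
    (h : HRing (stdEven T) Q.P) :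
    Q.tht Fb hF H (HRing.map f h) = MvPolynomial.C (χ h) := by
  obtain ⟨z, rfl⟩ := Q.surj h
  rw [hχ, Laz.map_lift, Laz.map_lift, Laz.map_lift, ← lawOf_comp, lawOf_congr hf, tht_inr]

/-- the counit kills the `b_i` -/
theorem counit_bK (i : ℕ) : HRing.map (descM (𝟙 Q.P) Q.u) (bK D Q.u i) = 0 := by
  unfold bK
  -- `Am R 2 ⟶ P ⊗ R ⟶ P` is `Am R 2 ⟶ Am R 1 ⟶ R ⟶ P`
  have h1 : D.toKR Q.u ≫ descM (𝟙 Q.P) Q.u =
      Am.map D.R (fun _ : Fin 2 => (0 : Fin 1)) ≫ amOne D.R ≫ Q.u := by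
    apply Am.hom_ext (R := D.R) (n := 2)
    intro i
    rw [Am.v_map_assoc, ← Category.assoc (Am.v D.R (0 : Fin 1)), v_amOne, Category.id_comp]
    fin_cases i
    · change Am.v D.R (0 : Fin 2) ≫ D.toKR Q.u ≫ descM (𝟙 Q.P) Q.u = Q.u
      rw [← Category.assoc, D.v_zero_toKR, Category.assoc, inlM_descM, Category.comp_id]
    · change Am.v D.R (1 : Fin 2) ≫ D.toKR Q.u ≫ descM (𝟙 Q.P) Q.u = Q.u
      rw [← Category.assoc, D.v_one_toKR, inrM_descM]
  rw [← RingHom.comp_apply, ← HRing.map_comp, HRing_map_congr h1, HRing.map_comp,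
    RingHom.comp_apply, D.ev_map]
  have h3 : Cob.map (N := Laz) (fun _ : Fin 2 => (0 : Fin 1))
      (MvPolynomial.X ((0 : Fin 1), i)) = 0 := by
    unfold Cob.map
    rw [Cob.ev_X]
    rw [Chain.res_g, mul_inv_cancel, InvSeries.c_one_succ]
  rw [h3, map_zero, map_zero]

theorem constantCoeff_lam (χ : HRing (stdEven T) Q.P →+* ZMod p)
    (hχ : ∀ z, χ (Laz.lift (lawOf Q.u) z) = Laz.lift Fb z) (h : HRing (stdEven T) Q.P) :
    MvPolynomial.constantCoeff (Q.lam Fb hF h) = χ h := by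
  obtain ⟨z, rfl⟩ := Q.surj h
  rw [hχ, lam_lift, Laz.map_lift, map_constantCoeff_bL]

theorem constantCoeff_tht (χ : HRing (stdEven T) Q.P →+* ZMod p)
    (hχ : ∀ z, χ (Laz.lift (lawOf Q.u) z) = Laz.lift Fb z)
    (g : HRing (stdEven T) (Q.P ⊗ D.R)) :
    MvPolynomial.constantCoeff (Q.tht Fb hF H g) = χ (HRing.map (descM (𝟙 Q.P) Q.u) g) := by
  obtain ⟨f, rfl⟩ := (epsK_bijective Q.u H).2 g
  have key : (MvPolynomial.constantCoeff.comp (Q.tht Fb hF H)).comp (epsH (bK D Q.u)) =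
      (χ.comp (HRing.map (descM (𝟙 Q.P) Q.u))).comp (epsH (bK D Q.u)) := by
    apply MvPolynomial.ringHom_ext
    · intro h
      simp only [RingHom.comp_apply]
      rw [epsH_C, tht_inl, constantCoeff_lam Q Fb hF χ hχ, ← RingHom.comp_apply (HRing.map _),
        ← HRing.map_comp, HRing_map_congr (inlM_descM _ _), HRing.map_id, RingHom.id_apply]
    · intro i
      simp only [RingHom.comp_apply]
      rw [epsH_X, tht_bK, counit_bK, map_zero, constantCoeff_invC]
  exact congrFun (congrArg DFunLike.coe key) f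

include H in
/-- generators of `π_{2*}(P ⊗ MU)` over `π_{2*} P` -/
theorem span_eps (g : HRing (stdEven T) (Q.P ⊗ D.R)) : ∃ x : (ℕ →₀ ℕ) →₀ HRing (stdEven T) Q.P,
    g = x.sum fun a h => HRing.map (inlM Q.P D.R) h * a.prod fun i m => bK D Q.u i ^ m := by
  obtain ⟨f, rfl⟩ := (epsK_bijective Q.u H).2 g
  refine ⟨Finsupp.onFinset f.support (fun a => f.coeff a) (fun a ha =>
      MvPolynomial.mem_support_iff.2 ha), ?_⟩
  rw [Finsupp.onFinset_sum _ (fun a => by rw [map_zero, zero_mul])]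
  conv_lhs => rw [f.as_sum, map_sum]
  exact Finset.sum_congr rfl fun a _ => epsH_monomial _ _ _

include H in
/-- the basis of `π_{2*}(P ⊗ MU ⊗ W)` over `π_{2*}(P ⊗ W)` -/
theorem bij_MP (W : T) : Function.Bijective fun x : (ℕ →₀ ℕ) →₀ MP (stdEven T) Q.P W =>
    x.sum fun a m => (a.prod fun i m => bK D Q.u i ^ m : HRing (stdEven T) (Q.P ⊗ D.R)) •
      MP.push (stdEven T) (inlM Q.P D.R) W m := by
  obtain ⟨b, -, hb⟩ := D.exists_basis_of Q.u H
  have h := MP.bij_basis b isSphere_std W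
  have h1 : ∀ a, HRing.of (stdEven T) (Q.P ⊗ D.R) (b.k a) (b.w a) =
      a.prod fun i m => bK D Q.u i ^ m := fun a => by rw [hb, class_bK]
  simp only [h1] at h
  exact h

variable (hv : vv p n Fb = 1) (hn : n ≠ 0)

section small

include hv hn

theorem span_lam (f : MvPolynomial ℕ (ZMod p)) :
    ∃ x : Small (kdeg p n) →₀ HRing (stdEven T) Q.P,
      f = x.sum fun e h => Q.lam Fb hF h * MvPolynomial.monomial (e : ℕ →₀ ℕ) 1 := by
  obtain ⟨x, rfl⟩ := span_small Fb hF hv hn f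
  refine ⟨x.mapRange (Laz.lift (lawOf Q.u)) (map_zero _), ?_⟩
  rw [Finsupp.sum_mapRange_index (fun e => by rw [map_zero, zero_mul])]
  exact Finset.sum_congr rfl fun e _ => by
    dsimp only
    rw [lam_lift]

theorem ind_lam (x : Small (kdeg p n) →₀ HRing (stdEven T) Q.P)
    (hx : (x.sum fun e h => Q.lam Fb hF h * MvPolynomial.monomial (e : ℕ →₀ ℕ) 1) = 0)
    (e : Small (kdeg p n)) : ∃ h', x e = (vv p n (lawOf Q.u) - 1) * h' := by
  classical
  choose z hz using Q.surj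
  let y : Small (kdeg p n) →₀ Laz := Finsupp.onFinset x.support
    (fun e => if e ∈ x.support then z (x e) else 0) (by
      intro e he
      by_contra h1
      exact he (if_neg h1))
  have hy : ∀ e, Laz.lift (lawOf Q.u) (y e) = x e := by
    intro e
    change Laz.lift (lawOf Q.u) (if e ∈ x.support then z (x e) else 0) = x e
    by_cases he : e ∈ x.support
    · rw [if_pos he, hz]
    · rw [if_neg he, map_zero, Finsupp.notMem_support_iff.1 he]
  have h1 := ind_small Fb hF hv hn y (by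
    rw [Finsupp.onFinset_sum _ (fun e => by rw [map_zero, zero_mul]), ← hx, Finsupp.sum]
    refine Finset.sum_congr rfl fun e he => ?_
    rw [if_pos he, ← Q.lam_lift Fb hF, hz]) e
  obtain ⟨w, hw⟩ := exists_of_mem_idV h1
  refine ⟨Laz.lift (lawOf Q.u) w, ?_⟩
  have h2 := (Q.ker _).2 hw
  rw [map_sub, map_mul, map_sub, map_one, Laz.lift_v, hy, sub_eq_zero] at h2
  exact h2

end small

section assembly

variable (χ : HRing (stdEven T) Q.P →+* ZMod p) (hχ : ∀ z, χ (Laz.lift (lawOf Q.u) z) = Laz.lift Fb z)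

theorem chi_surj : Function.Surjective χ := fun x => by
  obtain ⟨k, rfl⟩ := ZMod.intCast_surjective x
  exact ⟨k, map_intCast χ k⟩

/-- the ring side of the retract -/
def retR (f : Q.P ⟶ Q.P ⊗ D.R) [IsMonHom f] (hf : Q.u ≫ f = inrM Q.P D.R) :
    letI := (Q.lam Fb hF).toAlgebra
    RetR (HRing (stdEven T) Q.P) (MvPolynomial ℕ (ZMod p)) (HRing (stdEven T) (Q.P ⊗ D.R))
      (ℕ →₀ ℕ) (Small (kdeg p n)) :=
  letI := (Q.lam Fb hF).toAlgebra
  { J := RingHom.ker χ
    i := HRing.map (inlM Q.P D.R)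
    j := HRing.map f
    κ := HRing.map (descM (𝟙 Q.P) Q.u)
    θ := Q.tht Fb hF H
    C := (MvPolynomial.C).comp (RingHom.quotientKerEquivOfSurjective (chi_surj Q χ)).toRingHom
    ε := (RingHom.quotientKerEquivOfSurjective (chi_surj Q χ)).symm.toRingHom.comp
      MvPolynomial.constantCoeff
    θi := Q.tht_inl Fb hF H
    θj := fun h => by
      rw [Q.tht_coact Fb hF H f hf χ hχ]
      rfl
    κi := fun h => by
      rw [← RingHom.comp_apply, ← HRing.map_comp, HRing_map_congr (inlM_descM _ _), HRing.map_id,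
        RingHom.id_apply]
    εθ := fun g => by
      rw [RingHom.comp_apply, Q.constantCoeff_tht Fb hF H χ hχ]
      apply (RingHom.quotientKerEquivOfSurjective (chi_surj Q χ)).injective
      exact (RingEquiv.apply_symm_apply _ _).trans rfl
    β := fun a => a.prod fun i m => bK D Q.u i ^ m
    spanG := Q.span_eps H
    a := vv p n (lawOf Q.u)
    b := fun e => MvPolynomial.monomial (e : ℕ →₀ ℕ) 1
    ha := by
      change Q.lam Fb hF _ = 1
      rw [← Laz.lift_v, lam_lift, lift_bL_v Fb hF hv]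
    spanB := Q.span_lam Fb hF hv hn
    indB := Q.ind_lam Fb hF hv hn }

/-- the module side of the retract -/
def retM (f : Q.P ⟶ Q.P ⊗ D.R) [IsMonHom f] (hf : Q.u ≫ f = inrM Q.P D.R) (W : T) :
    letI := (Q.lam Fb hF).toAlgebra
    RetM (Q.retR Fb hF H hv hn χ hχ f hf) (MP (stdEven T) Q.P W)
      (MP (stdEven T) (Q.P ⊗ D.R) W) :=
  letI := (Q.lam Fb hF).toAlgebra
  { ι := MP.push (stdEven T) (inlM Q.P D.R) W
    hι := MP.push_smul _
    bij := Q.bij_MP H W
    ψ := MP.push (stdEven T) f W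
    hψ := MP.push_smul _
    k := MP.push (stdEven T) (descM (𝟙 Q.P) Q.u) W
    hk := fun g m => by
      rw [MP.push_smul, MP.push_push, inlM_descM, MP.push_id]
      rfl
    kψ := fun m => by
      rw [MP.push_push, Q.coact_counit f hf, MP.push_id] }

end assembly

end PD

/-- **Exactness of `W ↦ M W / (ker χ) M W`.** -/
theorem exact_of_point {p n N : ℕ} [hp : Fact p.Prime] (Q : PD D p n)
    {Fc : SpaceFunctor T} {e : Fc.S.obj CCF ≅ (stdEven T).L} (H : MUUniv e D) (hn : n ≠ 0)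
    (Fb : Law (ZMod p)) (hF : ∀ i < n, vv p i Fb = 0) (hv : vv p n Fb = 1)
    (c : Pt (stdEven T) Q.P p N) (hc : ∀ z, c.χ (Laz.lift (lawOf Q.u) z) = Laz.lift Fb z) :
    c.Exact := by
  intro X Y Z f g h hT y hy
  obtain ⟨ψ, hψ, huψ⟩ := Q.exists_coact H
  let _ := (Q.lam Fb hF).toAlgebra
  have hN : p ^ n - 1 ≠ 0 := by
    have := Nat.one_lt_pow hn hp.out.one_lt
    omega
  have hcast : ((p ^ n - 1 : ℕ) : ℤ) = (p : ℤ) ^ n - 1 := by
    have := Nat.one_lt_pow hn hp.out.one_lt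
    push_cast [Nat.cast_sub this.le]
    ring
  let a : (stdEven T).S ((p ^ n - 1 : ℕ) : ℤ) ⟶ Q.P :=
    ((stdEven T).castIso _ _ hcast).hom ≫ D.vel p n ≫ Q.u
  have ha : HRing.of (stdEven T) Q.P ((p ^ n - 1 : ℕ) : ℤ) a = vv p n (lawOf Q.u) := by
    rw [vv_lawOf]
    exact of_cast hcast _
  refine exact_of_retract (Q.retM Fb hF H hv hn c.χ hc ψ huψ Y)
    (Q.retM Fb hF H hv hn c.χ hc ψ huψ Z) (MP.map (stdEven T) Q.P f) (MP.map (stdEven T) Q.P g)
    (MP.map (stdEven T) (Q.P ⊗ D.R) g) ?_ ?_ ?_ y hy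
  · exact fun m => MP.map_push _ _ _
  · exact fun m => MP.map_push _ _ _
  · intro y z hyz
    have h1 : HRing.of (stdEven T) Q.P ((p ^ n - 1 : ℕ) : ℤ) a • z - z =
        MP.map (stdEven T) Q.P g y := by
      rw [ha]
      exact hyz.symm
    have hex : ∀ (m : ℤ) (y : (stdEven T).S m ⟶ Q.P ⊗ Y), y ≫ Q.P ◁ g = 0 →
        ∃ x : (stdEven T).S m ⟶ Q.P ⊗ X, x ≫ Q.P ◁ f = y := by
      intro m y hy
      obtain ⟨b, hb⟩ := ex₂ (tens_dist Q.P hT) y hy
      exact ⟨b, hb.symm⟩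
    obtain ⟨x, y', hxy⟩ := exists_of_sub hN a f g hex y z h1.symm
    refine ⟨x, y', ?_⟩
    rw [ha] at hxy
    exact hxy

/-- Exactness for the point `chiPt`. -/
theorem exact_of_chiPt {p n N : ℕ} [hp : Fact p.Prime] (Q : PD D p n)
    {Fc : SpaceFunctor T} {e : Fc.S.obj CCF ≅ (stdEven T).L} (H : MUUniv e D) (hn : n ≠ 0)
    (c : Pt (stdEven T) Q.P p N) (hc : ∀ z, c.χ (Laz.lift (lawOf Q.u) z) = chiPt p n z) :
    c.Exact :=
  exact_of_point Q H hn (ptLaw p n (CharP.cast_eq_zero (ZMod p) p) 1)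
    (fun _ hi => vv_ptLaw_of_ne _ _ hi.ne) (vv_ptLaw hn _ _) c
    (fun z => by rw [hc, chiPt_eq_lift])

end Vale.Agent.P251.X
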