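import Vale.Agent.P251.X.PhiMon
import Vale.Agent.P251.X.PiBase

/-!
# P251, part X (X6): the Morava K-theory from the representing monoid

`kd_of` : let `F` be a lax theory over `𝔽_p` with sphere data `s` and a grading by
`ZMod (p ^ n - 1)` for which `s.g j` has degree `j`, `K` the representing monoid, and `t` a
multiplicative functional on `F.V MU` with `t (v_n) ≠ 0`. Then `K` is a `KD D p n`, with the
monoid map `MU ⟶ K` defined by `t`.
-/

open CategoryTheory MonoidalCategory Limits Pretriangulated MonObj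
open scoped TensorProduct

universe w v u

noncomputable section

namespace Vale.Agent.P251.X

open Vale.Agent.P251.H Vale.Agent.P251.T Vale.Agent.P251.M Vale.Agent.P251.M.EvenSpheres
  Vale.Agent.P251.S Vale.Agent.P251.F Vale.Agent.P251.I

set_option linter.unusedSectionVars false

variable {T : Type u} [Category.{v} T] [Preadditive T] [HasZeroObject T]
    [HasShift T ℤ] [∀ n : ℤ, (shiftFunctor T n).Additive] [Pretriangulated T] [IsTriangulated T]
    [MonoidalCategory T] [SymmetricCategory T] [TensorTriangulated T] [MonoidalClosed T]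
    [HasCoproducts.{0} T] [HasProducts.{0} T] [StableCat T] {D : MUData T}
  {p n : ℕ} [hp : Fact p.Prime] {F : LaxTh.{w} (ZMod p) T} (KU : F.Kun)

section rep

variable {A : Type} [AddCommGroup A] (g : F.Gra A) (s : F.Sph (stdEven T)) {K : T}
  (rep : (LaxTh.opTh KU g s).pre.Rep K)

include rep in
theorem rep_odd0 : Odd0 K := by
  intro l f
  apply LaxTh.fn_injective KU g s rep
  rintro ⟨x, hx⟩
  obtain rfl := s.odd l x
  have h2 : (⟨0, hx⟩ : g.H 0 ((𝟙_ T)⟦(2 * l + 1 : ℤ)⟧)) = 0 := rfl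
  rw [h2, map_zero, map_zero]

/-- the functionals, as an additive map -/
def fnHom {X : T} (x : g.H 0 X) : (X ⟶ K) →+ ZMod p :=
  AddMonoidHom.mk' (fun f => LaxTh.fn KU g s rep f x) fun f f' =>
    LaxTh.fn_add KU g s rep f f' x

theorem fn_zsmul {X : T} (m : ℤ) (f : X ⟶ K) (x : g.H 0 X) :
    LaxTh.fn KU g s rep (m • f) x = m • LaxTh.fn KU g s rep f x :=
  map_zsmul (fnHom KU g s rep x) m f

include rep in
theorem rep_char {X : T} (f : X ⟶ K) : (p : ℤ) • f = 0 := by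
  apply LaxTh.fn_injective KU g s rep
  intro x
  rw [fn_zsmul, LaxTh.fn_zero, zsmul_eq_mul, Int.cast_natCast, CharP.cast_eq_zero, zero_mul]

theorem rep_one_ne :
    letI := rep.monObj
    (η[K] : 𝟙_ T ⟶ K) ≠ 0 := by
  let _ := rep.monObj
  intro h
  have h1 := LaxTh.fn_one KU g s rep ⟨F.e, g.e⟩
  rw [h, LaxTh.fn_zero] at h1
  exact zero_ne_one (h1.trans s.c_e)

theorem rep_gen (f : 𝟙_ T ⟶ K) :
    letI := rep.monObj
    ∃ a : ℤ, f = a • (η[K] : 𝟙_ T ⟶ K) := by
  let _ := rep.monObj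
  refine ⟨((LaxTh.fn KU g s rep f ⟨F.e, g.e⟩).val : ℤ), ?_⟩
  apply LaxTh.fn_injective KU g s rep
  rintro ⟨x, hx⟩
  obtain ⟨c, rfl⟩ := s.one x
  have e : (⟨c • F.e, hx⟩ : g.H 0 (𝟙_ T)) = c • ⟨F.e, g.e⟩ := rfl
  have h1 : LaxTh.fn KU g s rep η[K] ⟨F.e, g.e⟩ = 1 :=
    (LaxTh.fn_one KU g s rep ⟨F.e, g.e⟩).trans s.c_e
  rw [e, map_smul, map_smul, fn_zsmul, h1, zsmul_eq_mul, _root_.mul_one, Int.cast_natCast,
    ZMod.natCast_zmod_val]

end rep

theorem cast_pn : ((p ^ n - 1 : ℕ) : ℤ) = (p : ℤ) ^ n - 1 := by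
  rw [Nat.cast_sub (Nat.one_le_pow _ _ hp.out.pos)]
  push_cast
  ring

/-- **The Morava K-theory** from the representing monoid. -/
theorem kd_of (g : F.Gra (ZMod (p ^ n - 1))) (s : F.Sph (stdEven T)) {K : T}
    (rep : (LaxTh.opTh KU g s).pre.Rep K)
    (hd : ∀ j : ℤ, s.g j ∈ g.H (j : ZMod (p ^ n - 1)) ((stdEven T).S j))
    {t : F.V D.R →ₗ[ZMod p] ZMod p} (ht : LaxTh.MulFun t)
    (h0 : ∀ x : F.V (D.R ⊗ LaxTh.Lm T), x = 0) (hpr : ∀ x, t (g.pr D.R x) = t x)
    (hv : t (F.map (D.vel p n) (s.g ((p : ℤ) ^ n - 1))) ≠ 0) :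
    Nonempty (KD D p n) := by
  let iM : MonObj K := rep.monObj
  have iC : IsCommMonObj K := rep.isCommMonObj
  let φ : D.R ⟶ K := LaxTh.homOf KU g s rep t
  have iφ : IsMonHom φ := LaxTh.isMonHom_homOf KU g s rep ht h0 hpr
  have hsp : ∀ (m : ℤ), ¬ ((p : ℤ) ^ n - 1 ∣ m) → ∀ f : (stdEven T).S m ⟶ K, f = 0 := by
    intro m hm f
    refine LaxTh.eq_zero_of_ne KU g s rep (a := (m : ZMod (p ^ n - 1))) ?_ (hd m) f
    rw [Ne, ZMod.intCast_zmod_eq_zero_iff_dvd, cast_pn]
    exact hm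
  have hdeg : ∀ m : ℤ, (m : ZMod (p ^ n - 1)) = 0 → s.g m ∈ g.H 0 ((stdEven T).S m) :=
    fun m hm => by
      have h := hd m
      rwa [hm] at h
  have hchar : (p : ℤ) • η[K] = 0 := rep_char KU g s rep _
  refine ⟨{ K := K
            mon := iM
            comm := iC
            φ := φ
            hom := iφ
            odd := rep_odd0 KU g s rep
            sparse := hsp
            char := hchar
            ne := rep_one_ne KU g s rep
            gen := rep_gen KU g s rep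
            vv_lt := ?_
            vv_unit := ?_ }⟩
  · intro i hi
    rcases Nat.eq_zero_or_pos i with rfl | h0
    · exact (vv_zero_lawOf_iff φ).2 hchar
    · rw [vv_lawOf_eq_zero_iff]
      refine hsp _ (fun h => ?_) _
      have h1 : (1 : ℤ) < (p : ℤ) ^ i := by
        exact_mod_cast Nat.one_lt_pow h0.ne' hp.out.one_lt
      have h2 : (p : ℤ) ^ i < (p : ℤ) ^ n := by
        exact_mod_cast Nat.pow_lt_pow_right hp.out.one_lt hi
      have h3 := Int.le_of_dvd (by omega) h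
      omega
  · have h1 : (((p : ℤ) ^ n - 1 : ℤ) : ZMod (p ^ n - 1)) = 0 := by
      rw [ZMod.intCast_zmod_eq_zero_iff_dvd, cast_pn]
    have h2 : ((-((p : ℤ) ^ n - 1) : ℤ) : ZMod (p ^ n - 1)) = 0 := by
      rw [Int.cast_neg, h1, neg_zero]
    rw [vv_lawOf]
    refine LaxTh.isUnit_of_pval KU g s rep (hdeg _ h1) (hdeg _ h2) (hdeg 0 Int.cast_zero) _ ?_
    rw [LaxTh.pval_homOf]
    exact hv

end Vale.Agent.P251.X
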