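import Vale.Agent.P251.X.OfKD
import Vale.Agent.P251.X.HQ
import Vale.Agent.P251.M.BGlueD
import Vale.Agent.P251.M.MUFinal
import Vale.Agent.P251.M.LineIso

/-!
# P251, part X: existence of Morava K-theories from the existence of `KD D p n`
-/

open CategoryTheory MonoidalCategory Limits Pretriangulated MonObj

universe v u

namespace Vale.Agent.P251.X

open Vale.Agent.P251.T Vale.Agent.P251.M Vale.Agent.P251.I

variable {T : Type u} [Category.{v} T] [Preadditive T] [HasZeroObject T]
    [HasShift T ℤ] [∀ n : ℤ, (shiftFunctor T n).Additive] [Pretriangulated T] [IsTriangulated T]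
    [MonoidalCategory T] [SymmetricCategory T] [TensorTriangulated T] [MonoidalClosed T]
    [HasCoproducts.{0} T] [HasProducts.{0} T] [StableCat T]

/-- **Existence of Morava K-theories**, from the existence of `KD D p n` for `n ≠ 0`. -/
theorem exists_isMorava_of [LocallySmall.{0} T] (F : SpaceFunctor T) {p : ℕ} [Fact p.Prime]
    (hKD : ∀ (D : MUData T) (e : F.S.obj CCF ≅ (stdEven T).L), MUUniv e D → ∀ n : ℕ, n ≠ 0 →
      Nonempty (KD D p n)) (n : ℕ) :
    ∃ (K : T) (_ : MonObj K) (_ : IsCommMonObj K), Z.IsMorava F p n K := by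
  rcases n with _ | n
  · obtain ⟨K, i1, i2, h0, h1, h2, h3⟩ := exists_HQ F
    exact ⟨K, i1, i2, fun k hk f => h0 k hk f, h1, h2, h3⟩
  · obtain ⟨M⟩ := nonempty_MUMon F (stdEven T) (lineIso F)
    obtain ⟨b⟩ := M.nonempty_muBasis
    obtain ⟨k⟩ := hKD (M.data b) (lineIso F) (M.muUniv b) (n + 1) n.succ_ne_zero
    exact ⟨k.K, k.mon, k.comm, k.isMorava M b n.succ_ne_zero⟩

end Vale.Agent.P251.X
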