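import Vale.Agent.P251.X.RLax

/-!
# P251, part X: multiplicative functionals on a lax theory

`LaxTh.MulFun t` : the functional `t` on `V A`, `A` a monoid, is unital and multiplicative; then
`t (μ w) = (t ⊗ t) (R w)` if `V (A ⊗ S⁻¹) = 0` (`MulFun.map_mul`).
-/

open CategoryTheory MonoidalCategory Limits Pretriangulated MonObj
open scoped TensorProduct DirectSum

universe w v u

noncomputable section

namespace Vale.Agent.P251.X

open Vale.Agent.P251.H Vale.Agent.P251.T Vale.Agent.P251.M

set_option linter.unusedSectionVars false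

namespace LaxTh

variable {k : Type} [Field k] {T : Type u} [Category.{v} T] [Preadditive T] [HasZeroObject T]
  [HasShift T ℤ] [∀ n : ℤ, (shiftFunctor T n).Additive] [Pretriangulated T]
  [MonoidalCategory T] [SymmetricCategory T] [TensorTriangulated T] [MonoidalClosed T]
  [HasCoproducts.{0} T] {F : LaxTh.{w} k T}

/-- A unital and multiplicative functional. -/
structure MulFun {A : T} [MonObj A] (t : F.V A →ₗ[k] k) : Prop where
  one : t (F.map η[A] F.e) = 1
  mul (x y : F.V A) : t (F.map μ[A] (F.m A A x y)) = t x * t y

variable (K : F.Kun)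

/-- The product of a multiplicative functional through the oplax structure. -/
theorem MulFun.map_mul {A : T} [MonObj A] {t : F.V A →ₗ[k] k} (h : MulFun t)
    (h0 : ∀ x : F.V (A ⊗ Lm T), x = 0) (w : F.V (A ⊗ A)) :
    t (F.map μ[A] w) = TensorProduct.lid k k (TensorProduct.map t t (R K A A w)) := by
  have h1 : t.comp (F.map μ[A]) = (TensorProduct.lid k k).toLinearMap.comp
      ((TensorProduct.map t t).comp (R K A A)) := by
    refine hom_ext_kun K (fun x y => ?_) fun a b => ?_
    · rw [LinearMap.comp_apply, LinearMap.comp_apply, LinearMap.comp_apply, R_m, h.mul,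
        TensorProduct.map_tmul]
      rfl
    · rw [h0 a, _root_.map_zero, LinearMap.zero_apply, _root_.map_zero, _root_.map_zero]
  exact DFunLike.congr_fun h1 w

/-- the functional only sees `pr`: the product through `pr ⊗ pr` -/
theorem MulFun.map_mul_pr {A : T} [MonObj A] {t : F.V A →ₗ[k] k} (h : MulFun t)
    (h0 : ∀ x : F.V (A ⊗ Lm T), x = 0) {G : Type} [AddCommGroup G] (g : F.Gra G)
    (hp : ∀ x, t (g.pr A x) = t x) (w : F.V (A ⊗ A)) :
    t (F.map μ[A] w) = TensorProduct.lid k k (TensorProduct.map t t
      (TensorProduct.map (g.pr A) (g.pr A) (R K A A w))) := by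
  have h1 : t.comp (g.pr A) = t := LinearMap.ext hp
  have h2 : (TensorProduct.map t t).comp (TensorProduct.map (g.pr A) (g.pr A)) =
      TensorProduct.map t t := by
    rw [← TensorProduct.map_comp, h1]
  rw [h.map_mul K h0]
  exact congrArg (TensorProduct.lid k k) (DFunLike.congr_fun h2 (R K A A w)).symm

end LaxTh

end Vale.Agent.P251.X
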