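import Vale.Agent.P251.X.OpOf
import Vale.Agent.P251.X.PhiMul
import Vale.Agent.P251.M.EvenRing
import Mathlib.LinearAlgebra.Dual.Lemmas

/-!
# P251, part X: morphisms of monoids to the representing object, and its homotopy

For a representation `rep` of the functionals on the degree `0` part of a lax theory `F`:

* `LaxTh.homOf K g s rep t : B ⟶ Q` for a functional `t` on `F.V B`; it is a morphism of monoids
  if `t` is unital and multiplicative (`isMonHom_homOf`);
* `LaxTh.pval K g s rep y : k` for `y : S^{2j} ⟶ Q`, `g_j` in degree `0`: additive, injective,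
  surjective, multiplicative (`pval_gmul`), `pval_homOf`.
-/

open CategoryTheory MonoidalCategory Limits Pretriangulated MonObj
open scoped TensorProduct DirectSum

universe w v u

noncomputable section

namespace Vale.Agent.P251.X

open Vale.Agent.P251.H Vale.Agent.P251.T Vale.Agent.P251.M Vale.Agent.P251.M.EvenSpheres

set_option linter.unusedSectionVars false

namespace LaxTh

variable {k : Type} [Field k] {T : Type u} [Category.{v} T] [Preadditive T] [HasZeroObject T]
  [HasShift T ℤ] [∀ n : ℤ, (shiftFunctor T n).Additive] [Pretriangulated T]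
  [MonoidalCategory T] [SymmetricCategory T] [TensorTriangulated T] [MonoidalClosed T]
  [HasCoproducts.{0} T] {F : LaxTh.{w} k T} {A : Type} [AddCommGroup A]
  (K : F.Kun) (g : F.Gra A) (s : F.Sph (stdEven T)) {Q : T} (rep : (opTh K g s).pre.Rep Q)

/-- The functional on the degree `0` part of `V X` defined by `f : X ⟶ Q`. -/
def fn {X : T} (f : X ⟶ Q) : g.H 0 X →ₗ[k] k := (opTh K g s).pre.pull f rep.u

theorem fn_apply {X : T} (f : X ⟶ Q) (x : g.H 0 X) :
    fn K g s rep f x = fn K g s rep (𝟙 Q) (g.hmap f x) := by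
  have h1 : fn K g s rep (𝟙 Q) = rep.u := (opTh K g s).pre.pull_id rep.u
  rw [h1]
  rfl

theorem fn_comp {X Y : T} (f : X ⟶ Y) (f' : Y ⟶ Q) (x : g.H 0 X) :
    fn K g s rep (f ≫ f') x = fn K g s rep f' (g.hmap f x) := by
  have h1 : fn K g s rep (f ≫ f') = (fn K g s rep f').comp (g.hmap f) :=
    (opTh K g s).pre.pull_comp f f' rep.u
  rw [h1]
  rfl

theorem fn_injective {X : T} {f f' : X ⟶ Q} (h : ∀ x, fn K g s rep f x = fn K g s rep f' x) :
    f = f' :=
  (rep.bij X).1 (LinearMap.ext h)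

theorem exists_fn {X : T} (t : g.H 0 X →ₗ[k] k) : ∃ f : X ⟶ Q, fn K g s rep f = t :=
  (rep.bij X).2 t

theorem fn_hom {X : T} (t : g.H 0 X →ₗ[k] k) : fn K g s rep (rep.hom t) = t := rep.pull_hom t

theorem fn_add {X : T} (f f' : X ⟶ Q) (x : g.H 0 X) :
    fn K g s rep (f + f') x = fn K g s rep f x + fn K g s rep f' x := by
  have h1 : g.hmap (f + f') = g.hmap f + g.hmap f' := g.th.map_add f f'
  rw [fn_apply, fn_apply (f := f), fn_apply (f := f'), h1, LinearMap.add_apply, _root_.map_add]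

theorem fn_zero {X : T} (x : g.H 0 X) : fn K g s rep (0 : X ⟶ Q) x = 0 := by
  have h := fn_add K g s rep (0 : X ⟶ Q) 0 x
  rw [add_zero] at h
  exact left_eq_add.mp h

theorem fn_one (x : g.H 0 (𝟙_ T)) :
    letI := rep.monObj
    fn K g s rep η[Q] x = s.c (x : F.V (𝟙_ T)) := by
  let _ := rep.monObj
  have h : fn K g s rep η[Q] = s.c.comp (g.H 0 (𝟙_ T)).subtype := rep.pull_one
  rw [h]
  rfl

/-- the product of two maps -/
theorem fn_mul {X Y : T} (f : X ⟶ Q) (f' : Y ⟶ Q) (x : g.H 0 (X ⊗ Y)) :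
    letI := rep.monObj
    fn K g s rep ((f ⊗ₘ f') ≫ μ[Q]) x =
      TensorProduct.lid k k (TensorProduct.map (fn K g s rep f) (fn K g s rep f')
        (r K g X Y x)) := by
  let _ := rep.monObj
  have h : fn K g s rep ((f ⊗ₘ f') ≫ μ[Q]) = (opTh K g s).crossD (fn K g s rep f)
    (fn K g s rep f') := rep.pull_tensor_mul f f'
  rw [h]
  rfl

section hom

variable {B : T} [MonObj B] (t : F.V B →ₗ[k] k)

/-- The map defined by a functional. -/
def homOf : B ⟶ Q := rep.hom (t.comp (g.H 0 B).subtype)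

theorem fn_homOf (x : g.H 0 B) : fn K g s rep (homOf K g s rep t) x = t x := by
  have h : fn K g s rep (homOf K g s rep t) = t.comp (g.H 0 B).subtype :=
    rep.pull_hom (t.comp (g.H 0 B).subtype)
  rw [h]
  rfl

theorem fn_comp_homOf {X : T} (f : X ⟶ B) (x : g.H 0 X) :
    fn K g s rep (f ≫ homOf K g s rep t) x = t (F.map f (x : F.V X)) := by
  rw [fn_comp, fn_homOf]
  rfl

/-- **The map defined by a unital and multiplicative functional is a morphism of monoids.** -/
theorem isMonHom_homOf {t : F.V B →ₗ[k] k} (h : MulFun t) (h0 : ∀ x : F.V (B ⊗ Lm T), x = 0)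
    (hp : ∀ x, t (g.pr B x) = t x) :
    letI := rep.monObj
    IsMonHom (homOf K g s rep t) := by
  let _ := rep.monObj
  constructor
  · apply fn_injective K g s rep
    intro x
    obtain ⟨c, hc⟩ := s.one (x : F.V (𝟙_ T))
    rw [fn_comp_homOf, fn_one, hc, _root_.map_smul, _root_.map_smul, _root_.map_smul, h.one,
      s.c_e]
  · apply fn_injective K g s rep
    intro x
    rw [fn_comp_homOf, fn_mul, h.map_mul_pr K h0 g hp, r_apply]
    generalize R K B B (x : F.V (B ⊗ B)) = w
    induction w using TensorProduct.induction_on with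
    | zero => simp only [_root_.map_zero]
    | add a b ha hb => simp only [_root_.map_add, ha, hb]
    | tmul a b =>
      rw [TensorProduct.map_tmul, TensorProduct.map_tmul, TensorProduct.map_tmul,
        TensorProduct.map_tmul, fn_homOf, fn_homOf, g.prr_coe, g.prr_coe]

end hom

section sph

variable {i j l : ℤ}

/-- The value of `y : S^{2j} ⟶ Q` on the generator, if it is in degree `0`. -/
def pval (hj : s.g j ∈ g.H 0 ((stdEven T).S j)) (y : (stdEven T).S j ⟶ Q) : k :=
  fn K g s rep y ⟨s.g j, hj⟩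

theorem pval_add (hj : s.g j ∈ g.H 0 ((stdEven T).S j)) (y y' : (stdEven T).S j ⟶ Q) :
    pval K g s rep hj (y + y') = pval K g s rep hj y + pval K g s rep hj y' :=
  fn_add K g s rep y y' _

theorem pval_injective (hj : s.g j ∈ g.H 0 ((stdEven T).S j)) {y y' : (stdEven T).S j ⟶ Q}
    (h : pval K g s rep hj y = pval K g s rep hj y') : y = y' := by
  apply fn_injective K g s rep
  rintro ⟨x, hx⟩
  obtain ⟨c, rfl⟩ := s.even j x
  have e : (⟨c • s.g j, hx⟩ : g.H 0 ((stdEven T).S j)) = c • ⟨s.g j, hj⟩ := rfl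
  rw [e, _root_.map_smul, _root_.map_smul]
  exact congrArg (c • ·) h

theorem pval_surjective (hj : s.g j ∈ g.H 0 ((stdEven T).S j)) (c : k) :
    ∃ y : (stdEven T).S j ⟶ Q, pval K g s rep hj y = c := by
  obtain ⟨φ, hφ⟩ : ∃ φ : Module.Dual k (F.V ((stdEven T).S j)), φ (s.g j) ≠ 0 := by
    by_contra! hc
    exact s.g_ne j ((Module.forall_dual_apply_eq_zero_iff k (s.g j)).1 hc)
  obtain ⟨y, hy⟩ := exists_fn K g s rep ((c / φ (s.g j)) • φ.comp (g.H 0 _).subtype)
  refine ⟨y, ?_⟩
  unfold pval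
  rw [hy]
  change (c / φ (s.g j)) * φ (s.g j) = c
  rw [div_mul_cancel₀ _ hφ]

include rep in
/-- all maps are zero in the degrees which are not `0` -/
theorem eq_zero_of_ne {a : A} (ha : a ≠ 0) (hj : s.g j ∈ g.H a ((stdEven T).S j))
    (y : (stdEven T).S j ⟶ Q) : y = 0 := by
  apply fn_injective K g s rep
  rintro ⟨x, hx⟩
  obtain ⟨c, rfl⟩ := s.even j x
  have h1 : c • s.g j = 0 := by
    rw [← g.pr_zero hx, _root_.map_smul, g.pr_ne ha hj, smul_zero]
  have h2 : (⟨c • s.g j, hx⟩ : g.H 0 ((stdEven T).S j)) = 0 := Subtype.ext h1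
  rw [h2, _root_.map_zero, _root_.map_zero]

/-- multiplicativity -/
theorem pval_gmul (h : i + j = l) (hi : s.g i ∈ g.H 0 ((stdEven T).S i))
    (hj : s.g j ∈ g.H 0 ((stdEven T).S j)) (hl : s.g l ∈ g.H 0 ((stdEven T).S l))
    (y : (stdEven T).S i ⟶ Q) (z : (stdEven T).S j ⟶ Q) :
    letI := rep.monObj
    pval K g s rep hl (gmul h y z) = pval K g s rep hi y * pval K g s rep hj z := by
  let _ := rep.monObj
  have hm : F.m ((stdEven T).S i) ((stdEven T).S j) (s.g i) (s.g j) ∈
      g.H 0 ((stdEven T).S i ⊗ (stdEven T).S j) := by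
    have := g.mul hi hj
    rwa [add_zero] at this
  have h1 : g.hmap ((stdEven T).mu i j l h).inv ⟨s.g l, hl⟩ =
      ⟨F.m ((stdEven T).S i) ((stdEven T).S j) (s.g i) (s.g j), hm⟩ := by
    apply Subtype.ext
    change F.map ((stdEven T).mu i j l h).inv (s.g l) = _
    rw [← s.g_mul i j l h, ← F.toHomTh.map_comp_apply, Iso.hom_inv_id, F.toHomTh.map_id_apply]
  unfold pval gmul EvenSpheres.ext
  rw [Category.assoc, fn_comp, h1, fn_mul, r_m K g _ _ ⟨s.g i, hi⟩ ⟨s.g j, hj⟩ hm,
    TensorProduct.map_tmul]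
  rfl

/-- the value of the unit -/
theorem pval_one (h0 : s.g 0 ∈ g.H 0 ((stdEven T).S 0)) :
    letI := rep.monObj
    pval K g s rep h0 ((stdEven T).zero.inv ≫ η[Q]) = 1 := by
  let _ := rep.monObj
  unfold pval
  rw [fn_comp, fn_one]
  change s.c (F.map (stdEven T).zero.inv (s.g 0)) = 1
  rw [s.g_zero, s.c_e]

/-- the value of a composite with the map defined by a functional -/
theorem pval_homOf (hj : s.g j ∈ g.H 0 ((stdEven T).S j)) {B : T} [MonObj B]
    (t : F.V B →ₗ[k] k) (x : (stdEven T).S j ⟶ B) :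
    pval K g s rep hj (x ≫ homOf K g s rep t) = t (F.map x (s.g j)) :=
  fn_comp_homOf K g s rep t x _

/-- **Homogeneous elements with nonzero value are units.** -/
theorem isUnit_of_pval (hj : s.g j ∈ g.H 0 ((stdEven T).S j))
    (hj' : s.g (-j) ∈ g.H 0 ((stdEven T).S (-j))) (h0 : s.g 0 ∈ g.H 0 ((stdEven T).S 0))
    (y : (stdEven T).S j ⟶ Q) (hy : pval K g s rep hj y ≠ 0) :
    letI := rep.monObj
    letI : IsCommMonObj Q := rep.isCommMonObj
    IsUnit (HRing.of (stdEven T) Q j y) := by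
  let _ := rep.monObj
  let _ : IsCommMonObj Q := rep.isCommMonObj
  obtain ⟨z, hz⟩ := pval_surjective K g s rep hj' (pval K g s rep hj y)⁻¹
  refine IsUnit.of_mul_eq_one (HRing.of (stdEven T) Q (-j) z) ?_
  rw [of_mul_of (p := 0) (add_neg_cancel j)]
  have h1 : gmul (add_neg_cancel j) y z = (stdEven T).zero.inv ≫ η[Q] := by
    apply pval_injective K g s rep h0
    rw [pval_gmul K g s rep _ hj hj' h0, pval_one, hz, mul_inv_cancel₀ hy]
  rw [h1]
  rfl

end sph

end LaxTh

end Vale.Agent.P251.X
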