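import Vale.Agent.P251.X.Defs
import Mathlib.Data.ZMod.Basic

/-!
# P251, part X: the homotopy `MP E P W = π_{2*}(P ⊗ W)` as a module over `HRing E P`, points

* `MP E P W`, `MP.of`, `MP.map`, `MP.smul_of`;
* `Pt E P p N` : a homomorphism `χ : HRing E P ⟶ ZMod p` which is zero in the degrees which are
  not divisible by `N`, and an element `v` of degree `N` with `χ v = 1`;
* `Pt.I = ker χ`; `Pt.Exact` : the exactness of `W ↦ MP W / I MP W`.
-/

open CategoryTheory MonoidalCategory Limits Pretriangulated MonObj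

set_option linter.unusedSectionVars false

universe v u

noncomputable section

namespace Vale.Agent.P251.X

open Vale.Agent.P251.T Vale.Agent.P251.M Vale.Agent.P251.M.EvenSpheres Vale.Agent.P251.S

section MP

variable {T : Type u} [Category.{v} T] [Preadditive T] [MonoidalCategory T]
  [MonoidalPreadditive T] [SymmetricCategory T] (E : EvenSpheres T) (P : T) [MonObj P]

/-- The even homotopy of `P ⊗ W`. -/
def MP (W : T) : Type v := HMod E (P ⊗ W)

instance (W : T) : AddCommGroup (MP E P W) := inferInstanceAs (AddCommGroup (HMod E (P ⊗ W)))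

instance (W : T) : Module (HRing E P) (MP E P W) := hModule (ModStr.free P W)

namespace MP

variable {P} {W : T}

/-- The homogeneous elements. -/
def of (P W : T) [MonObj P] (j : ℤ) : (E.S j ⟶ P ⊗ W) →+ MP E P W :=
  DirectSum.of (E.Gr (P ⊗ W)) j

variable {E}

theorem of_injective (j : ℤ) : Function.Injective (of E P W j) :=
  DirectSum.of_injective (β := E.Gr (P ⊗ W)) j

theorem smul_of {i j k : ℤ} (h : i + j = k) (a : E.S i ⟶ P) (x : E.S j ⟶ P ⊗ W) :
    HRing.of E P i a • of E P W j x = of E P W k (gsmul (ModStr.free P W) h a x) :=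
  of_smul_of (ModStr.free P W) h a x

@[elab_as_elim]
theorem ind {motive : MP E P W → Prop} (x : MP E P W) (zero : motive 0)
    (of : ∀ j x, motive (of E P W j x)) (add : ∀ x y, motive x → motive y → motive (x + y)) :
    motive x :=
  DirectSum.induction_on (motive := motive) x zero of add

/-- additive maps out of `MP` -/
def lift {B : Type*} [AddCommGroup B] (f : ∀ j, (E.S j ⟶ P ⊗ W) →+ B) : MP E P W →+ B :=
  DirectSum.toAddMonoid (β := E.Gr (P ⊗ W)) f

@[simp] theorem lift_of {B : Type*} [AddCommGroup B] (f : ∀ j, (E.S j ⟶ P ⊗ W) →+ B) (j : ℤ)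
    (x : E.S j ⟶ P ⊗ W) : lift f (of E P W j x) = f j x :=
  DirectSum.toAddMonoid_of (β := E.Gr (P ⊗ W)) f j x

theorem hom_ext {B : Type*} [AddCommGroup B] {f g : MP E P W →+ B}
    (h : ∀ j x, f (of E P W j x) = g (of E P W j x)) : f = g :=
  DirectSum.addHom_ext (β := E.Gr (P ⊗ W)) h

/-- the component of degree `j` -/
def comp (E : EvenSpheres T) (P W : T) [MonObj P] (j : ℤ) : MP E P W →+ (E.S j ⟶ P ⊗ W) :=
  DFinsupp.evalAddMonoidHom (β := E.Gr (P ⊗ W)) j

theorem comp_of_same (j : ℤ) (x : E.S j ⟶ P ⊗ W) : comp E P W j (of E P W j x) = x :=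
  DirectSum.of_eq_same (β := E.Gr (P ⊗ W)) j x

theorem comp_of_ne {i j : ℤ} (h : i ≠ j) (x : E.S i ⟶ P ⊗ W) :
    comp E P W j (of E P W i x) = 0 :=
  DirectSum.of_eq_of_ne (β := E.Gr (P ⊗ W)) i j x h.symm

theorem isLinear_whiskerLeft {X Y : T} (f : X ⟶ Y) :
    (ModStr.free P X).IsLinear (ModStr.free P Y) (P ◁ f) := by
  change ((α_ P P X).inv ≫ (μ[P] ▷ X)) ≫ P ◁ f = P ◁ P ◁ f ≫ (α_ P P Y).inv ≫ (μ[P] ▷ Y)
  rw [associator_inv_naturality_right_assoc, whisker_exchange, Category.assoc]

variable (E P) in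
/-- the map induced by `f : X ⟶ Y` -/
def map {X Y : T} (f : X ⟶ Y) : MP E P X →ₗ[HRing E P] MP E P Y where
  toFun := lift fun j =>
    { toFun := fun x => of E P Y j (x ≫ P ◁ f)
      map_zero' := by rw [zero_comp, map_zero]
      map_add' := fun x y => by rw [Preadditive.add_comp, map_add] }
  map_add' := map_add _
  map_smul' a x := by
    rw [RingHom.id_apply]
    induction a using DirectSum.induction_on with
    | zero => rw [zero_smul, map_zero, zero_smul]
    | of i a =>
      induction x using ind with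
      | zero => rw [smul_zero, map_zero, smul_zero]
      | of j x =>
        change lift _ (HRing.of E P i a • of E P X j x) = HRing.of E P i a • lift _ (of E P X j x)
        rw [smul_of (k := i + j) rfl, lift_of, lift_of]
        change of E P Y (i + j) (gsmul (ModStr.free P X) rfl a x ≫ P ◁ f) =
          HRing.of E P i a • of E P Y j (x ≫ P ◁ f)
        rw [smul_of (k := i + j) rfl, gsmul_comp _ _ (isLinear_whiskerLeft f)]
      | add x y hx hy => rw [smul_add, map_add, map_add, hx, hy, smul_add]
    | add a b ha hb => rw [add_smul, map_add, ha, hb, add_smul]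

@[simp] theorem map_of {X Y : T} (f : X ⟶ Y) (j : ℤ) (x : E.S j ⟶ P ⊗ X) :
    map E P f (of E P X j x) = of E P Y j (x ≫ P ◁ f) := by
  exact lift_of (W := X) (B := MP E P Y) (fun j =>
    { toFun := fun x => of E P Y j (x ≫ P ◁ f)
      map_zero' := by rw [zero_comp, map_zero]
      map_add' := fun x y => by rw [Preadditive.add_comp, map_add] }) j x

theorem map_id (X : T) : map E P (𝟙 X) = LinearMap.id := by
  apply LinearMap.ext
  intro x
  induction x using ind with
  | zero => rw [map_zero, map_zero]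
  | of j x => simp
  | add x y hx hy => rw [map_add, hx, hy, map_add]

theorem map_comp {X Y Z : T} (f : X ⟶ Y) (g : Y ⟶ Z) :
    map E P (f ≫ g) = (map E P g).comp (map E P f) := by
  apply LinearMap.ext
  intro x
  induction x using ind with
  | zero => rw [map_zero, map_zero]
  | of j x => simp
  | add x y hx hy => rw [map_add, hx, hy, map_add]

theorem map_add' {X Y : T} (f g : X ⟶ Y) : map E P (f + g) = map E P f + map E P g := by
  apply LinearMap.ext
  intro x
  induction x using ind with
  | zero => rw [map_zero, map_zero]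
  | of j x =>
    rw [LinearMap.add_apply, map_of, map_of, map_of, ← _root_.map_add,
      MonoidalPreadditive.whiskerLeft_add, Preadditive.comp_add]
  | add x y hx hy => rw [_root_.map_add, hx, hy, _root_.map_add]

end MP

/-! ### Points -/

/-- A homomorphism `χ : π_{2*} P ⟶ 𝔽_p`, concentrated in the degrees divisible by `N`, with an
element `v` of degree `N` such that `χ v = 1`. -/
structure Pt (p N : ℕ) where
  /-- the homomorphism -/
  χ : HRing E P →+* ZMod p
  χ_of (j : ℤ) (hj : ¬ (N : ℤ) ∣ j) (a : E.S j ⟶ P) : χ (HRing.of E P j a) = 0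
  /-- the element -/
  v : E.S N ⟶ P
  χ_v : χ (HRing.of E P N v) = 1

namespace Pt

variable {E P} {p N : ℕ} (c : Pt E P p N)

/-- the kernel of `χ` -/
def I : Ideal (HRing E P) := RingHom.ker c.χ

theorem mem_I {x : HRing E P} : x ∈ c.I ↔ c.χ x = 0 := RingHom.mem_ker

end Pt

end MP

section exact

variable {T : Type u} [Category.{v} T] [Preadditive T] [HasZeroObject T]
    [HasShift T ℤ] [∀ n : ℤ, (shiftFunctor T n).Additive] [Pretriangulated T]
    [MonoidalCategory T] [SymmetricCategory T] [TensorTriangulated T]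
  {E : EvenSpheres T} {P : T} [MonObj P] {p N : ℕ}

/-- Exactness of `W ↦ M W / I M W` for `M W = π_{2*}(P ⊗ W)`, `I = ker χ`. -/
def Pt.Exact (c : Pt E P p N) : Prop :=
  ∀ (X Y Z : T) (f : X ⟶ Y) (g : Y ⟶ Z) (h : Z ⟶ X⟦(1 : ℤ)⟧),
    Triangle.mk f g h ∈ distTriang T → ∀ y : MP E P Y,
      MP.map E P g y ∈ c.I • (⊤ : Submodule (HRing E P) (MP E P Z)) →
      ∃ x : MP E P X, y - MP.map E P f x ∈ c.I • (⊤ : Submodule (HRing E P) (MP E P Y))

end exact

end Vale.Agent.P251.X
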