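import Vale.Agent.P251.X.Point
import Vale.Agent.P251.X.VDefs

/-!
# P251, part X (X4a): the point of height `n` of `π_{2*} P`

For `Q : PD D p n` the classifying map `Laz → π_{2*} P` of the formal group law is homogeneous and
surjective with kernel `I_n`, so `chiPt p n : Laz →+* 𝔽_p` factors over `chiH Q : π_{2*} P →+* 𝔽_p`;
with `v = v_n` this is a point `ptOf Q hn : Pt (stdEven T) Q.P p (p ^ n - 1)`.
-/

open CategoryTheory MonoidalCategory Limits Pretriangulated MonObj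

set_option linter.unusedSectionVars false

universe v u

noncomputable section

namespace Vale.Agent.P251.X

open Vale.Agent.P217 Vale.Agent.P251.T Vale.Agent.P251.M Vale.Agent.P251.M.EvenSpheres
  Vale.Agent.P251.S Vale.Agent.P251.F Vale.Agent.P251.I

/-- Every element of the Lazard ring is a sum of homogeneous elements. -/
theorem laz_decomp (z : Laz) : ∃ (s : Finset ℤ) (f : ℤ → Laz),
    (∀ w, Cob.IsWt w (MvPolynomial.C (f w) : Cob Laz 0)) ∧ z = ∑ w ∈ s, f w := by
  have hC : ∀ y : Cob Laz 0, ∃ x : Laz, MvPolynomial.C x = y := MvPolynomial.C_surjective _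
  choose g hg using hC
  refine ⟨(Cob.chi (Cob.univ Laz 0) (MvPolynomial.C z)).coeff.support,
    fun w => g (Cob.pr Laz 0 w (MvPolynomial.C z)), fun w => ?_, ?_⟩
  · rw [hg]
    exact Cob.isWt_pr w _
  · apply MvPolynomial.C_injective (Fin 0 × ℕ) Laz
    rw [map_sum]
    refine (Cob.sum_pr (MvPolynomial.C z : Cob Laz 0)).symm.trans ?_
    exact Finset.sum_congr rfl fun w _ => (hg _).symm

section

variable {T : Type u} [Category.{v} T] [Preadditive T] [HasZeroObject T]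
    [HasShift T ℤ] [∀ n : ℤ, (shiftFunctor T n).Additive] [Pretriangulated T] [IsTriangulated T]
    [MonoidalCategory T] [SymmetricCategory T] [TensorTriangulated T] [MonoidalClosed T]
    [HasCoproducts.{0} T] [HasProducts.{0} T] [StableCat T] {D : MUData T}

theorem lift_lawOf {N : T} [MonObj N] [IsCommMonObj N] (g : D.R ⟶ N) [IsMonHom g] :
    Laz.lift (lawOf g) =
      (HRing.map g).comp ((HRing.map (amOne D.R)).comp ((D.ev 0).comp MvPolynomial.C)) := by
  rw [lawOf, MUData.law, MUData.law1, Law.map_map, Law.map_map, Laz.lift_map_univ,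
    RingHom.comp_assoc]

/-- The classifying map of the formal group law is homogeneous. -/
theorem exists_lift_lawOf {N : T} [MonObj N] [IsCommMonObj N] (g : D.R ⟶ N) [IsMonHom g]
    {w : ℤ} {z : Laz} (hz : Cob.IsWt w (MvPolynomial.C z : Cob Laz 0)) :
    ∃ a : (stdEven T).S w ⟶ N, Laz.lift (lawOf g) z = HRing.of (stdEven T) N w a := by
  obtain ⟨a, ha⟩ := D.ev_wt 0 w _ hz
  refine ⟨(a ≫ amOne D.R) ≫ g, ?_⟩
  rw [lift_lawOf, RingHom.comp_apply, RingHom.comp_apply, RingHom.comp_apply, ha, HRing.map_of,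
    HRing.map_of]

variable {p n : ℕ}

/-- Every homogeneous element of `π_{2*} P` is the image of a homogeneous element of `Laz`. -/
theorem PD.exists_wt (Q : PD D p n) (j : ℤ) (a : (stdEven T).S j ⟶ Q.P) :
    ∃ z : Laz, Cob.IsWt j (MvPolynomial.C z : Cob Laz 0) ∧
      Laz.lift (lawOf Q.u) z = HRing.of (stdEven T) Q.P j a := by
  classical
  obtain ⟨z, hz⟩ := Q.surj (HRing.of (stdEven T) Q.P j a)
  obtain ⟨s, f, hf, rfl⟩ := laz_decomp z
  choose b hb using fun w => exists_lift_lawOf Q.u (hf w)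
  rw [map_sum] at hz
  have h1 : ∀ w, DFinsupp.evalAddMonoidHom (β := (stdEven T).Gr Q.P) j
      (Laz.lift (lawOf Q.u) (f w)) = if h : w = j then h ▸ b w else 0 := by
    intro w
    rw [hb]
    split_ifs with h
    · subst h
      exact DirectSum.of_eq_same (β := (stdEven T).Gr Q.P) w (b w)
    · exact DirectSum.of_eq_of_ne (β := (stdEven T).Gr Q.P) w j (b w) (Ne.symm h)
  have h2 := congrArg (DFinsupp.evalAddMonoidHom (β := (stdEven T).Gr Q.P) j) hz
  rw [map_sum] at h2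
  have h3 : DFinsupp.evalAddMonoidHom (β := (stdEven T).Gr Q.P) j
      (HRing.of (stdEven T) Q.P j a) = a :=
    DirectSum.of_eq_same (β := (stdEven T).Gr Q.P) j a
  rw [h3] at h2
  by_cases hj : j ∈ s
  · refine ⟨f j, hf j, ?_⟩
    rw [hb]
    congr 1
    rw [← h2, Finset.sum_eq_single j]
    · rw [h1, dif_pos rfl]
    · intro w _ hw
      rw [h1, dif_neg hw]
    · intro h
      exact absurd hj h
  · refine ⟨0, ?_, ?_⟩
    · rw [map_zero]
      exact Cob.isWt_zero j
    · rw [map_zero, ← h2, Finset.sum_eq_zero]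
      · exact (map_zero (DirectSum.of ((stdEven T).Gr Q.P) j)).symm
      · intro w hw
        rw [h1, dif_neg]
        rintro rfl
        exact hj hw

variable [hp : Fact p.Prime] (Q : PD D p n)

/-- The point `π_{2*} P → 𝔽_p`. -/
def chiH : HRing (stdEven T) Q.P →+* ZMod p :=
  RingHom.liftOfSurjective (Laz.lift (lawOf Q.u)) Q.surj
    ⟨chiPt p n, fun z hz => I_le_ker_chiPt ((Q.ker z).1 hz)⟩

@[simp] theorem chiH_lift (z : Laz) : chiH Q (Laz.lift (lawOf Q.u) z) = chiPt p n z :=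
  RingHom.liftOfRightInverse_comp_apply _ _ _ _ _

theorem chiH_comp : (chiH Q).comp (Laz.lift (lawOf Q.u)) = chiPt p n :=
  RingHom.ext (chiH_lift Q)

/-- the law at the point is the law with `v_n = 1` and all other generators zero -/
theorem lawOf_map_chiH :
    (lawOf Q.u).map (chiH Q) = ptLaw p n (CharP.cast_eq_zero (ZMod p) p) 1 := by
  rw [← univ_map_chiPt, ← chiH_comp Q, ← Law.map_map, Laz.univ_map_lift]

theorem chiH_of {j : ℤ} (hj : ¬ (((p ^ n - 1 : ℕ) : ℤ) ∣ j)) (a : (stdEven T).S j ⟶ Q.P) :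
    chiH Q (HRing.of (stdEven T) Q.P j a) = 0 := by
  obtain ⟨z, hz, h⟩ := Q.exists_wt j a
  rw [← h, chiH_lift, chiPt_eq_zero hz hj]

/-- the element `v_n` of `π_{2(p^n-1)} P` -/
theorem PD.exists_v : ∃ a : (stdEven T).S ((p ^ n - 1 : ℕ) : ℤ) ⟶ Q.P,
    vv p n (lawOf Q.u) = HRing.of (stdEven T) Q.P ((p ^ n - 1 : ℕ) : ℤ) a := by
  obtain ⟨a, ha⟩ := exists_lift_lawOf Q.u (Laz.isWt_C_v hp.out.ne_zero n)
  exact ⟨a, by rw [← ha, Laz.lift_v]⟩

/-- the element `v_n` of `π_{2(p^n-1)} P` -/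
def PD.vN : (stdEven T).S ((p ^ n - 1 : ℕ) : ℤ) ⟶ Q.P := Q.exists_v.choose

theorem PD.vN_spec : vv p n (lawOf Q.u) = HRing.of (stdEven T) Q.P ((p ^ n - 1 : ℕ) : ℤ) Q.vN :=
  Q.exists_v.choose_spec

theorem chiH_vN (hn : n ≠ 0) :
    chiH Q (HRing.of (stdEven T) Q.P ((p ^ n - 1 : ℕ) : ℤ) Q.vN) = 1 := by
  rw [← Q.vN_spec, ← Laz.lift_v, chiH_lift, chiPt_v hn]

/-- The point of height `n` of `π_{2*} P`. -/
def ptOf (hn : n ≠ 0) : Pt (stdEven T) Q.P p (p ^ n - 1) where
  χ := chiH Q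
  χ_of _ hj a := chiH_of Q hj a
  v := Q.vN
  χ_v := chiH_vN Q hn

@[simp] theorem ptOf_χ (hn : n ≠ 0) : (ptOf Q hn).χ = chiH Q := rfl

@[simp] theorem ptOf_v (hn : n ≠ 0) : (ptOf Q hn).v = Q.vN := rfl

/-- `π_{2*} P → 𝔽_p[X]`, the graded version of `chiH`. -/
def ptH : HRing (stdEven T) Q.P →+* Polynomial (ZMod p) :=
  RingHom.liftOfSurjective (Laz.lift (lawOf Q.u)) Q.surj
    ⟨ptX p n, fun z hz => I_le_ker_ptX ((Q.ker z).1 hz)⟩

@[simp] theorem ptH_lift (z : Laz) : ptH Q (Laz.lift (lawOf Q.u) z) = ptX p n z :=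
  RingHom.liftOfRightInverse_comp_apply _ _ _ _ _

end

end Vale.Agent.P251.X
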