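import Vale.Agent.P251.X.VLax
import Vale.Agent.P251.X.VGraPre

/-!
# P251, part X5c: the grading of the lax theory `V_tot` by `ZMod N`

* `VtotGra c hc : (VtotLax c hc).Gra (ZMod N)`.
-/

open CategoryTheory MonoidalCategory Limits Pretriangulated MonObj

set_option linter.unusedSectionVars false

universe v u

noncomputable section

namespace Vale.Agent.P251.X

open Vale.Agent.P251.T Vale.Agent.P251.M Vale.Agent.P251.M.EvenSpheres Vale.Agent.P251.S

variable {T : Type u} [Category.{v} T] [Preadditive T] [HasZeroObject T]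
    [HasShift T ℤ] [∀ n : ℤ, (shiftFunctor T n).Additive] [Pretriangulated T] [IsTriangulated T]
    [MonoidalCategory T] [SymmetricCategory T] [TensorTriangulated T] [MonoidalClosed T]
    [HasCoproducts.{0} T] [HasProducts.{0} T] [StableCat T]
  {P : T} [MonObj P] [IsCommMonObj P] {p N : ℕ} [Fact p.Prime] (c : Pt (stdEven T) P p N)

/-- **The grading of `V_tot`**: `pr (mk x) = mk (MP.prC N 0 X x)` by `rfl`. -/
def VtotGra (hc : c.Exact) : (VtotLax c hc).Gra (ZMod N) where
  H i X := Vtot.H c i X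
  span X := Vtot.iSup_H X
  map f _ hx := Vtot.map_mem_H f hx
  mul {_ _ X Y _ _} hx hy := Vtot.mk_cross_mem (Vtot.prod c X Y) (fun _ _ => rfl) hx hy
  e := Vtot.mk_one_mem
  pr X := Vtot.pr c X
  pr_zero {_ _} hx := Vtot.pr_of_mem_zero hx
  pr_ne {_ _} hi {_} hx := Vtot.pr_of_mem_ne hi hx

variable (hc : c.Exact)

theorem VtotGra_H (i : ZMod N) (X : T) : (VtotGra c hc).H i X = Vtot.H c i X := rfl

theorem VtotGra_pr (X : T) (x : MP (stdEven T) P X) :
    (VtotGra c hc).pr X (Vtot.mk c X x) = Vtot.mk c X (MP.prC N 0 X x) := rfl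

theorem VtotGra_gen (hP : Odd0 P) (j : ℤ) :
    (VtotSph c hc hP).g j ∈ (VtotGra c hc).H (j : ZMod N) ((stdEven T).S j) :=
  Vtot.mk_gen_mem j

/-- The functional `phi` sees only the degree `0` part. -/
theorem phi_VtotGra_pr {R : T} [MonObj R] (u : R ⟶ P) (x : (VtotLax c hc).V R) :
    Vtot.phi c u ((VtotGra c hc).pr R x) = Vtot.phi c u x := by
  obtain ⟨x, rfl⟩ := Vtot.mk_surjective (c := c) x
  exact Vtot.phi_prC c u x

end Vale.Agent.P251.X
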