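import Vale.Agent.P251.X.PDSucc
import Vale.Agent.P251.X.PointH
import Vale.Agent.P251.X.ExactA
import Vale.Agent.P251.X.VGra
import Vale.Agent.P251.X.PhiMon
import Vale.Agent.P251.X.KFields
import Vale.Agent.P251.X.Small
import Vale.Agent.P251.X.KMain

/-!
# P251, part X: existence of Morava K-theories

* `exists_KD` : `KD D p n` for every odd prime `p` and every `n ≠ 0`;
* `exists_isMorava` : the Morava K-theories at the prime `p`, of all heights.
-/

open CategoryTheory MonoidalCategory Limits Pretriangulated MonObj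

set_option linter.unusedSectionVars false

universe w v u

namespace Vale.Agent.P251.X

open Vale.Agent.P251.T Vale.Agent.P251.M Vale.Agent.P251.M.EvenSpheres Vale.Agent.P251.S
  Vale.Agent.P251.F Vale.Agent.P251.I

variable {T : Type u} [Category.{v} T] [Preadditive T] [HasZeroObject T]
    [HasShift T ℤ] [∀ n : ℤ, (shiftFunctor T n).Additive] [Pretriangulated T] [IsTriangulated T]
    [MonoidalCategory T] [SymmetricCategory T] [TensorTriangulated T] [MonoidalClosed T]
    [HasCoproducts.{0} T] [HasProducts.{0} T] [StableCat T]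

/-- The functional `V_tot(R) ⟶ 𝔽_p` of a monoid map `u : R ⟶ P` is unital and multiplicative. -/
theorem mulFun_phi {P : T} [MonObj P] [IsCommMonObj P] {p N : ℕ} [Fact p.Prime]
    (c : Pt (stdEven T) P p N) (hc : c.Exact) {R : T} [MonObj R] (u : R ⟶ P) [IsMonHom u] :
    LaxTh.MulFun (F := VtotLax c hc) (A := R) (Vtot.phi c u) where
  one := Vtot.phi_one c u
  mul x y := by
    obtain ⟨x, rfl⟩ := Vtot.mk_surjective x
    obtain ⟨y, rfl⟩ := Vtot.mk_surjective y
    exact Vtot.phi_cross c u x y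

theorem chiH_vel {D : MUData T} {p n : ℕ} [Fact p.Prime] (hn : n ≠ 0) (Q : PD D p n) :
    chiH Q (HRing.of (stdEven T) Q.P ((p : ℤ) ^ n - 1) (D.vel p n ≫ Q.u)) = 1 := by
  rw [← vv_lawOf, ← Laz.lift_v, chiH_lift, chiPt_v hn]

/-- **The Morava K-theory**, from the commutative monoid `P = MU / I_n`. -/
theorem PD.exists_KD [LocallySmall.{0} T] {F : SpaceFunctor T}
    {e : F.S.obj CCF ≅ (stdEven T).L} {D : MUData T} (H : MUUniv e D) {p n : ℕ} [Fact p.Prime]
    (hn : n ≠ 0) (Q : PD D p n) : Nonempty (KD D p n) := by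
  let c := ptOf Q hn
  have hc : c.Exact := exact_of_chiPt Q H hn c (chiH_lift Q)
  let s := VtotSph c hc Q.odd
  let g := VtotGra c hc
  obtain ⟨K, ⟨ρ⟩⟩ := LaxTh.exists_rep (F := VtotLax c hc) (fun X => small_Vtot c X)
    (LaxTh.kun s) g s
  refine kd_of (LaxTh.kun s) g s ρ (VtotGra_gen c hc Q.odd) (mulFun_phi c hc Q.u)
    (fun x => Vtot.eq_zero_of_odd c (Q.odd_tensor H) (by decide) x) (phi_VtotGra_pr c hc Q.u) ?_
  have h3 := (Vtot.phi_gen c Q.u (D.vel p n)).trans (chiH_vel hn Q)
  intro h5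
  exact one_ne_zero (h3.symm.trans h5)

/-- **The Morava K-theories** `K(n)`, `n ≥ 1`, as commutative monoids under `MU`. -/
theorem exists_KD [LocallySmall.{0} T] {F : SpaceFunctor T} {e : F.S.obj CCF ≅ (stdEven T).L}
    {D : MUData T} (H : MUUniv e D) {p : ℕ} [Fact p.Prime] (hp : p ≠ 2) {n : ℕ} (hn : n ≠ 0) :
    Nonempty (KD D p n) := by
  obtain ⟨Q⟩ := exists_PD H hp hn
  exact Q.exists_KD H hn

/-- **Existence of the Morava K-theories** of all heights at an odd prime. -/
theorem exists_isMorava [LocallySmall.{0} T] (F : SpaceFunctor T) {p : ℕ} [Fact p.Prime]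
    (hp : p ≠ 2) (n : ℕ) :
    ∃ (K : T) (_ : MonObj K) (_ : IsCommMonObj K), Z.IsMorava F p n K :=
  exists_isMorava_of F (fun _ _ H _ hn => exists_KD H hp hn) n

end Vale.Agent.P251.X
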