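import Vale.Agent.P251.X.HQ
import Vale.Agent.P251.St.Result

/-!
# P251, part X: the rational Eilenberg-Mac Lane spectrum, in the language of the statement
-/

open CategoryTheory MonoidalCategory

namespace Vale.Agent.P251.X

open St St.SHCat

/-- `K(0)` exists. -/
theorem exists_isRational {T : SHCat} (S : Susp T) : ∃ R : RingSp T, IsRational R := by
  have := locallySmall_self.{0} T.C
  obtain ⟨K, i1, i2, h0, h1, h2, h3⟩ := exists_HQ (T := T.C) S.toSpaceFunctor
  exact ⟨⟨K⟩, fun k f hk => h0 k hk f, h1, h2, h3⟩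

/-- `K(0)` exists, as a Morava `K`-theory. -/
theorem exists_isMorava_zero {T : SHCat} (S : Susp T) (p : ℕ) :
    ∃ R : RingSp T, IsMorava S R p 0 := by
  obtain ⟨R, hR⟩ := exists_isRational S
  exact ⟨R, by rw [IsMorava, if_pos rfl]; exact hR⟩

end Vale.Agent.P251.X
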