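import Mathlib.CategoryTheory.Monoidal.Braided.Basic
import Mathlib.Tactic.CategoryTheory.Monoidal.Basic

/-!
# P251, part X: evaluation in the middle of a tensor product

`mid θ X Y : (X ⊗ A) ⊗ (B ⊗ Y) ⟶ X ⊗ Y` for `θ : A ⊗ B ⟶ 𝟙_ T`, and its coherences.
-/

open CategoryTheory MonoidalCategory

universe v u

namespace Vale.Agent.P251.X

variable {T : Type u} [Category.{v} T] [MonoidalCategory T]

/-- Evaluation in the middle. -/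
def mid {A B : T} (θ : A ⊗ B ⟶ 𝟙_ T) (X Y : T) : (X ⊗ A) ⊗ (B ⊗ Y) ⟶ X ⊗ Y :=
  (α_ X A (B ⊗ Y)).hom ≫ X ◁ ((α_ A B Y).inv ≫ θ ▷ Y ≫ (λ_ Y).hom)

instance isIso_mid {A B : T} (θ : A ⊗ B ⟶ 𝟙_ T) [IsIso θ] (X Y : T) : IsIso (mid θ X Y) := by
  unfold mid
  infer_instance

theorem mid_nat {A B : T} (θ : A ⊗ B ⟶ 𝟙_ T) {X X' Y Y' : T} (f : X ⟶ X') (g : Y ⟶ Y') :
    ((f ▷ A) ⊗ₘ (B ◁ g)) ≫ mid θ X' Y' = mid θ X Y ≫ (f ⊗ₘ g) := by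
  simp only [mid, MonoidalCategory.tensorHom_def, Category.assoc]
  rw [associator_naturality_right_assoc, ← whiskerLeft_comp, associator_inv_naturality_right_assoc,
    whisker_exchange_assoc, leftUnitor_naturality]
  simp only [MonoidalCategory.whiskerLeft_comp, Category.assoc]
  rw [associator_naturality_left_assoc, ← whisker_exchange_assoc, ← whisker_exchange_assoc,
    ← whisker_exchange_assoc]

theorem mid_right {A B B' : T} (θ : A ⊗ B ⟶ 𝟙_ T) (φ : B' ⟶ B) (X Y : T) :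
    (X ⊗ A) ◁ (φ ▷ Y) ≫ mid θ X Y = mid (A ◁ φ ≫ θ) X Y := by
  simp only [mid]
  rw [associator_naturality_right_assoc, ← whiskerLeft_comp, associator_inv_naturality_middle_assoc,
    comp_whiskerRight_assoc]

theorem mid_assoc1 {A B : T} (θ : A ⊗ B ⟶ 𝟙_ T) (X Y Z : T) :
    mid θ X Y ▷ Z ≫ (α_ X Y Z).hom =
      (α_ (X ⊗ A) (B ⊗ Y) Z).hom ≫ (X ⊗ A) ◁ (α_ B Y Z).hom ≫ mid θ X (Y ⊗ Z) := by
  simp only [mid]
  monoidal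

theorem mid_assoc2 {A B : T} (θ : A ⊗ B ⟶ 𝟙_ T) (X Y Z : T) :
    (α_ X Y A).inv ▷ (B ⊗ Z) ≫ mid θ (X ⊗ Y) Z ≫ (α_ X Y Z).hom =
      (α_ X (Y ⊗ A) (B ⊗ Z)).hom ≫ X ◁ mid θ Y Z := by
  simp only [mid]
  monoidal

theorem mid_per {A₀ S A B : T} (φ : A₀ ⊗ S ⟶ A) (θ : A ⊗ B ⟶ 𝟙_ T) (X Y : T) :
    ((α_ X A₀ S).hom ≫ X ◁ φ) ▷ (B ⊗ Y) ≫ mid θ X Y =
      (α_ (X ⊗ A₀) S (B ⊗ Y)).hom ≫ (X ⊗ A₀) ◁ (α_ S B Y).inv ≫
        mid ((α_ A₀ S B).inv ≫ φ ▷ B ≫ θ) X Y := by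
  simp only [mid]
  monoidal

theorem braid_aux1 [SymmetricCategory T] (A B Y : T) :
    (β_ A (B ⊗ Y)).hom ≫ (β_ B Y).hom ▷ A ≫ (α_ Y B A).hom ≫ Y ◁ (β_ B A).hom =
      (α_ A B Y).inv ≫ (β_ (A ⊗ B) Y).hom := by
  rw [← BraidedCategory.braiding_naturality_right_assoc,
    BraidedCategory.braiding_tensor_right_hom, BraidedCategory.braiding_tensor_left_hom]
  simp only [Category.assoc, Iso.inv_hom_id_assoc]
  rw [← MonoidalCategory.whiskerLeft_comp, SymmetricCategory.symmetry,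
    MonoidalCategory.whiskerLeft_id, Category.comp_id]

theorem braid_aux2 [SymmetricCategory T] (A B X Y : T) :
    (α_ X A (B ⊗ Y)).hom ≫ X ◁ (α_ A B Y).inv ≫ (β_ X ((A ⊗ B) ⊗ Y)).hom ≫
        (β_ (A ⊗ B) Y).hom ▷ X ≫ (α_ Y (A ⊗ B) X).hom =
      (β_ (X ⊗ A) (B ⊗ Y)).hom ≫ ((β_ B Y).hom ⊗ₘ (β_ X A).hom) ≫ (α_ Y B (A ⊗ X)).hom ≫
        Y ◁ (α_ B A X).inv ≫ Y ◁ ((β_ B A).hom ▷ X) := by
  have h1 : (β_ (X ⊗ A) (B ⊗ Y)).hom ≫ ((β_ B Y).hom ⊗ₘ (β_ X A).hom) =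
      (β_ X A).hom ▷ (B ⊗ Y) ≫ (β_ (A ⊗ X) (B ⊗ Y)).hom ≫ (β_ B Y).hom ▷ (A ⊗ X) := by
    rw [BraidedCategory.braiding_naturality_left_assoc, MonoidalCategory.tensorHom_def']
  rw [reassoc_of% h1, BraidedCategory.braiding_naturality_right_assoc,
    BraidedCategory.braiding_tensor_right_hom, BraidedCategory.braiding_tensor_left_hom A X]
  simp only [Category.assoc, Iso.hom_inv_id_assoc]
  have h2 := braid_aux1 A B Y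
  have h3 : (α_ A B Y).inv ▷ X ≫ (β_ (A ⊗ B) Y).hom ▷ X ≫ (α_ Y (A ⊗ B) X).hom =
      (β_ A (B ⊗ Y)).hom ▷ X ≫ (α_ (B ⊗ Y) A X).hom ≫ (β_ B Y).hom ▷ (A ⊗ X) ≫
        (α_ Y B (A ⊗ X)).hom ≫ Y ◁ (α_ B A X).inv ≫ Y ◁ ((β_ B A).hom ▷ X) := by
    rw [← comp_whiskerRight_assoc, ← h2]
    monoidal
  rw [h3]

theorem mid_braid [SymmetricCategory T] {A B : T} (θ : A ⊗ B ⟶ 𝟙_ T) (X Y : T) :
    mid θ X Y ≫ (β_ X Y).hom =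
      (β_ (X ⊗ A) (B ⊗ Y)).hom ≫ ((β_ B Y).hom ⊗ₘ (β_ X A).hom) ≫
        mid ((β_ B A).hom ≫ θ) Y X := by
  have h := braid_aux2 A B X Y
  have h1 : mid ((β_ B A).hom ≫ θ) Y X = (α_ Y B (A ⊗ X)).hom ≫
      Y ◁ (α_ B A X).inv ≫ Y ◁ ((β_ B A).hom ▷ X) ≫ Y ◁ (θ ▷ X) ≫ Y ◁ (λ_ X).hom := by
    simp [mid]
  have h2 : mid θ X Y ≫ (β_ X Y).hom = (α_ X A (B ⊗ Y)).hom ≫ X ◁ (α_ A B Y).inv ≫
      (β_ X ((A ⊗ B) ⊗ Y)).hom ≫ (β_ (A ⊗ B) Y).hom ▷ X ≫ (α_ Y (A ⊗ B) X).hom ≫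
        Y ◁ (θ ▷ X) ≫ Y ◁ (λ_ X).hom := by
    have h3 : (α_ Y (A ⊗ B) X).hom ≫ Y ◁ (θ ▷ X) ≫ Y ◁ (λ_ X).hom =
        (Y ◁ θ) ▷ X ≫ (ρ_ Y).hom ▷ X := by monoidal
    rw [h3, ← comp_whiskerRight_assoc, ← BraidedCategory.braiding_naturality_left,
      comp_whiskerRight_assoc, ← BraidedCategory.braiding_naturality_right_assoc]
    simp only [mid, MonoidalCategory.whiskerLeft_comp, Category.assoc]
    rw [← comp_whiskerRight, braiding_rightUnitor, BraidedCategory.braiding_naturality_right]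
  rw [h1, h2, reassoc_of% h]

end Vale.Agent.P251.X
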