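import Vale.Agent.P251.X.RepHom

/-!
# P251, part X: homology theories with values in abelian groups

`HomAb C`: a homology theory; `HomAb.bijective_of_gen`: a natural transformation of homology
theories which is bijective on the shifts of a compact generator is bijective.
-/

open CategoryTheory MonoidalCategory Limits Pretriangulated
open scoped DirectSum

universe w w' v u

noncomputable section

namespace Vale.Agent.P251.X

open Vale.Agent.P251.H

set_option linter.unusedSectionVars false

variable (C : Type u) [Category.{v} C] [Preadditive C] [HasZeroObject C]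
  [HasShift C ℤ] [∀ n : ℤ, (shiftFunctor C n).Additive] [Pretriangulated C] [HasCoproducts.{0} C]

/-- A homology theory with values in abelian groups. -/
structure HomAb where
  /-- the values -/
  V : C → Type w
  [grp : ∀ X, AddCommGroup (V X)]
  /-- functoriality -/
  map : ∀ {X Y : C}, (X ⟶ Y) → V X →+ V Y
  map_id : ∀ {X : C} (x : V X), map (𝟙 X) x = x
  map_comp : ∀ {X Y Z : C} (f : X ⟶ Y) (g : Y ⟶ Z) (x : V X), map (f ≫ g) x = map g (map f x)
  map_add : ∀ {X Y : C} (f g : X ⟶ Y) (x : V X), map (f + g) x = map f x + map g x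
  exact : ∀ {X Y Z : C} {f : X ⟶ Y} {g : Y ⟶ Z} {h : Z ⟶ X⟦(1 : ℤ)⟧}, Dist f g h →
    ∀ y : V Y, map g y = 0 → ∃ x : V X, map f x = y
  coprod : ∀ {I : Type} [DecidableEq I] (X : I → C),
    Function.Bijective (DirectSum.toAddMonoid fun i => map (Sigma.ι X i))

attribute [instance] HomAb.grp

variable {C}

namespace HomAb

section basic

variable (F : HomAb.{w} C)

theorem zero_map {X Y : C} (x : F.V X) : F.map (0 : X ⟶ Y) x = 0 := by
  have h := F.map_add (0 : X ⟶ Y) 0 x
  rw [add_zero] at h
  exact (left_eq_add.mp h)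

theorem neg_map {X Y : C} (f : X ⟶ Y) (x : F.V X) : F.map (-f) x = -F.map f x := by
  have h := F.map_add f (-f) x
  rw [add_neg_cancel, F.zero_map] at h
  exact (neg_eq_of_add_eq_zero_right h.symm).symm

theorem sub_map {X Y : C} (f g : X ⟶ Y) (x : F.V X) :
    F.map (f - g) x = F.map f x - F.map g x := by
  rw [sub_eq_add_neg, F.map_add, F.neg_map, sub_eq_add_neg]

theorem map_zero_obj {X : C} (hX : IsZero X) (x : F.V X) : x = 0 := by
  rw [← F.map_id x, hX.eq_of_src (𝟙 X) 0, F.zero_map]

theorem map_comp_zero {X Y Z : C} {f : X ⟶ Y} {g : Y ⟶ Z} (h : f ≫ g = 0) (x : F.V X) :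
    F.map g (F.map f x) = 0 := by
  rw [← F.map_comp, h, F.zero_map]

theorem bijective_iso {X Y : C} (e : X ≅ Y) : Function.Bijective (F.map e.hom) := by
  constructor
  · intro x y h
    rw [← F.map_id x, ← F.map_id y, ← e.hom_inv_id, F.map_comp, F.map_comp, h]
  · intro y
    exact ⟨F.map e.inv y, by rw [← F.map_comp, e.inv_hom_id, F.map_id]⟩

end basic

section nat

variable {F : HomAb.{w} C} {G : HomAb.{w'} C} {η : ∀ X, F.V X →+ G.V X}

theorem bij_of_iso (nat : ∀ {X Y : C} (f : X ⟶ Y) (x : F.V X), η Y (F.map f x) = G.map f (η X x))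
    {X Y : C} (e : X ≅ Y) (h : Function.Bijective (η X)) : Function.Bijective (η Y) := by
  have h1 : η Y ∘ F.map e.hom = G.map e.hom ∘ η X := funext fun x => nat e.hom x
  have h2 : Function.Bijective (η Y ∘ F.map e.hom) := by
    rw [h1]
    exact (G.bijective_iso e).comp h
  exact (Function.Bijective.of_comp_iff _ (F.bijective_iso e)).1 h2

/-- Five lemma. -/
theorem five (nat : ∀ {X Y : C} (f : X ⟶ Y) (x : F.V X), η Y (F.map f x) = G.map f (η X x))
    {X₁ X₂ X₃ : C} {f : X₁ ⟶ X₂} {g : X₂ ⟶ X₃} {h : X₃ ⟶ X₁⟦(1 : ℤ)⟧} (D : Dist f g h)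
    (h₁ : Function.Bijective (η X₁)) (h₂ : Function.Bijective (η X₂))
    (h₁' : Function.Bijective (η (X₁⟦(1 : ℤ)⟧))) (h₂' : Function.Bijective (η (X₂⟦(1 : ℤ)⟧))) :
    Function.Bijective (η X₃) := by
  constructor
  · rw [injective_iff_map_eq_zero]
    intro x hx
    have e1 : F.map h x = 0 := by
      apply h₁'.1
      rw [nat, hx, map_zero, map_zero]
    obtain ⟨y, rfl⟩ := F.exact D.rot x e1
    have e2 : G.map g (η X₂ y) = 0 := by rw [← nat, hx]
    obtain ⟨z, hz⟩ := G.exact D (η X₂ y) e2
    obtain ⟨z', rfl⟩ := h₁.2 z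
    have e3 : F.map f z' = y := h₂.1 (by rw [nat, hz])
    rw [← e3]
    exact F.map_comp_zero D.zero₁₂ z'
  · intro x
    obtain ⟨t, ht⟩ := h₁'.2 (G.map h x)
    have e1 : F.map (-f⟦(1 : ℤ)⟧') t = 0 := by
      apply h₂'.1
      rw [nat, ht, map_zero]
      exact G.map_comp_zero D.rot.zero₂₃ x
    obtain ⟨x', hx'⟩ := F.exact D.rot.rot t e1
    have e2 : G.map h (x - η X₃ x') = 0 := by
      rw [map_sub, ← nat, hx', ht, sub_self]
    obtain ⟨y, hy⟩ := G.exact D.rot _ e2
    obtain ⟨y', rfl⟩ := h₂.2 y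
    refine ⟨x' + F.map g y', ?_⟩
    rw [_root_.map_add, nat, hy, add_sub_cancel]

/-- coproducts -/
theorem bij_coprod
    (nat : ∀ {X Y : C} (f : X ⟶ Y) (x : F.V X), η Y (F.map f x) = G.map f (η X x))
    {I : Type} (X : I → C) (h : ∀ i, Function.Bijective (η (X i))) :
    Function.Bijective (η (∐ X)) := by
  classical
  let e : (⨁ i, F.V (X i)) ≃+ (⨁ i, G.V (X i)) :=
    DFinsupp.mapRange.addEquiv fun i => AddEquiv.ofBijective (η (X i)) (h i)
  have h1 : ∀ u, η (∐ X) (DirectSum.toAddMonoid (fun i => F.map (Sigma.ι X i)) u) =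
      DirectSum.toAddMonoid (fun i => G.map (Sigma.ι X i)) (e u) := by
    intro u
    induction u using DirectSum.induction_on with
    | zero => simp only [_root_.map_zero]
    | add u v hu hv => simp only [_root_.map_add, hu, hv]
    | of i x =>
      have h2 : e (DirectSum.of (fun i => F.V (X i)) i x) =
          DirectSum.of (fun i => G.V (X i)) i (η (X i) x) :=
        DFinsupp.mapRange_single (hf := fun i => map_zero (η (X i))) (i := i) (b := x)
      rw [h2, DirectSum.toAddMonoid_of, DirectSum.toAddMonoid_of, nat]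
  have h2 : η (∐ X) ∘ DirectSum.toAddMonoid (fun i => F.map (Sigma.ι X i)) =
      DirectSum.toAddMonoid (fun i => G.map (Sigma.ι X i)) ∘ e := funext h1
  have h3 : Function.Bijective
      (η (∐ X) ∘ DirectSum.toAddMonoid (fun i => F.map (Sigma.ι X i))) := by
    rw [h2]
    exact (G.coprod X).comp e.bijective
  exact (Function.Bijective.of_comp_iff _ (F.coprod X)).1 h3

theorem localizing
    (nat : ∀ {X Y : C} (f : X ⟶ Y) (x : F.V X), η Y (F.map f x) = G.map f (η X x)) :
    Localizing fun X : C => ∀ n : ℤ, Function.Bijective (η (X⟦n⟧)) where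
  iso e h n := bij_of_iso nat ((shiftFunctor C n).mapIso e) (h n)
  shift {X} m h n := bij_of_iso nat ((shiftFunctorAdd C m n).app X) (h (m + n))
  cone {X₁ X₂ X₃} f g k D h₁ h₂ n := by
    obtain ⟨f', g', k', D'⟩ := D.exists_shift n
    exact five nat D' (h₁ n) (h₂ n) (bij_of_iso nat ((shiftFunctorAdd C n 1).app _) (h₁ (n + 1)))
      (bij_of_iso nat ((shiftFunctorAdd C n 1).app _) (h₂ (n + 1)))
  coprod X h n := by
    have h1 := bij_coprod nat (fun i => (X i)⟦n⟧) fun i => h i n
    exact bij_of_iso nat (PreservesCoproduct.iso (shiftFunctor C n) X).symm h1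

/-- **Comparison of homology theories.** -/
theorem bijective_of_gen [LocallySmall.{0} C] {S : C} (hc : IsCpt S) (hg : IsGen S)
    (nat : ∀ {X Y : C} (f : X ⟶ Y) (x : F.V X), η Y (F.map f x) = G.map f (η X x))
    (h : ∀ n : ℤ, Function.Bijective (η (S⟦n⟧))) (X : C) : Function.Bijective (η X) := by
  have h1 := inLoc_cpt hc hg _ (localizing (F := F) (G := G) (η := η) nat) h X
  exact bij_of_iso nat ((shiftFunctorZero C ℤ).app X) (h1 0)

end nat

end HomAb

section th

variable {k : Type} [Field k] (F : HomTh.{w} k C)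

/-- The underlying theory with values in abelian groups. -/
def HomTh.toAb : HomAb.{w} C where
  V := F.V
  map f := (F.map f).toAddMonoidHom
  map_id {X} x := by
    rw [F.map_id]
    rfl
  map_comp f g x := by
    rw [F.map_comp]
    rfl
  map_add f g x := by
    rw [F.map_add]
    rfl
  exact D := F.exact D
  coprod {I} _ X := F.coprod X

end th

end Vale.Agent.P251.X
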