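import Mathlib.CategoryTheory.Monoidal.Braided.Basic
import Mathlib.CategoryTheory.Monoidal.Preadditive
import Mathlib.CategoryTheory.Monoidal.CommMon_
import Mathlib.Tactic.CategoryTheory.Monoidal.Basic
import Mathlib.Tactic.CategoryTheory.Slice

/-!
# P251, part X1b: the quotient of the unit by `v : Z ⟶ 𝟙`, abstractly

`C` a symmetric monoidal preadditive category, `Z ⟶ 𝟙 ⟶ E ⟶ Z ⊗ S ⟶ S` exact in the sense of
`Cof`.

* `Cof.exists_mul` : if `Hom(Z ⊗ S, E) = 0 = Hom(Z ⊗ (Z ⊗ S), E) = Hom((Z ⊗ S)^{⊗ 3}, E)` and `2`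
  is invertible on `E`, then `E` has a commutative and associative product with unit `i`.
* `Cof.exists_aug` : if `v = 0`, `Hom(Z ⊗ S, 𝟙) = 0`, `Hom((Z ⊗ S) ⊗ (Z ⊗ S), 𝟙)` has no
  `2`-torsion and the swap of `(Z ⊗ S) ⊗ (Z ⊗ S)` is `-1`, then every unital commutative product on
  `E` has a multiplicative augmentation.
-/

open CategoryTheory MonoidalCategory

universe v u

namespace Vale.Agent.P251.X

variable {C : Type u} [Category.{v} C] [MonoidalCategory C] [SymmetricCategory C]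
  [Preadditive C] [MonoidalPreadditive C]

/-- `Z ⟶ 𝟙 ⟶ E ⟶ Z ⊗ S ⟶ S` is exact for `Hom(- ⊗ X, Y)`. -/
structure Cof {Z S E : C} (v : Z ⟶ 𝟙_ C) (i : 𝟙_ C ⟶ E) (δ : E ⟶ Z ⊗ S) : Prop where
  zero : v ≫ i = 0
  ext (X Y : C) (a : X ⟶ Y) (ha : v ▷ X ≫ (λ_ X).hom ≫ a = 0) :
    ∃ b : E ⊗ X ⟶ Y, a = (λ_ X).inv ≫ i ▷ X ≫ b
  fac (X Y : C) (a : E ⊗ X ⟶ Y) (ha : i ▷ X ≫ a = 0) : ∃ b : (Z ⊗ S) ⊗ X ⟶ Y, a = δ ▷ X ≫ b
  inj (X Y : C) (a : (Z ⊗ S) ⊗ X ⟶ Y) (ha : δ ▷ X ≫ a = 0) :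
    ∃ b : S ⊗ X ⟶ Y, a = (v ▷ S ≫ (λ_ S).hom) ▷ X ≫ b

namespace Cof

variable {Z S E : C} {v : Z ⟶ 𝟙_ C} {i : 𝟙_ C ⟶ E} {δ : E ⟶ Z ⊗ S} (h : Cof v i δ)

omit [SymmetricCategory C] [MonoidalPreadditive C] in
lemma v_comp {X Y : C} (hY : v ▷ Y = 0) (a : X ⟶ Y) : v ▷ X ≫ (λ_ X).hom ≫ a = 0 := by
  rw [← leftUnitor_naturality, ← whisker_exchange_assoc, hY, Limits.zero_comp, Limits.comp_zero]

include h

omit [SymmetricCategory C] [MonoidalPreadditive C] in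
lemma ext' {X Y : C} (hY : v ▷ Y = 0) (a : X ⟶ Y) : ∃ b : E ⊗ X ⟶ Y, i ▷ X ≫ b = (λ_ X).hom ≫ a := by
  obtain ⟨b, hb⟩ := h.ext X Y a (v_comp hY a)
  exact ⟨b, by rw [hb, Iso.hom_inv_id_assoc]⟩

omit [SymmetricCategory C] [MonoidalPreadditive C] in
lemma eq_zero {X Y : C} (hY : v ▷ Y = 0) (a : (Z ⊗ S) ⊗ X ⟶ Y) (ha : δ ▷ X ≫ a = 0) : a = 0 := by
  obtain ⟨b, rfl⟩ := h.inj X Y a ha
  have e : (v ▷ S ≫ (λ_ S).hom) ▷ X = (α_ Z S X).hom ≫ v ▷ (S ⊗ X) ≫ (λ_ (S ⊗ X)).hom := by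
    monoidal
  rw [e, Category.assoc, Category.assoc, v_comp hY, Limits.comp_zero]

/-- first variable of `(E ⊗ A) ⊗ B` -/
lemma facL {A B Y : C} (f : (E ⊗ A) ⊗ B ⟶ Y) (hf : (i ▷ A) ▷ B ≫ f = 0) :
    ∃ b : ((Z ⊗ S) ⊗ A) ⊗ B ⟶ Y, f = (δ ▷ A) ▷ B ≫ b := by
  obtain ⟨b, hb⟩ := h.fac (A ⊗ B) Y ((α_ E A B).inv ≫ f) (by
    rw [whiskerRight_tensor_assoc, Iso.hom_inv_id_assoc]
    rw [hf, Limits.comp_zero])
  refine ⟨(α_ _ A B).hom ≫ b, ?_⟩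
  rw [associator_naturality_left_assoc, ← hb, Iso.hom_inv_id_assoc]

lemma injL {A B Y : C} (hY : v ▷ Y = 0) (b : ((Z ⊗ S) ⊗ A) ⊗ B ⟶ Y) (hb : (δ ▷ A) ▷ B ≫ b = 0) :
    b = 0 := by
  have h1 := h.eq_zero hY ((α_ _ A B).inv ≫ b) (by
    rw [whiskerRight_tensor_assoc, Iso.hom_inv_id_assoc, hb, Limits.comp_zero])
  rw [← cancel_epi (α_ (Z ⊗ S) A B).inv, h1, Limits.comp_zero]

/-- the middle variable of `(A ⊗ E) ⊗ B` -/
lemma facM {A B Y : C} (f : (A ⊗ E) ⊗ B ⟶ Y) (hf : (A ◁ i) ▷ B ≫ f = 0) :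
    ∃ b : (A ⊗ (Z ⊗ S)) ⊗ B ⟶ Y, f = (A ◁ δ) ▷ B ≫ b := by
  obtain ⟨b, hb⟩ := h.facL ((β_ E A).hom ▷ B ≫ f) (by
    rw [← comp_whiskerRight_assoc, BraidedCategory.braiding_naturality_left,
      comp_whiskerRight_assoc, hf, Limits.comp_zero])
  refine ⟨(β_ A (Z ⊗ S)).hom ▷ B ≫ b, ?_⟩
  rw [← comp_whiskerRight_assoc, BraidedCategory.braiding_naturality_right,
    comp_whiskerRight_assoc, ← hb, ← comp_whiskerRight_assoc, SymmetricCategory.symmetry]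
  simp

lemma injM {A B Y : C} (hY : v ▷ Y = 0) (b : (A ⊗ (Z ⊗ S)) ⊗ B ⟶ Y)
    (hb : (A ◁ δ) ▷ B ≫ b = 0) : b = 0 := by
  have h1 := h.injL hY ((β_ (Z ⊗ S) A).hom ▷ B ≫ b) (by
    rw [← comp_whiskerRight_assoc, BraidedCategory.braiding_naturality_left,
      comp_whiskerRight_assoc, hb, Limits.comp_zero])
  rw [← cancel_epi ((β_ (Z ⊗ S) A).hom ▷ B), h1, Limits.comp_zero]

/-- the last variable of `W ⊗ E` -/
lemma facR {W Y : C} (f : W ⊗ E ⟶ Y) (hf : W ◁ i ≫ f = 0) :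
    ∃ b : W ⊗ (Z ⊗ S) ⟶ Y, f = W ◁ δ ≫ b := by
  obtain ⟨b, hb⟩ := h.fac W Y ((β_ E W).hom ≫ f) (by
    rw [BraidedCategory.braiding_naturality_left_assoc, hf, Limits.comp_zero])
  refine ⟨(β_ W (Z ⊗ S)).hom ≫ b, ?_⟩
  rw [BraidedCategory.braiding_naturality_right_assoc, ← hb, SymmetricCategory.symmetry_assoc]

lemma injR {W Y : C} (hY : v ▷ Y = 0) (b : W ⊗ (Z ⊗ S) ⟶ Y) (hb : W ◁ δ ≫ b = 0) : b = 0 := by
  have h1 := h.eq_zero hY ((β_ (Z ⊗ S) W).hom ≫ b) (by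
    rw [BraidedCategory.braiding_naturality_left_assoc, hb, Limits.comp_zero])
  rw [← cancel_epi ((β_ (Z ⊗ S) W).hom), h1, Limits.comp_zero]

/-- `v` acts by zero on `E`. -/
lemma v_whiskerRight_E (h2 : ∀ f : Z ⊗ (Z ⊗ S) ⟶ E, f = 0) : v ▷ E = 0 := by
  have h1 : v ▷ E ≫ (λ_ E).hom = 0 := by
    obtain ⟨b, hb⟩ := h.facR (v ▷ E ≫ (λ_ E).hom) (by
      rw [whisker_exchange_assoc, leftUnitor_naturality, unitors_equal, rightUnitor_naturality_assoc,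
        h.zero, Limits.comp_zero])
    rw [hb, h2 b, Limits.comp_zero]
  rw [← cancel_mono (λ_ E).hom, h1, Limits.zero_comp]

/-- **Products on `E`.** -/
theorem exists_mul (h1 : ∀ f : Z ⊗ S ⟶ E, f = 0) (h2 : ∀ f : Z ⊗ (Z ⊗ S) ⟶ E, f = 0)
    (h3 : ∀ f : ((Z ⊗ S) ⊗ (Z ⊗ S)) ⊗ (Z ⊗ S) ⟶ E, f = 0) (half : ∃ t : E ⟶ E, t + t = 𝟙 E) :
    ∃ m : E ⊗ E ⟶ E, i ▷ E ≫ m = (λ_ E).hom ∧ E ◁ i ≫ m = (ρ_ E).hom ∧ (β_ E E).hom ≫ m = m ∧
      m ▷ E ≫ m = (α_ E E E).hom ≫ E ◁ m ≫ m := by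
  have hE := h.v_whiskerRight_E h2
  -- a product with left unit
  obtain ⟨m₀, hm₀⟩ := h.ext' hE (𝟙 E)
  rw [Category.comp_id] at hm₀
  -- it has a right unit
  have hr₀ : E ◁ i ≫ m₀ = (ρ_ E).hom := by
    have e1 : i ▷ 𝟙_ C ≫ (E ◁ i ≫ m₀ - (ρ_ E).hom) = 0 := by
      rw [Preadditive.comp_sub, ← whisker_exchange_assoc, hm₀, leftUnitor_naturality,
        rightUnitor_naturality, unitors_equal, sub_self]
    obtain ⟨b, hb⟩ := h.fac _ _ _ e1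
    have e2 : b = 0 := by
      rw [← cancel_epi (ρ_ (Z ⊗ S)).inv, h1 ((ρ_ (Z ⊗ S)).inv ≫ b), Limits.comp_zero]
    rw [e2, Limits.comp_zero] at hb
    exact sub_eq_zero.1 hb
  obtain ⟨t, ht⟩ := half
  set m : E ⊗ E ⟶ E := (m₀ + (β_ E E).hom ≫ m₀) ≫ t with hm
  have hu : i ▷ E ≫ m = (λ_ E).hom := by
    rw [hm, ← Category.assoc, Preadditive.comp_add,
      BraidedCategory.braiding_naturality_left_assoc, hm₀, hr₀]
    have e : (β_ (𝟙_ C) E).hom ≫ (ρ_ E).hom = (λ_ E).hom := by simp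
    rw [e, Preadditive.add_comp, ← Preadditive.comp_add, ht, Category.comp_id]
  have hc : (β_ E E).hom ≫ m = m := by
    rw [hm, ← Category.assoc, Preadditive.comp_add, SymmetricCategory.symmetry_assoc, add_comm]
  have hr : E ◁ i ≫ m = (ρ_ E).hom := by
    rw [← hc, BraidedCategory.braiding_naturality_right_assoc, hu]
    simp
  refine ⟨m, hu, hr, hc, ?_⟩
  -- associativity
  set a : (E ⊗ E) ⊗ E ⟶ E := m ▷ E ≫ m - (α_ E E E).hom ≫ E ◁ m ≫ m with ha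
  have a1 : (i ▷ E) ▷ E ≫ a = 0 := by
    rw [ha, Preadditive.comp_sub, ← comp_whiskerRight_assoc, hu, associator_naturality_left_assoc,
      ← whisker_exchange_assoc, hu, leftUnitor_naturality, leftUnitor_tensor_hom_assoc,
      Iso.hom_inv_id_assoc, sub_self]
  have a2 : (E ◁ i) ▷ E ≫ a = 0 := by
    rw [ha, Preadditive.comp_sub, ← comp_whiskerRight_assoc, hr,
      associator_naturality_middle_assoc, ← whiskerLeft_comp_assoc, hu, triangle_assoc, sub_self]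
  have a3 : (E ⊗ E) ◁ i ≫ a = 0 := by
    rw [ha, Preadditive.comp_sub, whisker_exchange_assoc, hr, associator_naturality_right_assoc,
      ← whiskerLeft_comp_assoc, hr, rightUnitor_naturality, rightUnitor_tensor_hom_assoc, sub_self]
  obtain ⟨g, hg⟩ := h.facL a a1
  have g2 : ((Z ⊗ S) ◁ i) ▷ E ≫ g = 0 := by
    apply h.injL hE
    rw [← comp_whiskerRight_assoc, ← whisker_exchange, comp_whiskerRight_assoc, ← hg, a2]
  have g3 : ((Z ⊗ S) ⊗ E) ◁ i ≫ g = 0 := by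
    apply h.injL hE
    rw [← whisker_exchange_assoc, ← hg, a3]
  obtain ⟨g', hg'⟩ := h.facM g g2
  have g3' : ((Z ⊗ S) ⊗ (Z ⊗ S)) ◁ i ≫ g' = 0 := by
    apply h.injM hE
    rw [← whisker_exchange_assoc, ← hg', g3]
  obtain ⟨g'', hg''⟩ := h.facR g' g3'
  rw [h3 g'', Limits.comp_zero] at hg''
  rw [hg'', Limits.comp_zero] at hg'
  rw [hg', Limits.comp_zero] at hg
  exact sub_eq_zero.1 hg

/-- **Augmentations of `E`.** -/
theorem exists_aug (hv : v = 0) (h1 : ∀ f : Z ⊗ S ⟶ 𝟙_ C, f = 0)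
    (h2 : ∀ f : (Z ⊗ S) ⊗ (Z ⊗ S) ⟶ 𝟙_ C, f + f = 0 → f = 0)
    (swap : (β_ (Z ⊗ S) (Z ⊗ S)).hom = -𝟙 _)
    (m : E ⊗ E ⟶ E) (hu : i ▷ E ≫ m = (λ_ E).hom) (hc : (β_ E E).hom ≫ m = m) :
    ∃ f : E ⟶ 𝟙_ C, i ≫ f = 𝟙 _ ∧ m ≫ f = (f ⊗ₘ f) ≫ (λ_ (𝟙_ C)).hom := by
  have hY : ∀ Y : C, v ▷ Y = 0 := fun Y => by rw [hv, MonoidalPreadditive.zero_whiskerRight]
  have hr : E ◁ i ≫ m = (ρ_ E).hom := by
    rw [← hc, BraidedCategory.braiding_naturality_right_assoc, hu]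
    simp
  obtain ⟨f₀, hf₀⟩ := h.ext' (hY _) (𝟙 (𝟙_ C))
  rw [Category.comp_id] at hf₀
  set f : E ⟶ 𝟙_ C := (ρ_ E).inv ≫ f₀ with hf
  have hif : i ≫ f = 𝟙 _ := by
    rw [hf, rightUnitor_inv_naturality_assoc, hf₀, unitors_equal, Iso.inv_hom_id]
  refine ⟨f, hif, ?_⟩
  set d : E ⊗ E ⟶ 𝟙_ C := m ≫ f - (f ⊗ₘ f) ≫ (λ_ (𝟙_ C)).hom with hd
  have d1 : i ▷ E ≫ d = 0 := by
    rw [hd, Preadditive.comp_sub, reassoc_of% hu, tensorHom_def, Category.assoc,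
      ← comp_whiskerRight_assoc, hif, id_whiskerRight, Category.id_comp, leftUnitor_naturality,
      sub_self]
  have d2 : E ◁ i ≫ d = 0 := by
    rw [hd, Preadditive.comp_sub, reassoc_of% hr, tensorHom_def', Category.assoc,
      ← whiskerLeft_comp_assoc, hif, whiskerLeft_id, Category.id_comp, unitors_equal,
      rightUnitor_naturality, sub_self]
  obtain ⟨g, hg⟩ := h.fac _ _ d d1
  have g2 : (Z ⊗ S) ◁ i ≫ g = 0 := by
    apply h.eq_zero (hY _)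
    rw [← whisker_exchange_assoc, ← hg, d2]
  obtain ⟨g', hg'⟩ := h.facR g g2
  have hd' : d = (δ ⊗ₘ δ) ≫ g' := by
    rw [hg, hg', tensorHom_def, Category.assoc]
  have hdc : (β_ E E).hom ≫ d = d := by
    rw [hd, Preadditive.comp_sub, reassoc_of% hc, ← BraidedCategory.braiding_naturality_assoc]
    congr 2
    rw [braiding_tensorUnit_left]
    simp [unitors_equal]
  have hdc' : (β_ E E).hom ≫ d = -d := by
    rw [hd', ← BraidedCategory.braiding_naturality_assoc, swap, Preadditive.neg_comp,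
      Category.id_comp, Preadditive.comp_neg]
  have hdd : (δ ⊗ₘ δ) ≫ (g' + g') = 0 := by
    rw [Preadditive.comp_add, ← hd']
    have := hdc.symm.trans hdc'
    exact eq_neg_iff_add_eq_zero.1 this
  have hgg : g' + g' = 0 := by
    apply h.injR (hY _)
    apply h.eq_zero (hY _)
    rw [← tensorHom_def_assoc, hdd]
  rw [h2 g' hgg, Limits.comp_zero] at hd'
  exact sub_eq_zero.1 hd'

/-- Uniqueness of augmentations. -/
theorem aug_unique (h1 : ∀ f : Z ⊗ S ⟶ 𝟙_ C, f = 0) {f f' : E ⟶ 𝟙_ C} (hf : i ≫ f = i ≫ f') :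
    f = f' := by
  obtain ⟨b, hb⟩ := h.fac (𝟙_ C) (𝟙_ C) ((ρ_ E).hom ≫ (f - f')) (by
    rw [rightUnitor_naturality_assoc, Preadditive.comp_sub, hf, sub_self, Limits.comp_zero])
  have e2 : b = 0 := by
    rw [← cancel_epi (ρ_ (Z ⊗ S)).inv, h1 ((ρ_ (Z ⊗ S)).inv ≫ b), Limits.comp_zero]
  rw [e2, Limits.comp_zero] at hb
  rw [← cancel_epi (ρ_ E).hom]
  rw [← sub_eq_zero, ← Preadditive.comp_sub, hb]

end Cof

end Vale.Agent.P251.X
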