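import Vale.Agent.P251.X.Step
import Vale.Agent.P251.X.Free

/-!
# P251, part X (X2c): the base case `R / p = R ⊗ S/p`
-/

open CategoryTheory MonoidalCategory Limits Pretriangulated MonObj

set_option linter.unusedSectionVars false

universe v u

namespace Vale.Agent.P251.X

open Vale.Agent.P251.T Vale.Agent.P251.M Vale.Agent.P251.S

section base

variable {T : Type u} [Category.{v} T] [Preadditive T] [HasZeroObject T] [HasShift T ℤ]
  [∀ n : ℤ, (shiftFunctor T n).Additive] [Pretriangulated T]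
  [MonoidalCategory T] [SymmetricCategory T] [TensorTriangulated T]
  (R : T) [MonObj R] [IsCommMonObj R] {M : T} {iM : 𝟙_ T ⟶ M} {δM : M ⟶ (𝟙_ T)⟦(1 : ℤ)⟧}

theorem whiskerLeft_zsmul' (A : T) {X Y : T} (m : ℤ) (f : X ⟶ Y) :
    A ◁ (m • f) = m • A ◁ f := (tensorLeft A).map_zsmul (f := f) (r := m)

theorem whiskerRight_zsmul' {X Y : T} (m : ℤ) (f : X ⟶ Y) (A : T) :
    (m • f) ▷ A = m • f ▷ A := (tensorRight A).map_zsmul (f := f) (r := m)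

theorem e_unit_inv : (TensorTriangulated.e (𝟙_ T)).inv = (λ_ ((𝟙_ T)⟦(1 : ℤ)⟧)).inv := by
  rw [← cancel_epi (TensorTriangulated.e (𝟙_ T)).hom, Iso.hom_inv_id,
    TensorTriangulated.e_unit, Iso.hom_inv_id]

theorem base_mul (p : ℤ) : R ◁ (p • η[R]) ≫ μ[R] = R ◁ (p • 𝟙 (𝟙_ T)) ≫ (ρ_ R).hom := by
  rw [whiskerLeft_zsmul', whiskerLeft_zsmul', Preadditive.zsmul_comp, Preadditive.zsmul_comp,
    MonObj.mul_one, MonoidalCategory.whiskerLeft_id, Category.id_comp]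

theorem base_dist {p : ℤ} (hM : Triangle.mk (p • 𝟙 (𝟙_ T)) iM δM ∈ distTriang T) :
    Triangle.mk (R ◁ (p • η[R]) ≫ μ[R]) ((ρ_ R).inv ≫ R ◁ iM) (tensδ R δM) ∈ distTriang T := by
  refine isomorphic_distinguished _ (tens_dist R hM) _ ?_
  refine Triangle.isoMk _ _ (Iso.refl _) (ρ_ R).symm (Iso.refl _) ?_ ?_ ?_
  · change (R ◁ (p • η[R]) ≫ μ[R]) ≫ (ρ_ R).inv = 𝟙 _ ≫ R ◁ (p • 𝟙 (𝟙_ T))
    rw [base_mul, Category.assoc, Iso.hom_inv_id, Category.comp_id, Category.id_comp]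
  · change ((ρ_ R).inv ≫ R ◁ iM) ≫ 𝟙 _ = (ρ_ R).inv ≫ R ◁ iM
    rw [Category.comp_id]
  · change tensδ R δM ≫ (𝟙 (R ⊗ 𝟙_ T))⟦(1 : ℤ)⟧' = 𝟙 _ ≫ tensδ R δM
    rw [CategoryTheory.Functor.map_id, Category.comp_id, Category.id_comp]

theorem rho_inv_lin (D : T) [MonObj D] :
    (ModStr.self D).IsLinear (ModStr.free D (𝟙_ T)) (ρ_ D).inv := by
  change μ[D] ≫ (ρ_ D).inv = D ◁ (ρ_ D).inv ≫ fact D (𝟙_ T)
  unfold fact
  rw [rightUnitor_inv_naturality]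
  monoidal

/-- **The base case.** `R ⊗ M = R / p`, `M = S / p`. -/
noncomputable def baseQIn {p : ℤ} (hM : Triangle.mk (p • 𝟙 (𝟙_ T)) iM δM ∈ distTriang T) :
    QIn R (R ⊗ M) (𝟙_ T) ((𝟙_ T)⟦(1 : ℤ)⟧) where
  v := p • η[R]
  inv := by
    rw [Preadditive.zsmul_comp, Preadditive.zsmul_comp]
    congr 1
    exact (IsMonHom.one_hom (inlM R R)).trans (IsMonHom.one_hom (inrM R R)).symm
  M := ModStr.free R M
  i := (ρ_ R).inv ≫ R ◁ iM
  i_lin := IsLinear.comp (rho_inv_lin R) (whisker_linear _)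
  δ := R ◁ (δM ≫ (λ_ ((𝟙_ T)⟦(1 : ℤ)⟧)).inv)
  δ_lin := whisker_linear _
  exact := by
    refine homExact_of_dist (base_dist R hM) (Iso.refl _)
      ((α_ R (𝟙_ T) ((𝟙_ T)⟦(1 : ℤ)⟧)).symm ≪≫ TensorTriangulated.e (R ⊗ 𝟙_ T))
      (TensorTriangulated.e R) (Category.id_comp _) ?_ ?_
    · change R ◁ (δM ≫ (λ_ ((𝟙_ T)⟦(1 : ℤ)⟧)).inv) ≫ (α_ R (𝟙_ T) ((𝟙_ T)⟦(1 : ℤ)⟧)).inv ≫
        (TensorTriangulated.e (R ⊗ 𝟙_ T)).hom = _
      unfold tensδ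
      rw [e_unit_inv, MonoidalCategory.whiskerLeft_comp, Category.assoc]
    · change ((α_ R (𝟙_ T) ((𝟙_ T)⟦(1 : ℤ)⟧)).inv ≫ (TensorTriangulated.e (R ⊗ 𝟙_ T)).hom) ≫
        _ = _
      rw [Category.assoc, ← TensorTriangulated.e_naturality]
      simp
  ψ := R ◁ FM.unit R M
  ψ_lin := whisker_linear _
  ψ_act := FM.bind_unit M
  i_ψ := by
    rw [Category.assoc, ← MonoidalCategory.whiskerLeft_comp, FM.unit_naturality]
    congr 2
    rw [← Category.assoc]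
    congr 1
    unfold FM.unit
    rw [unitors_inv_equal, rightUnitor_inv_naturality]
  ψ_δ := by
    rw [← MonoidalCategory.whiskerLeft_comp, ← MonoidalCategory.whiskerLeft_comp,
      FM.unit_naturality]

theorem baseQIn_i {p : ℤ} (hM : Triangle.mk (p • 𝟙 (𝟙_ T)) iM δM ∈ distTriang T) :
    (baseQIn R hM).i = (ρ_ R).inv ≫ R ◁ iM := rfl

theorem baseQIn_v {p : ℤ} (hM : Triangle.mk (p • 𝟙 (𝟙_ T)) iM δM ∈ distTriang T) :
    (baseQIn R hM).v = p • η[R] := rfl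

/-- `p² = 0` on `S / p` -/
theorem sq_zero {p : ℤ} (hM : Triangle.mk (p • 𝟙 (𝟙_ T)) iM δM ∈ distTriang T) :
    (p * p) • 𝟙 M = 0 := by
  have h1 : (p • 𝟙 (𝟙_ T)) ≫ iM = 0 := comp_distTriang_mor_zero₁₂ _ hM
  rw [Preadditive.zsmul_comp, Category.id_comp] at h1
  have h2 : iM ≫ (p • 𝟙 M) = 0 := by rw [Preadditive.comp_zsmul, Category.comp_id, h1]
  obtain ⟨b, hb⟩ := yex3 hM (p • 𝟙 M) h2
  have h3 : δM ≫ (p • 𝟙 (𝟙_ T))⟦(1 : ℤ)⟧' = 0 := comp_distTriang_mor_zero₃₁ _ hM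
  have h4 : p • δM = 0 := by
    rw [Functor.map_zsmul, CategoryTheory.Functor.map_id, Preadditive.comp_zsmul,
      Category.comp_id] at h3
    exact h3
  rw [mul_smul, hb, ← Preadditive.zsmul_comp, h4, zero_comp]

theorem half_of_odd {A : T} {m : ℤ} (hm : Odd m) (h : m • 𝟙 A = 0) :
    ∃ t : A ⟶ A, t + t = 𝟙 A := by
  obtain ⟨k, hk⟩ := hm
  refine ⟨(k + 1) • 𝟙 A, ?_⟩
  rw [← add_smul]
  have h1 : k + 1 + (k + 1) = m + 1 := by omega
  rw [h1, add_smul, h, zero_add, one_smul]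

theorem half_base {p : ℤ} (hp : Odd p)
    (hM : Triangle.mk (p • 𝟙 (𝟙_ T)) iM δM ∈ distTriang T) :
    ∃ t : R ⊗ M ⟶ R ⊗ M, t + t = 𝟙 (R ⊗ M) := by
  refine half_of_odd (hp.mul hp) ?_
  have h1 : R ◁ ((p * p) • 𝟙 M) = 0 := by
    rw [sq_zero hM, MonoidalPreadditive.whiskerLeft_zero]
  rw [whiskerLeft_zsmul', MonoidalCategory.whiskerLeft_id] at h1
  exact h1

end base

section van

variable {T : Type u} [Category.{v} T] [Preadditive T] [HasZeroObject T]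
    [HasShift T ℤ] [∀ n : ℤ, (shiftFunctor T n).Additive] [Pretriangulated T] [IsTriangulated T]
    [MonoidalCategory T] [SymmetricCategory T] [TensorTriangulated T] [MonoidalClosed T]
    [HasCoproducts.{0} T] [HasProducts.{0} T] [StableCat T]

/-- The vanishing hypotheses of the quotient lemma for `R / p`. -/
theorem baseQIn_van (R : T) [MonObj R] [IsCommMonObj R] {M : T} {iM : 𝟙_ T ⟶ M}
    {δM : M ⟶ (𝟙_ T)⟦(1 : ℤ)⟧} {p : ℤ} (hp : Odd p)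
    (hM : Triangle.mk (p • 𝟙 (𝟙_ T)) iM δM ∈ distTriang T) (h : Odd0 (R ⊗ M)) :
    (baseQIn R hM).Van :=
  QIn.van_of_odd (d := 0) (baseQIn R hM) h (half_base R hp hM)

end van

end Vale.Agent.P251.X
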