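import Vale.Agent.P251.X.PiCof

/-!
# P251, part X (X3b): the homotopy of `P' = MU/I_{j+1}`

`Q : PD D p j`, `E` the commutative monoid `P ⊗ (MU/v_j)` (in the form: a morphism of monoids
`i : P ⊗ MU ⟶ E`, onto on even homotopy, with kernel the multiples of `v_j`), `P'` a retract of `E`
(`s : P' ⟶ E`, `r : E ⟶ P'`, `s ≫ r = 𝟙`, monoid maps) on which the two `MU`-structures agree:
`HRing P' = Laz / I_{j+1}` and the odd homotopy vanishes.
-/

open CategoryTheory MonoidalCategory Limits Pretriangulated MonObj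

set_option linter.unusedSectionVars false

universe v u

namespace Vale.Agent.P251.X

open Vale.Agent.P251.T Vale.Agent.P251.M Vale.Agent.P251.M.EvenSpheres Vale.Agent.P251.S
  Vale.Agent.P251.F Vale.Agent.P251.I Vale.Agent.P251.Z Vale.Agent.P251.H

section ring

variable {T : Type u} [Category.{v} T] [Preadditive T] [MonoidalCategory T] [SymmetricCategory T]
  [MonoidalPreadditive T] {E : EvenSpheres T} {B B' : T} [MonObj B] [MonObj B'] (f : B ⟶ B')
  [IsMonHom f]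

theorem map_apply (x : HRing E B) (n : ℤ) :
    (HRing.map (E := E) f x : HRing E B') n = x n ≫ f := by
  induction x using DirectSum.induction_on with
  | zero =>
    rw [map_zero, DirectSum.zero_apply, DirectSum.zero_apply, zero_comp]
  | of m a =>
    rw [HRing.map_of]
    rcases eq_or_ne m n with rfl | h
    · rw [DirectSum.of_eq_same, DirectSum.of_eq_same]
    · rw [DirectSum.of_eq_of_ne _ _ _ h.symm, DirectSum.of_eq_of_ne _ _ _ h.symm, zero_comp]
  | add x y hx hy =>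
    rw [map_add, DirectSum.add_apply, DirectSum.add_apply, hx, hy, Preadditive.add_comp]

theorem map_surjective_of (h : ∀ (n : ℤ) (y : E.S n ⟶ B'), ∃ x : E.S n ⟶ B, x ≫ f = y) :
    Function.Surjective (HRing.map (E := E) f) := by
  intro y
  induction y using DirectSum.induction_on with
  | zero => exact ⟨0, map_zero _⟩
  | of m a =>
    obtain ⟨x, hx⟩ := h m a
    exact ⟨HRing.of E B m x, by rw [HRing.map_of, hx]⟩
  | add x y hx hy =>
    obtain ⟨a, ha⟩ := hx
    obtain ⟨b, hb⟩ := hy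
    exact ⟨a + b, by rw [map_add, ha, hb]⟩

theorem exists_mul_of_map_eq_zero (a : HRing E B)
    (h : ∀ (n : ℤ) (x : E.S n ⟶ B), x ≫ f = 0 → ∃ y : HRing E B, HRing.of E B n x = a * y)
    {x : HRing E B} (hx : HRing.map (E := E) f x = 0) : ∃ y, x = a * y := by
  classical
  have h1 : ∀ n, ∃ y : HRing E B, HRing.of E B n (x n) = a * y := fun n => by
    apply h
    rw [← map_apply, hx, DirectSum.zero_apply]
  choose y hy using h1
  refine ⟨∑ n ∈ DFinsupp.support x, y n, ?_⟩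
  rw [Finset.mul_sum, ← Finset.sum_congr rfl fun n _ => hy n]
  exact (DirectSum.sum_support_of x).symm

end ring

variable {T : Type u} [Category.{v} T] [Preadditive T] [HasZeroObject T]
    [HasShift T ℤ] [∀ n : ℤ, (shiftFunctor T n).Additive] [Pretriangulated T] [IsTriangulated T]
    [MonoidalCategory T] [SymmetricCategory T] [TensorTriangulated T] [MonoidalClosed T]
    [HasCoproducts.{0} T] [HasProducts.{0} T] [StableCat T] {D : MUData T}

theorem lift_lawOf_comp {N N' : T} [MonObj N] [IsCommMonObj N] [MonObj N'] [IsCommMonObj N']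
    (g : D.R ⟶ N) [IsMonHom g] (f : N ⟶ N') [IsMonHom f] (z : Laz) :
    Laz.lift (lawOf (g ≫ f)) z = HRing.map (E := stdEven T) f (Laz.lift (lawOf g) z) := by
  rw [lawOf_comp, ← Laz.comp_lift]
  rfl

/-- The input: `P ⊗ MU ⟶ E ⟶ P'`. -/
structure CutData {p j : ℕ} (Q : PD D p j) (E P' : T) [MonObj E] [IsCommMonObj E] [MonObj P']
    [IsCommMonObj P'] where
  /-- the projection `P ⊗ MU ⟶ P ⊗ (MU/v_j)` -/
  i : Q.P ⊗ D.R ⟶ E
  [hi : IsMonHom i]
  surj (n : ℤ) (f : (stdEven T).S n ⟶ E) : ∃ x : (stdEven T).S n ⟶ Q.P ⊗ D.R, x ≫ i = f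
  ker (n m : ℤ) (h : m + ((p ^ j : ℤ) - 1) = n) (x : (stdEven T).S n ⟶ Q.P ⊗ D.R)
    (hx : x ≫ i = 0) : ∃ y : (stdEven T).S m ⟶ Q.P ⊗ D.R,
      x = gmul h y (D.vel p j ≫ inrM Q.P D.R)
  van : (D.vel p j ≫ inrM Q.P D.R) ≫ i = 0
  odd : Odd0 E
  /-- the inclusion -/
  s : P' ⟶ E
  [hs : IsMonHom s]
  /-- the retraction -/
  r : E ⟶ P'
  [hr : IsMonHom r]
  s_r : s ≫ r = 𝟙 P'
  /-- the structure map -/
  u : D.R ⟶ P'
  [hu : IsMonHom u]
  inl : Q.u ≫ inlM Q.P D.R ≫ i ≫ r = u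
  inr : inrM Q.P D.R ≫ i ≫ r = u
  u_s : u ≫ s = inrM Q.P D.R ≫ i

attribute [instance] CutData.hi CutData.hs CutData.hr CutData.hu

namespace CutData

variable {p j : ℕ} {Q : PD D p j} {E P' : T} [MonObj E] [IsCommMonObj E] [MonObj P']
    [IsCommMonObj P'] (c : CutData Q E P')

include c in
theorem odd' : Odd0 P' := by
  intro l f
  have h1 : f ≫ c.s = 0 := c.odd l _
  rw [← Category.comp_id f, ← c.s_r, ← Category.assoc, h1, zero_comp]

theorem map_i_surjective : Function.Surjective (HRing.map (E := stdEven T) c.i) :=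
  map_surjective_of _ c.surj

theorem map_r_surjective : Function.Surjective (HRing.map (E := stdEven T) c.r) :=
  map_surjective_of _ fun n y => ⟨y ≫ c.s, by rw [Category.assoc, c.s_r, Category.comp_id]⟩

/-- the morphism `P ⟶ P'` -/
noncomputable def τ : Q.P ⟶ P' := inlM Q.P D.R ≫ c.i ≫ c.r

instance : IsMonHom c.τ := inferInstanceAs (IsMonHom (inlM Q.P D.R ≫ c.i ≫ c.r))

theorem u_τ : Q.u ≫ c.τ = c.u := c.inl

theorem map_τ_mem (a : HRing (stdEven T) Q.P) :
    HRing.map (E := stdEven T) c.τ a ∈ (Laz.lift (lawOf c.u)).range := by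
  obtain ⟨z, rfl⟩ := Q.surj a
  refine ⟨z, ?_⟩
  rw [← lift_lawOf_comp]
  congr 2
  exact lawOf_congr c.u_τ.symm

theorem map_u_mem (a : HRing (stdEven T) D.R) :
    HRing.map (E := stdEven T) c.u a ∈ (Laz.lift (lawOf c.u)).range := by
  rw [← HRing_map_congr c.u_τ, HRing.map_comp]
  exact c.map_τ_mem _

theorem toKR_i_r : D.toKR Q.u ≫ c.i ≫ c.r = Am.map D.R (fun _ : Fin 2 => (0 : Fin 1)) ≫
    amOne D.R ≫ c.u := by
  have h1 : ∀ i : Fin 2, Am.v D.R i ≫ D.toKR Q.u ≫ c.i ≫ c.r = c.u := by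
    intro i
    fin_cases i
    · change Am.v D.R (0 : Fin 2) ≫ _ = _
      rw [← Category.assoc, D.v_zero_toKR, Category.assoc]
      exact c.inl
    · change Am.v D.R (1 : Fin 2) ≫ _ = _
      rw [← Category.assoc, D.v_one_toKR]
      exact c.inr
  apply Am.hom_ext
  intro i
  rw [h1 i, Am.v_map_assoc, ← Category.assoc, v_amOne, Category.id_comp]

theorem map_bK_mem (i : ℕ) : HRing.map (E := stdEven T) (c.i ≫ c.r) (bK D Q.u i) ∈
    (Laz.lift (lawOf c.u)).range := by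
  have h1 : HRing.map (E := stdEven T) (c.i ≫ c.r) (bK D Q.u i) =
      HRing.map (E := stdEven T) (D.toKR Q.u ≫ c.i ≫ c.r) (D.ev 1 (MvPolynomial.X (0, i))) := by
    rw [HRing.map_comp (D.toKR Q.u)]
    rfl
  rw [h1, HRing_map_congr c.toKR_i_r, HRing.map_comp, RingHom.comp_apply, D.ev_map,
    HRing.map_comp, RingHom.comp_apply]
  exact c.map_u_mem _

theorem map_i_r_mem {F : SpaceFunctor T} {e : F.S.obj CCF ≅ (stdEven T).L} (H : MUUniv e D)
    (x : HRing (stdEven T) (Q.P ⊗ D.R)) :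
    HRing.map (E := stdEven T) (c.i ≫ c.r) x ∈ (Laz.lift (lawOf c.u)).range := by
  obtain ⟨f, rfl⟩ := (epsK_bijective (D := D) Q.u H).2 x
  induction f using MvPolynomial.induction_on with
  | C a =>
    rw [epsH_C, ← RingHom.comp_apply, ← HRing.map_comp]
    exact c.map_τ_mem a
  | add f g hf hg =>
    rw [map_add, map_add]
    exact Subring.add_mem _ hf hg
  | mul_X f i hf =>
    rw [map_mul, map_mul, epsH_X]
    exact Subring.mul_mem _ hf (c.map_bK_mem i)

/-- `Laz ⟶ π_{2*} P'` is onto. -/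
theorem surj' {F : SpaceFunctor T} {e : F.S.obj CCF ≅ (stdEven T).L} (H : MUUniv e D) :
    Function.Surjective (Laz.lift (lawOf c.u)) := by
  intro y
  obtain ⟨y, rfl⟩ := c.map_r_surjective y
  obtain ⟨x, rfl⟩ := c.map_i_surjective y
  have h := c.map_i_r_mem H x
  rw [HRing.map_comp] at h
  exact h

variable [Fact p.Prime]

/-- the retraction `P ⊗ MU ⟶ P` -/
theorem vv_self : vv p j (lawOf c.u) = 0 := by
  rw [vv_lawOf_eq_zero_iff]
  have h1 : D.vel p j ≫ c.u = ((D.vel p j ≫ inrM Q.P D.R) ≫ c.i) ≫ c.r := by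
    rw [← c.inr]
    simp only [Category.assoc]
  rw [h1, c.van, zero_comp]

theorem vv_lt {i : ℕ} (hi : i < j + 1) : vv p i (lawOf c.u) = 0 := by
  rcases Nat.lt_succ_iff_lt_or_eq.1 hi with h | rfl
  · rw [← lawOf_congr c.u_τ, lawOf_comp, vv_map, Q.vv_zero_of_lt h, map_zero]
  · exact c.vv_self

theorem lift_eq_zero_of_mem {z : Laz} (hz : z ∈ Laz.I p (j + 1)) :
    Laz.lift (lawOf c.u) z = 0 := by
  have h1 : Laz.I p (j + 1) ≤ RingHom.ker (Laz.lift (lawOf c.u)) := by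
    rw [Laz.I, Ih, Ideal.span_le]
    rintro _ ⟨i, hi, rfl⟩
    change Laz.lift (lawOf c.u) (Laz.v p i) = 0
    rw [Laz.lift_v]
    exact c.vv_lt hi
  exact h1 hz

theorem mem_of_lift_eq_zero {z : Laz} (hz : Laz.lift (lawOf c.u) z = 0) :
    z ∈ Laz.I p (j + 1) := by
  -- the image of `z` in `π_*(P ⊗ MU)` is a multiple of `v_j`
  have h1 : HRing.map (E := stdEven T) c.i (Laz.lift (lawOf (inrM Q.P D.R)) z) = 0 := by
    rw [← lift_lawOf_comp]
    have h2 := congrArg (HRing.map (E := stdEven T) c.s) hz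
    rw [map_zero, ← lift_lawOf_comp] at h2
    rw [← h2]
    congr 2
    exact lawOf_congr c.u_s.symm
  obtain ⟨y, hy⟩ := exists_mul_of_map_eq_zero c.i (vv p j (lawOf (inrM Q.P D.R)))
    (fun n x hx => by
      have h' : (n - ((p ^ j : ℤ) - 1)) + ((p ^ j : ℤ) - 1) = n := sub_add_cancel _ _
      obtain ⟨y, rfl⟩ := c.ker n _ h' x hx
      refine ⟨HRing.of (stdEven T) _ _ y, ?_⟩
      rw [vv_lawOf, mul_comm, of_mul_of h']) h1
  -- apply the retraction `P ⊗ MU ⟶ P`
  have h3 := congrArg (HRing.map (E := stdEven T) (descM (𝟙 Q.P) Q.u)) hy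
  rw [← lift_lawOf_comp, map_mul, ← vv_map, ← lawOf_comp] at h3
  have h4 : lawOf (inrM Q.P D.R ≫ descM (𝟙 Q.P) Q.u) = lawOf Q.u :=
    lawOf_congr (inrM_descM _ _)
  rw [h4] at h3
  obtain ⟨w, hw⟩ := Q.surj (HRing.map (E := stdEven T) (descM (𝟙 Q.P) Q.u) y)
  rw [← hw, ← Laz.lift_v, ← map_mul, ← sub_eq_zero, ← map_sub, Q.ker] at h3
  have h5 : Laz.I p j ≤ Laz.I p (j + 1) := by
    rw [Laz.I, Ih, Ideal.span_le]
    rintro _ ⟨i, hi, rfl⟩
    exact vv_mem_Ih (Nat.lt_succ_of_lt hi) _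
  have h6 : Laz.v p j * w ∈ Laz.I p (j + 1) :=
    Ideal.mul_mem_right _ _ (vv_mem_Ih (Nat.lt_succ_self j) _)
  have h7 := (Laz.I p (j + 1)).add_mem (h5 h3) h6
  rwa [sub_add_cancel] at h7

/-- the kernel of `Laz ⟶ π_{2*} P'` -/
theorem ker' (z : Laz) : Laz.lift (lawOf c.u) z = 0 ↔ z ∈ Laz.I p (j + 1) :=
  ⟨c.mem_of_lift_eq_zero, c.lift_eq_zero_of_mem⟩

end CutData

end Vale.Agent.P251.X
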