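import Mathlib.CategoryTheory.Monoidal.CommMon_

/-!
# P251, part X: retracts of commutative monoids

`E` a commutative monoid, `s : Y ⟶ E`, `r : E ⟶ Y`, `s ≫ r = 𝟙`, `r ≫ s` a morphism of monoids:
`Y` is a commutative monoid, `s` and `r` are morphisms of monoids.
-/

open CategoryTheory MonoidalCategory MonObj

universe v u

namespace Vale.Agent.P251.X

variable {T : Type u} [Category.{v} T] [MonoidalCategory T] {E Y : T} [MonObj E]
  (s : Y ⟶ E) (r : E ⟶ Y)

/-- The data of a retract of a monoid. -/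
structure IsRetMon : Prop where
  s_r : s ≫ r = 𝟙 Y
  hom : IsMonHom (r ≫ s)

namespace IsRetMon

variable {s r} (h : IsRetMon s r)

include h

theorem cancel {A : T} {f g : A ⟶ Y} (e : f ≫ s = g ≫ s) : f = g := by
  rw [← Category.comp_id f, ← Category.comp_id g, ← h.s_r, ← Category.assoc, e, Category.assoc]

theorem one_rs : (η[E] ≫ r) ≫ s = η[E] := by
  rw [Category.assoc]
  exact h.hom.one_hom

theorem s_rs : s ≫ r ≫ s = s := by rw [← Category.assoc, h.s_r, Category.id_comp]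

theorem mul_rs : ((s ⊗ₘ s) ≫ μ[E] ≫ r) ≫ s = (s ⊗ₘ s) ≫ μ[E] := by
  have h1 : μ[E] ≫ r ≫ s = ((r ≫ s) ⊗ₘ (r ≫ s)) ≫ μ[E] := h.hom.mul_hom
  rw [Category.assoc, Category.assoc, h1, ← Category.assoc, tensorHom_comp_tensorHom, h.s_rs]

theorem comp_mul_rs {A : T} (x : A ⟶ Y ⊗ Y) :
    (x ≫ (s ⊗ₘ s) ≫ μ[E] ≫ r) ≫ s = x ≫ (s ⊗ₘ s) ≫ μ[E] := by
  rw [Category.assoc, h.mul_rs]

/-- The monoid structure on the retract. -/
@[reducible] def monObj : MonObj Y where
  one := η[E] ≫ r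
  mul := (s ⊗ₘ s) ≫ μ[E] ≫ r
  one_mul := by
    apply h.cancel
    rw [Category.assoc, h.mul_rs, ← tensorHom_id, ← Category.assoc, tensorHom_comp_tensorHom,
      h.one_rs, Category.id_comp, tensorHom_def', Category.assoc, MonObj.one_mul,
      leftUnitor_naturality]
  mul_one := by
    apply h.cancel
    rw [Category.assoc, h.mul_rs, ← id_tensorHom, ← Category.assoc, tensorHom_comp_tensorHom,
      h.one_rs, Category.id_comp, tensorHom_def, Category.assoc, MonObj.mul_one,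
      rightUnitor_naturality]
  mul_assoc := by
    apply h.cancel
    rw [h.comp_mul_rs, Category.assoc, Category.assoc, h.mul_rs, ← tensorHom_id, ← id_tensorHom,
      ← Category.assoc (_ ⊗ₘ 𝟙 Y), tensorHom_comp_tensorHom, ← Category.assoc (𝟙 Y ⊗ₘ _),
      tensorHom_comp_tensorHom, h.mul_rs, Category.id_comp]
    have e1 : ((s ⊗ₘ s) ≫ μ[E] ⊗ₘ s) = ((s ⊗ₘ s) ⊗ₘ s) ≫ μ[E] ▷ E := by
      rw [← tensorHom_id, tensorHom_comp_tensorHom, Category.comp_id]
    have e2 : (s ⊗ₘ (s ⊗ₘ s) ≫ μ[E]) = (s ⊗ₘ (s ⊗ₘ s)) ≫ E ◁ μ[E] := by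
      rw [← id_tensorHom, tensorHom_comp_tensorHom, Category.comp_id]
    rw [e1, e2, Category.assoc, Category.assoc, MonObj.mul_assoc, associator_naturality_assoc]

theorem isMonHom_s : @IsMonHom T _ _ Y E h.monObj _ s := by
  let _ := h.monObj
  exact ⟨h.one_rs, h.mul_rs⟩

theorem isMonHom_r : @IsMonHom T _ _ E Y _ h.monObj r := by
  let _ := h.monObj
  refine ⟨rfl, ?_⟩
  apply h.cancel
  change (μ[E] ≫ r) ≫ s = ((r ⊗ₘ r) ≫ ((s ⊗ₘ s) ≫ μ[E] ≫ r)) ≫ s
  rw [Category.assoc, Category.assoc, h.mul_rs, ← Category.assoc (r ⊗ₘ r),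
    tensorHom_comp_tensorHom]
  exact h.hom.mul_hom

theorem isMonHom_iff {N : T} [MonObj N] (f : N ⟶ Y) :
    @IsMonHom T _ _ N Y _ h.monObj f ↔ IsMonHom (f ≫ s) := by
  let _ := h.monObj
  have := h.isMonHom_s
  constructor
  · intro hf
    infer_instance
  · intro hf
    refine ⟨?_, ?_⟩
    · apply h.cancel
      rw [Category.assoc]
      exact hf.one_hom.trans h.one_rs.symm
    · apply h.cancel
      rw [Category.assoc, Category.assoc]
      refine hf.mul_hom.trans ?_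
      change _ = (f ⊗ₘ f) ≫ ((s ⊗ₘ s) ≫ μ[E] ≫ r) ≫ s
      rw [h.mul_rs, ← Category.assoc (f ⊗ₘ f), tensorHom_comp_tensorHom]

omit h in
theorem isCommMonObj [BraidedCategory T] [IsCommMonObj E] (h : IsRetMon s r) :
    @IsCommMonObj T _ _ _ Y h.monObj := by
  let _ := h.monObj
  constructor
  apply h.cancel
  change ((β_ Y Y).hom ≫ (s ⊗ₘ s) ≫ μ[E] ≫ r) ≫ s = ((s ⊗ₘ s) ≫ μ[E] ≫ r) ≫ s
  rw [Category.assoc, h.mul_rs, ← BraidedCategory.braiding_naturality_assoc,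
    IsCommMonObj.mul_comm]

end IsRetMon

end Vale.Agent.P251.X
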