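import Vale.Agent.P251.X.Split
import Vale.Agent.P251.X.RetMon
import Vale.Agent.P251.X.PiP
import Vale.Agent.P251.X.PiBase

/-!
# P251, part X (X3a): from `MU/I_j` to `MU/I_{j+1}`

`Q : PD D p j`, `1 ≤ j`, `E = P ⊗ (MU/v_j)` a commutative monoid with its mapping property
(`CutIn`). The idempotent `e : E ⟶ E` with `i ≫ e = (f, r)`, `r : MU ⟶ E` the second structure
map, `f : P ⟶ E` its extension, splits, and its image is `MU/I_{j+1}`.
-/

open CategoryTheory MonoidalCategory Limits Pretriangulated MonObj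

set_option linter.unusedSectionVars false

universe v u

namespace Vale.Agent.P251.X

open Vale.Agent.P251.T Vale.Agent.P251.M Vale.Agent.P251.M.EvenSpheres Vale.Agent.P251.S
  Vale.Agent.P251.F Vale.Agent.P251.I Vale.Agent.P251.Z Vale.Agent.P251.H

variable {T : Type u} [Category.{v} T] [Preadditive T] [HasZeroObject T]
    [HasShift T ℤ] [∀ n : ℤ, (shiftFunctor T n).Additive] [Pretriangulated T] [IsTriangulated T]
    [MonoidalCategory T] [SymmetricCategory T] [TensorTriangulated T] [MonoidalClosed T]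
    [HasCoproducts.{0} T] [HasProducts.{0} T] [StableCat T] {D : MUData T}

/-- The input: the commutative monoid `E = P ⊗ (MU/v_j)`. -/
structure CutIn {p j : ℕ} (Q : PD D p j) (E : T) [MonObj E] [IsCommMonObj E] where
  /-- the projection `P ⊗ MU ⟶ P ⊗ (MU/v_j)` -/
  i : Q.P ⊗ D.R ⟶ E
  [hi : IsMonHom i]
  surj (n : ℤ) (f : (stdEven T).S n ⟶ E) : ∃ x : (stdEven T).S n ⟶ Q.P ⊗ D.R, x ≫ i = f
  ker (n m : ℤ) (h : m + ((p ^ j : ℤ) - 1) = n) (x : (stdEven T).S n ⟶ Q.P ⊗ D.R)
    (hx : x ≫ i = 0) : ∃ y : (stdEven T).S m ⟶ Q.P ⊗ D.R,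
      x = gmul h y (D.vel p j ≫ inrM Q.P D.R)
  van : (D.vel p j ≫ inrM Q.P D.R) ≫ i = 0
  odd : Odd0 E
  desc (N : T) [MonObj N] [IsCommMonObj N] (g : Q.P ⊗ D.R ⟶ N) [IsMonHom g] (hN : Odd0 N)
    (hv : (D.vel p j ≫ inrM Q.P D.R) ≫ g = 0)
    (h2 : ∀ (X : T) (f : X ⟶ N), f + f = 0 → f = 0) : ∃ f : E ⟶ N, IsMonHom f ∧ i ≫ f = g
  uniq (N : T) [MonObj N] (f f' : E ⟶ N) (hf : IsMonHom f) (hf' : IsMonHom f')
    (hN : Odd0 N) (h : i ≫ f = i ≫ f') : f = f'

attribute [instance] CutIn.hi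

namespace CutIn

variable {p j : ℕ} [Fact p.Prime] {Q : PD D p j} {E : T} [MonObj E] [IsCommMonObj E]
  (c : CutIn Q E)

/-- the second structure map -/
noncomputable def r : D.R ⟶ E := inrM Q.P D.R ≫ c.i

instance : IsMonHom c.r := inferInstanceAs (IsMonHom (inrM Q.P D.R ≫ c.i))

theorem vv_r {i : ℕ} (hi : i < j) : vv p i (lawOf c.r) = 0 := by
  have h : lawOf c.r = (lawOf (inrM Q.P D.R)).map (HRing.map c.i) := lawOf_comp _ _
  rw [h, vv_map, Q.vv_inr hi, map_zero]

theorem exists_f : ∃ f : Q.P ⟶ E, IsMonHom f ∧ Q.u ≫ f = c.r :=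
  Q.desc E c.r c.odd fun _ hi => c.vv_r hi

theorem exists_e (hp : p ≠ 2) (hj : j ≠ 0) (f : Q.P ⟶ E) [IsMonHom f] :
    ∃ e : E ⟶ E, IsMonHom e ∧ c.i ≫ e = descM f c.r := by
  refine c.desc E (descM f c.r) c.odd ?_ fun X a ha =>
    eq_zero_of_two' hp c.r (c.vv_r (Nat.pos_of_ne_zero hj)) a ha
  rw [Category.assoc, inrM_descM]
  have h := c.van
  rw [Category.assoc] at h
  exact h

theorem e_e {f : Q.P ⟶ E} [IsMonHom f] (hf : Q.u ≫ f = c.r) {e : E ⟶ E} (he : IsMonHom e)
    (h : c.i ≫ e = descM f c.r) : e ≫ e = e := by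
  have hr : c.r ≫ e = c.r := by
    rw [r, Category.assoc, h, inrM_descM, r]
  have hfe : f ≫ e = f := by
    apply Q.uniq E (f ≫ e) f inferInstance inferInstance c.odd
    rw [reassoc_of% hf, hr, hf]
  apply c.uniq E (e ≫ e) e inferInstance he c.odd
  rw [reassoc_of% h, h]
  apply hom_ext_tensor
  · rw [← Category.assoc, inlM_descM, hfe]
  · rw [← Category.assoc, inrM_descM, hr]

include c in
/-- **From `MU/I_j` to `MU/I_{j+1}`.** -/
theorem exists_next {F : SpaceFunctor T} {e : F.S.obj CCF ≅ (stdEven T).L} (H : MUUniv e D)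
    (hp : p ≠ 2) (hj : j ≠ 0) : Nonempty (PD D p (j + 1)) := by
  obtain ⟨f, hfm, hf⟩ := c.exists_f
  obtain ⟨e, hem, he⟩ := c.exists_e hp hj f
  have hee := c.e_e hf hem he
  have hr : c.r ≫ e = c.r := by
    rw [r, Category.assoc, he, inrM_descM, r]
  obtain ⟨P', s, t, hst, hts⟩ := exists_split e hee
  have hR : IsRetMon s t := ⟨hst, by rw [hts]; exact hem⟩
  let _ : MonObj P' := hR.monObj
  have _ : IsCommMonObj P' := hR.isCommMonObj
  have _ : IsMonHom s := hR.isMonHom_s
  have _ : IsMonHom t := hR.isMonHom_r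
  have het : e ≫ t = t := by
    rw [← hts, Category.assoc, hst, Category.comp_id]
  have hit : c.i ≫ t = descM f c.r ≫ t := by
    rw [← he, Category.assoc, het]
  let d : CutData Q E P' :=
    { i := c.i
      surj := c.surj
      ker := c.ker
      van := c.van
      odd := c.odd
      s := s
      r := t
      s_r := hst
      u := c.r ≫ t
      inl := by rw [hit, ← Category.assoc (inlM _ _), inlM_descM, ← Category.assoc, hf]
      inr := by rw [r, Category.assoc]
      u_s := by rw [Category.assoc, hts, hr, r] }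
  refine ⟨{ P := P'
            u := c.r ≫ t
            odd := d.odd'
            surj := d.surj' H
            ker := d.ker'
            desc := ?_
            uniq := ?_ }⟩
  · intro N _ _ g _ hN hg
    obtain ⟨g₀, hg₀, hg₀'⟩ := Q.desc N g hN fun i hi => hg i (Nat.lt_succ_of_lt hi)
    obtain ⟨h, hh, hh'⟩ := c.desc N (descM g₀ g) hN (by
      rw [Category.assoc, inrM_descM]
      exact (vv_lawOf_eq_zero_iff g p j).1 (hg j (Nat.lt_succ_self j))) fun X a ha =>
        eq_zero_of_two' hp g (hg 0 (Nat.succ_pos j)) a ha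
    refine ⟨s ≫ h, inferInstance, ?_⟩
    rw [Category.assoc, reassoc_of% hts, reassoc_of% hr, r, Category.assoc, hh', inrM_descM]
  · intro N _ a a' ha ha' hN h
    have h1 : t ≫ a = t ≫ a' := by
      apply c.uniq N _ _ inferInstance inferInstance hN
      have hu : ∀ b : P' ⟶ N, Q.u ≫ inlM Q.P D.R ≫ c.i ≫ t ≫ b = (c.r ≫ t) ≫ b := by
        intro b
        have h3 : Q.u ≫ inlM Q.P D.R ≫ c.i ≫ t = c.r ≫ t := d.inl
        rw [← h3]
        simp only [Category.assoc]
      apply hom_ext_tensor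
      · apply Q.uniq N _ _ inferInstance inferInstance hN
        rw [hu, hu, h]
      · have h2 : ∀ b : P' ⟶ N, inrM Q.P D.R ≫ c.i ≫ t ≫ b = (c.r ≫ t) ≫ b := by
          intro b
          rw [r]
          simp only [Category.assoc]
        rw [h2, h2, h]
    rw [← Category.id_comp a, ← Category.id_comp a', ← hst, Category.assoc, Category.assoc, h1]

end CutIn

end Vale.Agent.P251.X
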