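import Vale.Agent.P251.M.MUInv
import Vale.Agent.P251.M.Kleisli
import Vale.Agent.P251.F.LazReg

/-!
# P251, part X: existence of Morava K-theories — frozen interface

* `QIn D E Z S₁` : the input of the quotient lemma (`E = D / v`), `QIn.Van` : the vanishing
  hypotheses, `QIn.Out` : its output.
* `PD D p n` : the commutative monoid `P = MU / (p, v_1, …, v_{n-1})`, `n ≥ 1`.
* `KD D p n` : the commutative monoid `K(n)`.
-/

open CategoryTheory MonoidalCategory Limits Pretriangulated MonObj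

set_option linter.unusedSectionVars false

universe v u

namespace Vale.Agent.P251.X

open Vale.Agent.P251.T Vale.Agent.P251.M Vale.Agent.P251.M.EvenSpheres Vale.Agent.P251.S
  Vale.Agent.P251.F Vale.Agent.P251.I

/-! ### The quotient lemma -/

section quot

variable {T : Type u} [Category.{v} T] [Preadditive T] [MonoidalCategory T]
  [MonoidalPreadditive T] [SymmetricCategory T]

/-- Exactness of `Hom(- ⊗ X, Y)` on `A ⟶ B ⟶ C ⟶ A' ⟶ B'`. -/
structure HomExact {A B C A' B' : T} (f : A ⟶ B) (g : B ⟶ C) (h : C ⟶ A') (k : A' ⟶ B') :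
    Prop where
  zero : f ≫ g = 0
  ext (X Y : T) (a : B ⊗ X ⟶ Y) (ha : f ▷ X ≫ a = 0) : ∃ b : C ⊗ X ⟶ Y, a = g ▷ X ≫ b
  fac (X Y : T) (a : C ⊗ X ⟶ Y) (ha : g ▷ X ≫ a = 0) : ∃ b : A' ⊗ X ⟶ Y, a = h ▷ X ≫ b
  inj (X Y : T) (a : A' ⊗ X ⟶ Y) (ha : h ▷ X ≫ a = 0) : ∃ b : B' ⊗ X ⟶ Y, a = k ▷ X ≫ b

/-- The input of the quotient lemma: `D` a commutative monoid, `v : Z ⟶ D`, `E = D / v`, and the
coaction `ψ : E ⟶ D ⊗ E` (a linear section of the action, which extends the left unit). -/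
structure QIn (D E Z S₁ : T) [MonObj D] [IsCommMonObj D] where
  /-- the element -/
  v : Z ⟶ D
  inv : v ≫ inlM D D = v ≫ inrM D D
  /-- the module structure -/
  M : ModStr D E
  /-- the projection -/
  i : D ⟶ E
  i_lin : (ModStr.self D).IsLinear M i
  /-- the boundary -/
  δ : E ⟶ D ⊗ (Z ⊗ S₁)
  δ_lin : M.IsLinear (ModStr.free D (Z ⊗ S₁)) δ
  exact : HomExact (D ◁ v ≫ μ[D]) i δ (D ◁ (v ▷ S₁) ≫ (α_ D D S₁).inv ≫ μ[D] ▷ S₁)
  /-- the coaction -/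
  ψ : E ⟶ D ⊗ E
  ψ_lin : M.IsLinear (ModStr.free D E) ψ
  ψ_act : ψ ≫ M.act = 𝟙 E
  i_ψ : i ≫ ψ = (ρ_ D).inv ≫ D ◁ (η[D] ≫ i)
  ψ_δ : ψ ≫ D ◁ δ = δ ≫ D ◁ FM.unit D (Z ⊗ S₁)

/-- The vanishing hypotheses of the quotient lemma. -/
structure QIn.Van {D E Z S₁ : T} [MonObj D] [IsCommMonObj D] (q : QIn D E Z S₁) : Prop where
  h1 : ∀ f : Z ⊗ S₁ ⟶ E, f = 0
  h2 : ∀ f : Z ⊗ (Z ⊗ S₁) ⟶ E, f = 0
  h3 : ∀ f : (Z ⊗ S₁) ⊗ ((Z ⊗ S₁) ⊗ (Z ⊗ S₁)) ⟶ E, f = 0
  half : ∃ t : E ⟶ E, t + t = 𝟙 E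
  swap : (β_ (Z ⊗ S₁) (Z ⊗ S₁)).hom = -𝟙 _

/-- The output of the quotient lemma: `E` is a commutative monoid, `i : D ⟶ E` a morphism of
monoids, and the morphisms of monoids out of `E` are the morphisms out of `D` which kill `v`. -/
structure QIn.Out {D E Z S₁ : T} [MonObj D] [IsCommMonObj D] (q : QIn D E Z S₁) where
  /-- the monoid structure -/
  mon : MonObj E
  comm : IsCommMonObj E
  hom : IsMonHom q.i
  act : q.M.act = q.i ▷ E ≫ μ[E]
  /-- the mapping property -/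
  desc (N : T) [MonObj N] [IsCommMonObj N] (g : D ⟶ N) [IsMonHom g] (hv : q.v ≫ g = 0)
    (h1 : ∀ f : Z ⊗ S₁ ⟶ N, f = 0)
    (h2 : ∀ f : (Z ⊗ S₁) ⊗ (Z ⊗ S₁) ⟶ N, f + f = 0 → f = 0) :
    ∃ f : E ⟶ N, IsMonHom f ∧ q.i ≫ f = g
  uniq (N : T) (f f' : E ⟶ N) [MonObj N] (hf : IsMonHom f) (hf' : IsMonHom f')
    (h : q.i ≫ f = q.i ≫ f') (h1 : ∀ f : Z ⊗ S₁ ⟶ N, f = 0) : f = f'

end quot

/-! ### `MU/I_n` and `K(n)` -/

section data

variable {T : Type u} [Category.{v} T] [Preadditive T] [HasZeroObject T]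
    [HasShift T ℤ] [∀ n : ℤ, (shiftFunctor T n).Additive] [Pretriangulated T] [IsTriangulated T]
    [MonoidalCategory T] [SymmetricCategory T] [TensorTriangulated T] [MonoidalClosed T]
    [HasCoproducts.{0} T] [HasProducts.{0} T] [StableCat T] (D : MUData T)

variable {D} in
/-- the formal group law of a monoid under `MU` -/
noncomputable def lawOf {N : T} [MonObj N] [IsCommMonObj N] (g : D.R ⟶ N) [IsMonHom g] :
    Law (HRing (stdEven T) N) := D.law.map (HRing.map g)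

/-- the odd homotopy vanishes -/
def Odd0 (N : T) : Prop := ∀ (l : ℤ) (f : (𝟙_ T)⟦2 * l + 1⟧ ⟶ N), f = 0

/-- `P = MU / (v_0, …, v_{n-1})`, `v_0 = p`, as a commutative monoid under `R = MU`. -/
structure PD (p n : ℕ) where
  /-- the spectrum -/
  P : T
  [mon : MonObj P]
  [comm : IsCommMonObj P]
  /-- the structure map -/
  u : D.R ⟶ P
  [hom : IsMonHom u]
  odd : Odd0 P
  surj : Function.Surjective (Laz.lift (lawOf u))
  ker (z : Laz) : Laz.lift (lawOf u) z = 0 ↔ z ∈ Laz.I p n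
  /-- existence of morphisms out of `P` -/
  desc (N : T) [MonObj N] [IsCommMonObj N] (g : D.R ⟶ N) [IsMonHom g] (hN : Odd0 N)
    (hg : ∀ i < n, vv p i (lawOf g) = 0) : ∃ f : P ⟶ N, IsMonHom f ∧ u ≫ f = g
  /-- uniqueness of morphisms out of `P` -/
  uniq (N : T) [MonObj N] (f f' : P ⟶ N) (hf : IsMonHom f) (hf' : IsMonHom f') (hN : Odd0 N)
    (h : u ≫ f = u ≫ f') : f = f'

attribute [instance] PD.mon PD.comm PD.hom

/-- The Morava `K`-theory `K(n)`, `n ≥ 1`, as a commutative monoid under `R = MU`. -/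
structure KD (p n : ℕ) where
  /-- the spectrum -/
  K : T
  [mon : MonObj K]
  [comm : IsCommMonObj K]
  /-- the structure map -/
  φ : D.R ⟶ K
  [hom : IsMonHom φ]
  odd : Odd0 K
  sparse (m : ℤ) (hm : ¬ ((p : ℤ) ^ n - 1 ∣ m)) (f : (stdEven T).S m ⟶ K) : f = 0
  char : (p : ℤ) • η[K] = 0
  ne : η[K] ≠ 0
  gen (f : 𝟙_ T ⟶ K) : ∃ a : ℤ, f = a • η[K]
  vv_lt (i : ℕ) (hi : i < n) : vv p i (lawOf φ) = 0
  vv_unit : IsUnit (vv p n (lawOf φ))

attribute [instance] KD.mon KD.comm KD.hom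

end data

end Vale.Agent.P251.X
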