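import Mathlib.CategoryTheory.Idempotents.Karoubi
import Mathlib.CategoryTheory.Monoidal.Braided.Basic
import Mathlib.CategoryTheory.Monoidal.Preadditive
import Mathlib.CategoryTheory.Monoidal.Functor

/-!
# P251, part X: the symmetric monoidal structure on a Karoubi envelope

For a (braided, symmetric, preadditive) monoidal category `C`, the Karoubi envelope
`Idempotents.Karoubi C` is one, with `(X, p) ⊗ (Y, q) = (X ⊗ Y, p ⊗ q)`, and `toKaroubi C` is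
a strong monoidal functor with identity structure maps.
-/

open CategoryTheory MonoidalCategory Category Idempotents

universe v u

namespace Vale.Agent.P251.X

namespace Kar

section

variable {C : Type u} [Category.{v} C]

/-- `f` is represented by the morphism `g`, which commutes with the idempotents -/
structure Rep {P Q : Karoubi C} (f : P ⟶ Q) (g : P.X ⟶ Q.X) : Prop where
  f_eq : f.f = P.p ≫ g
  comm : P.p ≫ g = g ≫ Q.p

/-- a morphism which commutes with the idempotents gives a morphism of the Karoubi envelope -/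
def lft {P Q : Karoubi C} (g : P.X ⟶ Q.X) (h : P.p ≫ g = g ≫ Q.p) : P ⟶ Q :=
  ⟨P.p ≫ g, by rw [assoc, ← h, P.idem_assoc, P.idem_assoc]⟩

@[simp]
lemma lft_f {P Q : Karoubi C} (g : P.X ⟶ Q.X) (h : P.p ≫ g = g ≫ Q.p) :
    (lft g h).f = P.p ≫ g := rfl

lemma lft_rep {P Q : Karoubi C} (g : P.X ⟶ Q.X) (h : P.p ≫ g = g ≫ Q.p) : Rep (lft g h) g :=
  ⟨rfl, h⟩

namespace Rep

lemma id (P : Karoubi C) : Rep (𝟙 P) (𝟙 P.X) :=
  ⟨(comp_id _).symm, by rw [comp_id, id_comp]⟩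

lemma comp {P Q R : Karoubi C} {f : P ⟶ Q} {g : P.X ⟶ Q.X} (h : Rep f g) {f' : Q ⟶ R}
    {g' : Q.X ⟶ R.X} (h' : Rep f' g') : Rep (f ≫ f') (g ≫ g') where
  f_eq := by
    rw [Karoubi.comp_f, h.f_eq, h'.f_eq, assoc, ← reassoc_of% h.comm, P.idem_assoc]
  comm := by rw [reassoc_of% h.comm, h'.comm, assoc]

lemma ext {P Q : Karoubi C} {f f' : P ⟶ Q} {g g' : P.X ⟶ Q.X} (h : Rep f g) (h' : Rep f' g')
    (e : g = g') : f = f' := by
  apply Karoubi.hom_ext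
  rw [h.f_eq, h'.f_eq, e]

end Rep

lemma isoLft_h {P Q : Karoubi C} (e : P.X ≅ Q.X) (h : P.p ≫ e.hom = e.hom ≫ Q.p) :
    Q.p ≫ e.inv = e.inv ≫ P.p := by
  rw [Iso.comp_inv_eq, assoc, h, Iso.inv_hom_id_assoc]

/-- an isomorphism which commutes with the idempotents -/
def isoLft {P Q : Karoubi C} (e : P.X ≅ Q.X) (h : P.p ≫ e.hom = e.hom ≫ Q.p) : P ≅ Q where
  hom := lft e.hom h
  inv := lft e.inv (isoLft_h e h)
  hom_inv_id := ((lft_rep _ _).comp (lft_rep _ _)).ext (Rep.id P) e.hom_inv_id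
  inv_hom_id := ((lft_rep _ _).comp (lft_rep _ _)).ext (Rep.id Q) e.inv_hom_id

lemma isoLft_rep {P Q : Karoubi C} (e : P.X ≅ Q.X) (h : P.p ≫ e.hom = e.hom ≫ Q.p) :
    Rep (isoLft e h).hom e.hom := lft_rep e.hom h

lemma isoLft_rep' {P Q : Karoubi C} (e : P.X ≅ Q.X) (h : P.p ≫ e.hom = e.hom ≫ Q.p) :
    Rep (isoLft e h).inv e.inv := lft_rep e.inv (isoLft_h e h)

end

variable {C : Type u} [Category.{v} C] [MonoidalCategory C]

@[reassoc (attr := simp)]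
lemma idem_tensor (P Q : Karoubi C) : (P.p ⊗ₘ Q.p) ≫ (P.p ⊗ₘ Q.p) = P.p ⊗ₘ Q.p := by
  rw [tensorHom_comp_tensorHom, P.idem, Q.idem]

/-- the tensor product of two objects of the Karoubi envelope -/
@[implicit_reducible]
def tObj (P Q : Karoubi C) : Karoubi C := ⟨P.X ⊗ Q.X, P.p ⊗ₘ Q.p, idem_tensor P Q⟩

/-- the tensor product of two morphisms -/
def tHom {P P' Q Q' : Karoubi C} (f : P ⟶ P') (g : Q ⟶ Q') : tObj P Q ⟶ tObj P' Q' :=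
  ⟨f.f ⊗ₘ g.f, by
    change (P.p ⊗ₘ Q.p) ≫ (f.f ⊗ₘ g.f) ≫ (P'.p ⊗ₘ Q'.p) = f.f ⊗ₘ g.f
    rw [tensorHom_comp_tensorHom, tensorHom_comp_tensorHom, f.comm, g.comm]⟩

lemma tHom_comp {P P' P'' Q Q' Q'' : Karoubi C} (f : P ⟶ P') (g : Q ⟶ Q') (f' : P' ⟶ P'')
    (g' : Q' ⟶ Q'') : tHom f g ≫ tHom f' g' = tHom (f ≫ f') (g ≫ g') := by
  apply Karoubi.hom_ext
  exact tensorHom_comp_tensorHom _ _ _ _

lemma tHom_id (P Q : Karoubi C) : tHom (𝟙 P) (𝟙 Q) = 𝟙 (tObj P Q) := rfl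

lemma Rep.right {P Q : Karoubi C} {f : P ⟶ Q} {g : P.X ⟶ Q.X} (h : Rep f g) (R : Karoubi C) :
    Rep (tHom f (𝟙 R)) (g ▷ R.X) where
  f_eq := by
    change f.f ⊗ₘ R.p = (P.p ⊗ₘ R.p) ≫ g ▷ R.X
    rw [h.f_eq, ← tensorHom_id, tensorHom_comp_tensorHom, comp_id]
  comm := by
    change (P.p ⊗ₘ R.p) ≫ g ▷ R.X = g ▷ R.X ≫ (Q.p ⊗ₘ R.p)
    rw [← tensorHom_id, tensorHom_comp_tensorHom, tensorHom_comp_tensorHom, h.comm, comp_id,
      id_comp]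

lemma Rep.left {P Q : Karoubi C} {f : P ⟶ Q} {g : P.X ⟶ Q.X} (h : Rep f g) (R : Karoubi C) :
    Rep (tHom (𝟙 R) f) (R.X ◁ g) where
  f_eq := by
    change R.p ⊗ₘ f.f = (R.p ⊗ₘ P.p) ≫ R.X ◁ g
    rw [h.f_eq, ← id_tensorHom, tensorHom_comp_tensorHom, comp_id]
  comm := by
    change (R.p ⊗ₘ P.p) ≫ R.X ◁ g = R.X ◁ g ≫ (R.p ⊗ₘ Q.p)
    rw [← id_tensorHom, tensorHom_comp_tensorHom, tensorHom_comp_tensorHom, h.comm, comp_id,
      id_comp]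

/-- the unit of the Karoubi envelope -/
@[implicit_reducible]
def uObj (C : Type u) [Category.{v} C] [MonoidalCategory C] : Karoubi C :=
  ⟨𝟙_ C, 𝟙 _, comp_id _⟩

lemma asc_h (P Q R : Karoubi C) : (tObj (tObj P Q) R).p ≫ (α_ P.X Q.X R.X).hom =
    (α_ P.X Q.X R.X).hom ≫ (tObj P (tObj Q R)).p := associator_naturality _ _ _

lemma lun_h (P : Karoubi C) : (tObj (uObj C) P).p ≫ (λ_ P.X).hom = (λ_ P.X).hom ≫ P.p := by
  change (𝟙 (𝟙_ C) ⊗ₘ P.p) ≫ (λ_ P.X).hom = _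
  rw [id_tensorHom, leftUnitor_naturality]

lemma run_h (P : Karoubi C) : (tObj P (uObj C)).p ≫ (ρ_ P.X).hom = (ρ_ P.X).hom ≫ P.p := by
  change (P.p ⊗ₘ 𝟙 (𝟙_ C)) ≫ (ρ_ P.X).hom = _
  rw [tensorHom_id, rightUnitor_naturality]

/-- the associator of the Karoubi envelope -/
def asc (P Q R : Karoubi C) : tObj (tObj P Q) R ≅ tObj P (tObj Q R) :=
  isoLft (α_ P.X Q.X R.X) (asc_h P Q R)

/-- the left unitor of the Karoubi envelope -/
def lun (P : Karoubi C) : tObj (uObj C) P ≅ P := isoLft (λ_ P.X) (lun_h P)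

/-- the right unitor of the Karoubi envelope -/
def run (P : Karoubi C) : tObj P (uObj C) ≅ P := isoLft (ρ_ P.X) (run_h P)

lemma asc_rep (P Q R : Karoubi C) : Rep (asc P Q R).hom (α_ P.X Q.X R.X).hom := isoLft_rep _ _
lemma asc_rep' (P Q R : Karoubi C) : Rep (asc P Q R).inv (α_ P.X Q.X R.X).inv := isoLft_rep' _ _
lemma lun_rep (P : Karoubi C) : Rep (lun P).hom (λ_ P.X).hom := isoLft_rep _ _
lemma run_rep (P : Karoubi C) : Rep (run P).hom (ρ_ P.X).hom := isoLft_rep _ _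

lemma asc_pentagon (W X Y Z : Karoubi C) :
    tHom (asc W X Y).hom (𝟙 Z) ≫ (asc W (tObj X Y) Z).hom ≫ tHom (𝟙 W) (asc X Y Z).hom =
      (asc (tObj W X) Y Z).hom ≫ (asc W X (tObj Y Z)).hom :=
  (((asc_rep W X Y).right Z).comp ((asc_rep W (tObj X Y) Z).comp ((asc_rep X Y Z).left W))).ext
    ((asc_rep (tObj W X) Y Z).comp (asc_rep W X (tObj Y Z))) (pentagon W.X X.X Y.X Z.X)

lemma asc_triangle (X Y : Karoubi C) :
    (asc X (uObj C) Y).hom ≫ tHom (𝟙 X) (lun Y).hom = tHom (run X).hom (𝟙 Y) :=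
  ((asc_rep X (uObj C) Y).comp ((lun_rep Y).left X)).ext ((run_rep X).right Y)
    (triangle X.X Y.X)

instance : MonoidalCategoryStruct (Karoubi C) where
  tensorObj := tObj
  whiskerLeft P _ _ f := tHom (𝟙 P) f
  whiskerRight f P := tHom f (𝟙 P)
  tensorHom f g := tHom f g
  tensorUnit := uObj C
  associator := asc
  leftUnitor := lun
  rightUnitor := run

@[simp] lemma tensorObj_X (P Q : Karoubi C) : (P ⊗ Q).X = P.X ⊗ Q.X := rfl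
@[simp] lemma tensorObj_p (P Q : Karoubi C) : (P ⊗ Q).p = (P.p ⊗ₘ Q.p) := rfl
@[simp] lemma tensorUnit_X : (𝟙_ (Karoubi C)).X = 𝟙_ C := rfl
@[simp] lemma tensorUnit_p : (𝟙_ (Karoubi C)).p = 𝟙 (𝟙_ C) := rfl

@[simp] lemma tensorHom_f {P P' Q Q' : Karoubi C} (f : P ⟶ P') (g : Q ⟶ Q') :
    (f ⊗ₘ g).f = f.f ⊗ₘ g.f := rfl
@[simp] lemma whiskerLeft_f (P : Karoubi C) {Q Q' : Karoubi C} (g : Q ⟶ Q') :
    (P ◁ g).f = P.p ⊗ₘ g.f := rfl
@[simp] lemma whiskerRight_f {P P' : Karoubi C} (f : P ⟶ P') (Q : Karoubi C) :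
    (f ▷ Q).f = f.f ⊗ₘ Q.p := rfl
@[simp] lemma associator_hom_f (P Q R : Karoubi C) :
    (α_ P Q R).hom.f = ((P.p ⊗ₘ Q.p) ⊗ₘ R.p) ≫ (α_ P.X Q.X R.X).hom := rfl
@[simp] lemma associator_inv_f (P Q R : Karoubi C) :
    (α_ P Q R).inv.f = (P.p ⊗ₘ (Q.p ⊗ₘ R.p)) ≫ (α_ P.X Q.X R.X).inv := rfl
@[simp] lemma leftUnitor_hom_f (P : Karoubi C) : (λ_ P).hom.f = (λ_ P.X).hom ≫ P.p := by
  rw [← leftUnitor_naturality, ← id_tensorHom]
  rfl
@[simp] lemma leftUnitor_inv_f (P : Karoubi C) : (λ_ P).inv.f = P.p ≫ (λ_ P.X).inv := rfl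
@[simp] lemma rightUnitor_hom_f (P : Karoubi C) : (ρ_ P).hom.f = (ρ_ P.X).hom ≫ P.p := by
  rw [← rightUnitor_naturality, ← tensorHom_id]
  rfl
@[simp] lemma rightUnitor_inv_f (P : Karoubi C) : (ρ_ P).inv.f = P.p ≫ (ρ_ P.X).inv := rfl

instance : MonoidalCategory (Karoubi C) where
  tensorHom_def {X₁ Y₁ X₂ Y₂} f g := by
    apply Karoubi.hom_ext
    change f.f ⊗ₘ g.f = (f.f ⊗ₘ X₂.p) ≫ (Y₁.p ⊗ₘ g.f)
    rw [tensorHom_comp_tensorHom, Karoubi.comp_p, Karoubi.p_comp]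
  id_tensorHom_id P Q := rfl
  tensorHom_comp_tensorHom f g f' g' := tHom_comp f g f' g'
  whiskerLeft_id P Q := rfl
  id_whiskerRight P Q := rfl
  associator_naturality {X₁ X₂ X₃ Y₁ Y₂ Y₃} f₁ f₂ f₃ := by
    apply Karoubi.hom_ext
    change ((f₁.f ⊗ₘ f₂.f) ⊗ₘ f₃.f) ≫ ((Y₁.p ⊗ₘ Y₂.p) ⊗ₘ Y₃.p) ≫ (α_ _ _ _).hom =
      (((X₁.p ⊗ₘ X₂.p) ⊗ₘ X₃.p) ≫ (α_ _ _ _).hom) ≫ (f₁.f ⊗ₘ (f₂.f ⊗ₘ f₃.f))
    rw [assoc, ← associator_naturality, tensorHom_comp_tensorHom_assoc,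
      tensorHom_comp_tensorHom_assoc, tensorHom_comp_tensorHom, tensorHom_comp_tensorHom,
      Karoubi.comp_p, Karoubi.comp_p, Karoubi.comp_p, Karoubi.p_comp, Karoubi.p_comp,
      Karoubi.p_comp]
  leftUnitor_naturality {X Y} f := by
    apply Karoubi.hom_ext
    change (𝟙 (𝟙_ C) ⊗ₘ f.f) ≫ (𝟙 (𝟙_ C) ⊗ₘ Y.p) ≫ (λ_ Y.X).hom =
      ((𝟙 (𝟙_ C) ⊗ₘ X.p) ≫ (λ_ X.X).hom) ≫ f.f
    rw [assoc, ← leftUnitor_naturality, ← id_tensorHom, tensorHom_comp_tensorHom_assoc,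
      tensorHom_comp_tensorHom_assoc, Karoubi.comp_p, Karoubi.p_comp]
  rightUnitor_naturality {X Y} f := by
    apply Karoubi.hom_ext
    change (f.f ⊗ₘ 𝟙 (𝟙_ C)) ≫ (Y.p ⊗ₘ 𝟙 (𝟙_ C)) ≫ (ρ_ Y.X).hom =
      ((X.p ⊗ₘ 𝟙 (𝟙_ C)) ≫ (ρ_ X.X).hom) ≫ f.f
    rw [assoc, ← rightUnitor_naturality, ← tensorHom_id, tensorHom_comp_tensorHom_assoc,
      tensorHom_comp_tensorHom_assoc, Karoubi.comp_p, Karoubi.p_comp]
  pentagon := asc_pentagon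
  triangle := asc_triangle

section braided

variable [BraidedCategory C]

lemma brd_h (P Q : Karoubi C) : (P ⊗ Q).p ≫ (β_ P.X Q.X).hom = (β_ P.X Q.X).hom ≫ (Q ⊗ P).p :=
  BraidedCategory.braiding_naturality _ _

/-- the braiding of the Karoubi envelope -/
def brd (P Q : Karoubi C) : P ⊗ Q ≅ Q ⊗ P := isoLft (β_ P.X Q.X) (brd_h P Q)

lemma brd_rep (P Q : Karoubi C) : Rep (brd P Q).hom (β_ P.X Q.X).hom := isoLft_rep _ _

instance : BraidedCategory (Karoubi C) where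
  braiding := brd
  braiding_naturality_right X Y Z f := by
    apply Karoubi.hom_ext
    change (X.p ⊗ₘ f.f) ≫ (X.p ⊗ₘ Z.p) ≫ (β_ X.X Z.X).hom =
      ((X.p ⊗ₘ Y.p) ≫ (β_ X.X Y.X).hom) ≫ (f.f ⊗ₘ X.p)
    rw [assoc, ← BraidedCategory.braiding_naturality, tensorHom_comp_tensorHom_assoc,
      tensorHom_comp_tensorHom_assoc, Karoubi.comp_p, Karoubi.p_comp]
  braiding_naturality_left {X Y} f Z := by
    apply Karoubi.hom_ext
    change (f.f ⊗ₘ Z.p) ≫ (Y.p ⊗ₘ Z.p) ≫ (β_ Y.X Z.X).hom =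
      ((X.p ⊗ₘ Z.p) ≫ (β_ X.X Z.X).hom) ≫ (Z.p ⊗ₘ f.f)
    rw [assoc, ← BraidedCategory.braiding_naturality, tensorHom_comp_tensorHom_assoc,
      tensorHom_comp_tensorHom_assoc, Karoubi.comp_p, Karoubi.p_comp]
  hexagon_forward X Y Z :=
    ((asc_rep X Y Z).comp ((brd_rep X (Y ⊗ Z)).comp (asc_rep Y Z X))).ext
      (((brd_rep X Y).right Z).comp ((asc_rep Y X Z).comp ((brd_rep X Z).left Y)))
      (BraidedCategory.hexagon_forward X.X Y.X Z.X)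
  hexagon_reverse X Y Z :=
    ((asc_rep' X Y Z).comp ((brd_rep (X ⊗ Y) Z).comp (asc_rep' Z X Y))).ext
      (((brd_rep Y Z).left X).comp ((asc_rep' X Z Y).comp ((brd_rep X Z).right Y)))
      (BraidedCategory.hexagon_reverse X.X Y.X Z.X)

@[simp] lemma braiding_hom_f (P Q : Karoubi C) :
    (β_ P Q).hom.f = (P.p ⊗ₘ Q.p) ≫ (β_ P.X Q.X).hom := rfl
@[simp] lemma braiding_inv_f (P Q : Karoubi C) :
    (β_ P Q).inv.f = (Q.p ⊗ₘ P.p) ≫ (β_ P.X Q.X).inv := rfl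

end braided

section symmetric

variable [SymmetricCategory C]

instance : SymmetricCategory (Karoubi C) where
  symmetry P Q := ((brd_rep P Q).comp (brd_rep Q P)).ext (Rep.id (P ⊗ Q))
    (SymmetricCategory.symmetry P.X Q.X)

end symmetric

section preadditive

variable [Preadditive C] [MonoidalPreadditive C]

instance : MonoidalPreadditive (Karoubi C) where
  whiskerLeft_zero {X Y Z} := by
    apply Karoubi.hom_ext
    exact MonoidalPreadditive.tensor_zero _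
  zero_whiskerRight {X Y Z} := by
    apply Karoubi.hom_ext
    exact MonoidalPreadditive.zero_tensor _
  whiskerLeft_add {X Y Z} f g := by
    apply Karoubi.hom_ext
    exact MonoidalPreadditive.tensor_add _ _ _
  add_whiskerRight {X Y Z} f g := by
    apply Karoubi.hom_ext
    exact MonoidalPreadditive.add_tensor _ _ _

end preadditive

/-! ### The functor `toKaroubi C` -/

section functor

/-- the (identity) structure isomorphism of `toKaroubi C` -/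
@[simps!]
def jμ (X Y : C) : (toKaroubi C).obj X ⊗ (toKaroubi C).obj Y ≅ (toKaroubi C).obj (X ⊗ Y) where
  hom := ⟨𝟙 (X ⊗ Y), by
    change (𝟙 X ⊗ₘ 𝟙 Y) ≫ 𝟙 _ ≫ 𝟙 _ = 𝟙 _
    rw [id_tensorHom_id, comp_id, comp_id]⟩
  inv := ⟨𝟙 (X ⊗ Y), by
    change 𝟙 _ ≫ 𝟙 _ ≫ (𝟙 X ⊗ₘ 𝟙 Y) = 𝟙 _
    rw [id_tensorHom_id, comp_id, comp_id]⟩
  hom_inv_id := by
    apply Karoubi.hom_ext
    change 𝟙 (X ⊗ Y) ≫ 𝟙 (X ⊗ Y) = 𝟙 X ⊗ₘ 𝟙 Y
    rw [id_tensorHom_id, comp_id]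
  inv_hom_id := by
    apply Karoubi.hom_ext
    exact comp_id _

instance : (toKaroubi C).Monoidal :=
  Functor.CoreMonoidal.toMonoidal
    { εIso := Iso.refl _
      μIso := jμ
      μIso_hom_natural_left := fun {X Y} f Z => by
        apply Karoubi.hom_ext
        change (f ⊗ₘ 𝟙 Z) ≫ 𝟙 _ = 𝟙 _ ≫ f ▷ Z
        rw [comp_id, id_comp, tensorHom_id]
      μIso_hom_natural_right := fun {X Y} Z f => by
        apply Karoubi.hom_ext
        change (𝟙 Z ⊗ₘ f) ≫ 𝟙 _ = 𝟙 _ ≫ Z ◁ f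
        rw [comp_id, id_comp, id_tensorHom]
      associativity := fun X Y Z => by
        apply Karoubi.hom_ext
        change (𝟙 (X ⊗ Y) ⊗ₘ 𝟙 Z) ≫ 𝟙 _ ≫ (α_ X Y Z).hom =
          (((𝟙 X ⊗ₘ 𝟙 Y) ⊗ₘ 𝟙 Z) ≫ (α_ X Y Z).hom) ≫ (𝟙 X ⊗ₘ 𝟙 (Y ⊗ Z)) ≫ 𝟙 _
        simp only [id_tensorHom_id, id_comp, comp_id]
      left_unitality := fun X => by
        apply Karoubi.hom_ext
        change (𝟙 _ ⊗ₘ 𝟙 X) ≫ (λ_ X).hom = (𝟙 _ ⊗ₘ 𝟙 X) ≫ 𝟙 _ ≫ (λ_ X).hom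
        simp only [id_comp]
      right_unitality := fun X => by
        apply Karoubi.hom_ext
        change (𝟙 X ⊗ₘ 𝟙 _) ≫ (ρ_ X).hom = (𝟙 X ⊗ₘ 𝟙 _) ≫ 𝟙 _ ≫ (ρ_ X).hom
        simp only [id_comp] }

@[simp] lemma toKaroubi_μ_f (X Y : C) :
    (Functor.LaxMonoidal.μ (toKaroubi C) X Y).f = 𝟙 (X ⊗ Y) := rfl
@[simp] lemma toKaroubi_δ_f (X Y : C) :
    (Functor.OplaxMonoidal.δ (toKaroubi C) X Y).f = 𝟙 (X ⊗ Y) := rfl
@[simp] lemma toKaroubi_ε_f : (Functor.LaxMonoidal.ε (toKaroubi C)).f = 𝟙 (𝟙_ C) := rfl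
@[simp] lemma toKaroubi_η_f : (Functor.OplaxMonoidal.η (toKaroubi C)).f = 𝟙 (𝟙_ C) := rfl

instance [BraidedCategory C] : (toKaroubi C).Braided where
  braided X Y := by
    apply Karoubi.hom_ext
    change 𝟙 _ ≫ (β_ X Y).hom = ((𝟙 X ⊗ₘ 𝟙 Y) ≫ (β_ X Y).hom) ≫ 𝟙 _
    rw [id_tensorHom_id, comp_id, id_comp]

end functor

end Kar

end Vale.Agent.P251.X
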