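import Vale.Agent.P251.X.KunTh
import Vale.Agent.P251.X.Mid

/-!
# P251, part X5: the Künneth theorem

For a lax theory `F` with sphere data, `V X ⊗ V Y ⊕ V(X ⊗ S⁻¹) ⊗ V(S¹ ⊗ Y) ⟶ V(X ⊗ Y)` is
bijective.
-/

open CategoryTheory MonoidalCategory Limits Pretriangulated
open scoped TensorProduct DirectSum

universe w v u

noncomputable section

namespace Vale.Agent.P251.X

open Vale.Agent.P251.H Vale.Agent.P251.T Vale.Agent.P251.M

set_option linter.unusedSectionVars false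

namespace LaxTh

section basic

variable {k : Type} [Field k] {T : Type u} [Category.{v} T] [Preadditive T] [HasZeroObject T]
  [HasShift T ℤ] [∀ n : ℤ, (shiftFunctor T n).Additive] [Pretriangulated T] [HasCoproducts.{0} T]
  [MonoidalCategory T] [SymmetricCategory T] (F : LaxTh.{w} k T)

theorem m_whiskerRight {X X' : T} (f : X ⟶ X') (Y : T) (x : F.V X) (y : F.V Y) :
    F.map (f ▷ Y) (F.m X Y x y) = F.m X' Y (F.map f x) y := by
  rw [← tensorHom_id, F.m_nat, F.toHomTh.map_id_apply]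

theorem m_whiskerLeft (X : T) {Y Y' : T} (f : Y ⟶ Y') (x : F.V X) (y : F.V Y) :
    F.map (X ◁ f) (F.m X Y x y) = F.m X Y' x (F.map f y) := by
  rw [← id_tensorHom, F.m_nat, F.toHomTh.map_id_apply]

theorem m_assoc_inv (X Y Z : T) (x : F.V X) (y : F.V Y) (z : F.V Z) :
    F.map (α_ X Y Z).inv (F.m X (Y ⊗ Z) x (F.m Y Z y z)) = F.m (X ⊗ Y) Z (F.m X Y x y) z := by
  rw [← F.m_assoc, ← F.toHomTh.map_comp_apply, Iso.hom_inv_id, F.toHomTh.map_id_apply]

theorem m_unit_inv (X : T) (x : F.V X) : F.map (λ_ X).inv x = F.m (𝟙_ T) X F.e x := by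
  conv_lhs => rw [← F.m_unit X x]
  rw [← F.toHomTh.map_comp_apply, Iso.hom_inv_id, F.toHomTh.map_id_apply]

theorem m_unit' (X : T) (x : F.V X) : F.map (ρ_ X).hom (F.m X (𝟙_ T) x F.e) = x := by
  rw [← F.m_comm, ← F.toHomTh.map_comp_apply, braiding_rightUnitor, F.m_unit]

/-- the second external product -/
def mm {A B : T} (θ : A ⊗ B ⟶ 𝟙_ T) (X Y : T) :
    F.V (X ⊗ A) →ₗ[k] F.V (B ⊗ Y) →ₗ[k] F.V (X ⊗ Y) :=
  (F.m (X ⊗ A) (B ⊗ Y)).compr₂ (F.map (mid θ X Y))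

theorem mm_apply {A B : T} (θ : A ⊗ B ⟶ 𝟙_ T) (X Y : T) (a : F.V (X ⊗ A)) (b : F.V (B ⊗ Y)) :
    F.mm θ X Y a b = F.map (mid θ X Y) (F.m (X ⊗ A) (B ⊗ Y) a b) := rfl

end basic

section sph

variable {k : Type} [Field k] {T : Type u} [Category.{v} T] [Preadditive T] [HasZeroObject T]
  [HasShift T ℤ] [∀ n : ℤ, (shiftFunctor T n).Additive] [Pretriangulated T] [HasCoproducts.{0} T]
  [MonoidalCategory T] [SymmetricCategory T] {F : LaxTh.{w} k T} {E : EvenSpheres T} (s : F.Sph E)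

namespace Sph

/-- the inverse of the multiplication by a generator -/
def back (i j : ℤ) (h : i + j = 0) (Y : T) : E.S i ⊗ (E.S j ⊗ Y) ≅ Y :=
  (α_ (E.S i) (E.S j) Y).symm ≪≫ whiskerRightIso (E.mu i j 0 h ≪≫ E.zero.symm) Y ≪≫ λ_ Y

theorem back_mul (i j : ℤ) (h : i + j = 0) (Y : T) (y : F.V Y) :
    F.map (back (E := E) i j h Y).hom
      (F.m (E.S i) (E.S j ⊗ Y) (s.g i) (F.m (E.S j) Y (s.g j) y)) = y := by
  simp only [back, Iso.trans_hom, Iso.symm_hom, whiskerRightIso_hom]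
  rw [F.toHomTh.map_comp_apply, F.toHomTh.map_comp_apply, F.m_assoc_inv, F.m_whiskerRight,
    F.toHomTh.map_comp_apply, s.g_mul, s.g_zero, F.m_unit]

/-- multiplication by a generator is bijective -/
theorem bij (j : ℤ) (Y : T) : Function.Bijective (F.m (E.S j) Y (s.g j)) := by
  have inj : ∀ (j : ℤ) (Y : T), Function.Injective (F.m (E.S j) Y (s.g j)) := by
    intro j Y y y' h
    rw [← s.back_mul (-j) j (neg_add_cancel j) Y y, h, s.back_mul]
  refine ⟨inj j Y, fun z => ?_⟩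
  refine ⟨F.map (back (E := E) (-j) j (neg_add_cancel j) Y).hom
    (F.m (E.S (-j)) (E.S j ⊗ Y) (s.g (-j)) z), ?_⟩
  apply inj (-j) (E.S j ⊗ Y)
  apply (F.toHomTh.map_iso_bijective (back (E := E) (-j) j (neg_add_cancel j) Y)).1
  rw [s.back_mul]

/-- right multiplication by a generator is bijective -/
theorem bij' (j : ℤ) (Y : T) :
    Function.Bijective fun y : F.V Y => F.m Y (E.S j) y (s.g j) := by
  have h : (fun y : F.V Y => F.m Y (E.S j) y (s.g j)) =
      F.map (β_ (E.S j) Y).hom ∘ F.m (E.S j) Y (s.g j) := by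
    funext y
    exact (F.m_comm _ _ _ _).symm
  rw [h]
  exact (F.toHomTh.map_iso_bijective (β_ (E.S j) Y)).comp (s.bij j Y)

/-- the value on an even sphere -/
theorem even (j : ℤ) (x : F.V (E.S j)) : ∃ c : k, x = c • s.g j := by
  obtain ⟨y, hy⟩ := (s.bij j (𝟙_ T)).2 (F.map (ρ_ (E.S j)).inv x)
  obtain ⟨c, rfl⟩ := s.one y
  refine ⟨c, ?_⟩
  rw [_root_.map_smul] at hy
  have h := congrArg (F.map (ρ_ (E.S j)).hom) hy
  rw [_root_.map_smul, F.m_unit', ← F.toHomTh.map_comp_apply, Iso.inv_hom_id,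
    F.toHomTh.map_id_apply] at h
  exact h.symm

theorem g_ne (j : ℤ) : s.g j ≠ 0 := by
  intro h
  have h1 : F.m (E.S j) (𝟙_ T) (s.g j) F.e = F.m (E.S j) (𝟙_ T) (s.g j) 0 := by
    rw [h]
    simp
  exact s.ne ((s.bij j (𝟙_ T)).1 h1)

end Sph

end sph

section alg

variable {k : Type} [Field k] {A B W U : Type w} [AddCommGroup A] [Module k A] [AddCommGroup B]
  [Module k B] [AddCommGroup W] [Module k W] [AddCommGroup U] [Module k U]

theorem lift_bij (f : A →ₗ[k] W →ₗ[k] U) (g : A) (hg : ∀ a : A, ∃ c : k, a = c • g)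
    (h : Function.Bijective (f g)) : Function.Bijective (TensorProduct.lift f) := by
  have key : ∀ t : A ⊗[k] W, ∃ w : W, t = g ⊗ₜ[k] w := by
    intro t
    induction t using TensorProduct.induction_on with
    | zero => exact ⟨0, (TensorProduct.tmul_zero _ _).symm⟩
    | tmul a w =>
      obtain ⟨c, rfl⟩ := hg a
      exact ⟨c • w, TensorProduct.smul_tmul _ _ _⟩
    | add t t' ht ht' =>
      obtain ⟨w, rfl⟩ := ht
      obtain ⟨w', rfl⟩ := ht'
      exact ⟨w + w', (TensorProduct.tmul_add _ _ _).symm⟩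
  constructor
  · rw [injective_iff_map_eq_zero]
    intro t ht
    obtain ⟨w, rfl⟩ := key t
    rw [TensorProduct.lift.tmul] at ht
    rw [h.1 (ht.trans (_root_.map_zero (f g)).symm), TensorProduct.tmul_zero]
  · intro u
    obtain ⟨w, rfl⟩ := h.2 u
    exact ⟨g ⊗ₜ[k] w, TensorProduct.lift.tmul _ _⟩

theorem coprod_bij_left (f : A →ₗ[k] U) (g : B →ₗ[k] U) (hB : ∀ b : B, b = 0)
    (h : Function.Bijective f) : Function.Bijective (LinearMap.coprod f g) := by
  constructor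
  · rw [injective_iff_map_eq_zero]
    rintro ⟨a, b⟩ hab
    rw [hB b, LinearMap.coprod_apply, _root_.map_zero, add_zero] at hab
    exact Prod.ext (h.1 (hab.trans (_root_.map_zero f).symm)) (hB b)
  · intro u
    obtain ⟨a, rfl⟩ := h.2 u
    exact ⟨(a, 0), by rw [LinearMap.coprod_apply, _root_.map_zero, add_zero]⟩

theorem coprod_bij_right (f : A →ₗ[k] U) (g : B →ₗ[k] U) (hA : ∀ a : A, a = 0)
    (h : Function.Bijective g) : Function.Bijective (LinearMap.coprod f g) := by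
  constructor
  · rw [injective_iff_map_eq_zero]
    rintro ⟨a, b⟩ hab
    rw [hA a, LinearMap.coprod_apply, _root_.map_zero, zero_add] at hab
    exact Prod.ext (hA a) (h.1 (hab.trans (_root_.map_zero g).symm))
  · intro u
    obtain ⟨b, rfl⟩ := h.2 u
    exact ⟨(0, b), by rw [LinearMap.coprod_apply, _root_.map_zero, zero_add]⟩

theorem tensor_zero (hA : ∀ a : A, a = 0) (t : A ⊗[k] W) : t = 0 := by
  induction t using TensorProduct.induction_on with
  | zero => rfl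
  | tmul a w => rw [hA a, TensorProduct.zero_tmul]
  | add t t' ht ht' => rw [ht, ht', add_zero]

end alg

section kunneth

variable {k : Type} [Field k] {T : Type u} [Category.{v} T] [Preadditive T] [HasZeroObject T]
  [HasShift T ℤ] [∀ n : ℤ, (shiftFunctor T n).Additive] [Pretriangulated T]
  [MonoidalCategory T] [SymmetricCategory T] [TensorTriangulated T] [MonoidalClosed T]
  [HasCoproducts.{0} T] (F : LaxTh.{w} k T)

variable (T) in
/-- `S⁻¹` -/
abbrev Lm : T := (𝟙_ T)⟦(-1 : ℤ)⟧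

variable (T) in
/-- `S¹` -/
abbrev Lp : T := (𝟙_ T)⟦(1 : ℤ)⟧

/-- the Künneth map -/
def kap (Y X : T) :
    ((F.V X ⊗[k] F.V Y) × (F.V (X ⊗ Lm T) ⊗[k] F.V (Lp T ⊗ Y))) →ₗ[k] F.V (X ⊗ Y) :=
  LinearMap.coprod (TensorProduct.lift (F.m X Y)) (TensorProduct.lift (F.mm negOne.hom X Y))

theorem kap_apply (Y X : T) (s : F.V X ⊗[k] F.V Y)
    (t : F.V (X ⊗ Lm T) ⊗[k] F.V (Lp T ⊗ Y)) :
    F.kap Y X (s, t) = TensorProduct.lift (F.m X Y) s +
      TensorProduct.lift (F.mm negOne.hom X Y) t := rfl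

/-- the source of the Künneth map -/
def kunSrc (Y : T) : HomTh.{w} k T :=
  (F.toHomTh.tens (F.V Y)).prod ((F.toHomTh.tr (Lm T)).tens (F.V (Lp T ⊗ Y)))

theorem kap_nat (Y : T) {X X' : T} (f : X ⟶ X')
    (x : (F.V X ⊗[k] F.V Y) × (F.V (X ⊗ Lm T) ⊗[k] F.V (Lp T ⊗ Y))) :
    F.kap Y X' ((F.kunSrc Y).map f x) = (F.toHomTh.tr Y).map f (F.kap Y X x) := by
  have h : (F.kap Y X').comp ((F.kunSrc Y).map f) =
      ((F.toHomTh.tr Y).map f).comp (F.kap Y X) := by
    apply LinearMap.prod_ext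
    · apply TensorProduct.ext'
      intro x y
      change F.kap Y X' (LinearMap.rTensor (F.V Y) (F.map f) (x ⊗ₜ y),
        LinearMap.rTensor (F.V (Lp T ⊗ Y)) (F.map (f ▷ Lm T)) 0) =
        F.map (f ▷ Y) (F.kap Y X (x ⊗ₜ y, 0))
      rw [_root_.map_zero, kap_apply, kap_apply, _root_.map_zero, _root_.map_zero, add_zero,
        add_zero, LinearMap.rTensor_tmul, TensorProduct.lift.tmul, TensorProduct.lift.tmul,
        F.m_whiskerRight]
    · apply TensorProduct.ext'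
      intro (x : F.V (X ⊗ Lm T)) y
      change F.kap Y X' (LinearMap.rTensor (F.V Y) (F.map f) 0,
        LinearMap.rTensor (F.V (Lp T ⊗ Y)) (F.map (f ▷ Lm T)) (x ⊗ₜ y)) =
        F.map (f ▷ Y) (F.kap Y X (0, x ⊗ₜ y))
      rw [_root_.map_zero, kap_apply, kap_apply, _root_.map_zero, _root_.map_zero, zero_add,
        zero_add, LinearMap.rTensor_tmul, TensorProduct.lift.tmul, TensorProduct.lift.tmul,
        mm_apply, mm_apply, ← F.m_whiskerRight, ← F.toHomTh.map_comp_apply,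
        ← F.toHomTh.map_comp_apply]
      have h := mid_nat (negOne (T := T)).hom f (𝟙 Y)
      rw [MonoidalCategory.whiskerLeft_id, tensorHom_id, tensorHom_id] at h
      rw [h]
  exact DFunLike.congr_fun h x

variable {F}

/-- the vanishing on odd spheres -/
theorem Sph.odd_of {E : EvenSpheres T} (s : F.Sph E) {X : T} (n : ℤ) (hn : Odd n)
    (e : X ≅ (𝟙_ T)⟦n⟧) (x : F.V X) : x = 0 := by
  obtain ⟨l, rfl⟩ := hn
  apply (F.toHomTh.map_iso_bijective e).1
  rw [_root_.map_zero]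
  exact s.odd l _

/-- `𝟙⟦a⟧ ⊗ 𝟙⟦b⟧ ≅ 𝟙⟦a + b⟧` -/
def shTen (a b c : ℤ) (h : a + b = c) : (𝟙_ T)⟦a⟧ ⊗ (𝟙_ T)⟦b⟧ ≅ (𝟙_ T)⟦c⟧ :=
  S.tensorSph b ((𝟙_ T)⟦a⟧) ≪≫ (shiftFunctorAdd' T a b c h).symm.app (𝟙_ T)

/-- `S^{2n} ≅ 𝟙⟦2n⟧` -/
def sph (n : ℤ) : (stdEven T).S n ≅ (𝟙_ T)⟦(2 * n : ℤ)⟧ :=
  (stdEven T).sphIso (Iso.refl _) n

theorem kap_bij_even (s : F.Sph (stdEven T)) (Y : T) (j : ℤ) :
    Function.Bijective (F.kap Y ((stdEven T).S j)) := by
  apply coprod_bij_left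
  · intro t
    exact tensor_zero (fun a => s.odd_of (2 * j + -1) ⟨j - 1, by ring⟩
      (whiskerRightIso (sph j) _ ≪≫ shTen (2 * j) (-1) _ rfl) a) t
  · exact lift_bij _ (s.g j) (s.even j) (s.bij j Y)

theorem kap_bij_odd (s : F.Sph (stdEven T)) (Y : T) (j : ℤ) :
    Function.Bijective (F.kap Y ((𝟙_ T)⟦(2 * j + 1 : ℤ)⟧)) := by
  apply coprod_bij_right
  · intro t
    exact tensor_zero (fun a => s.odd j a) t
  · let ι : (stdEven T).S j ≅ (𝟙_ T)⟦(2 * j + 1 : ℤ)⟧ ⊗ Lm T :=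
      sph j ≪≫ (shTen (2 * j + 1) (-1) (2 * j) (by ring)).symm
    apply lift_bij _ (F.map ι.hom (s.g j))
    · intro a
      obtain ⟨c, hc⟩ := s.even j (F.map ι.inv a)
      refine ⟨c, ?_⟩
      rw [← _root_.map_smul, ← hc, ← F.toHomTh.map_comp_apply, Iso.inv_hom_id,
        F.toHomTh.map_id_apply]
    · have h : ⇑(F.mm negOne.hom ((𝟙_ T)⟦(2 * j + 1 : ℤ)⟧) Y (F.map ι.hom (s.g j))) =
          F.map (ι.hom ▷ (Lp T ⊗ Y) ≫ mid negOne.hom ((𝟙_ T)⟦(2 * j + 1 : ℤ)⟧) Y) ∘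
            F.m ((stdEven T).S j) (Lp T ⊗ Y) (s.g j) := by
        funext b
        rw [mm_apply, Function.comp_apply, F.toHomTh.map_comp_apply, F.m_whiskerRight]
      rw [h]
      exact (F.toHomTh.map_bijective _).comp (s.bij j (Lp T ⊗ Y))

/-- **Künneth theorem.** -/
theorem kap_bij [LocallySmall.{0} T] (hc : IsCpt (𝟙_ T)) (hg : IsGen (𝟙_ T))
    (s : F.Sph (stdEven T)) (Y X : T) : Function.Bijective (F.kap Y X) := by
  refine HomAb.bijective_of_gen (F := (F.kunSrc Y).toAb) (G := (F.toHomTh.tr Y).toAb)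
    (η := fun X => (F.kap Y X).toAddMonoidHom) hc hg ?_ ?_ X
  · intro X X' f x
    exact F.kap_nat Y f x
  · intro n
    obtain ⟨j, rfl | rfl⟩ := Int.even_or_odd' n
    · refine HomAb.bij_of_iso (F := (F.kunSrc Y).toAb) (G := (F.toHomTh.tr Y).toAb)
        (η := fun X => (F.kap Y X).toAddMonoidHom) ?_ (sph j) (kap_bij_even s Y j)
      intro X X' f x
      exact F.kap_nat Y f x
    · exact kap_bij_odd s Y j

end kunneth

end LaxTh

end Vale.Agent.P251.X
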