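import Vale.Agent.P251.X.LaxTh
import Vale.Agent.P251.S.TensorShift
import Mathlib.RingTheory.Flat.Basic

/-!
# P251, part X5: constructions on homology theories

`HomTh.tr F Y : X ↦ V(X ⊗ Y)`, `HomTh.tens F W : X ↦ V X ⊗ W`, `HomTh.prod`.
-/

open CategoryTheory MonoidalCategory Limits Pretriangulated
open scoped TensorProduct DirectSum

universe w v u

noncomputable section

namespace Vale.Agent.P251.X

open Vale.Agent.P251.H Vale.Agent.P251.T Vale.Agent.P251.M

set_option linter.unusedSectionVars false

namespace HomTh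

section gen

variable {k : Type} [Field k] {C : Type u} [Category.{v} C] [Preadditive C] [HasZeroObject C]
  [HasShift C ℤ] [∀ n : ℤ, (shiftFunctor C n).Additive] [Pretriangulated C] [HasCoproducts.{0} C]
  (F G : HomTh.{w} k C)

theorem map_id_apply {X : C} (x : F.V X) : F.map (𝟙 X) x = x := by
  rw [F.map_id]
  rfl

theorem map_comp_apply {X Y Z : C} (f : X ⟶ Y) (g : Y ⟶ Z) (x : F.V X) :
    F.map (f ≫ g) x = F.map g (F.map f x) := by
  rw [F.map_comp]
  rfl

theorem map_zero_hom (X Y : C) : F.map (0 : X ⟶ Y) = 0 := by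
  have h := F.map_add (0 : X ⟶ Y) 0
  rw [add_zero] at h
  exact (left_eq_add.mp h)

theorem map_iso_bijective {X Y : C} (e : X ≅ Y) : Function.Bijective (F.map e.hom) := by
  constructor
  · intro x y h
    rw [← F.map_id_apply x, ← F.map_id_apply y, ← e.hom_inv_id, F.map_comp_apply,
      F.map_comp_apply, h]
  · intro y
    exact ⟨F.map e.inv y, by rw [← F.map_comp_apply, e.inv_hom_id, F.map_id_apply]⟩

theorem map_bijective {X Y : C} (f : X ⟶ Y) [IsIso f] : Function.Bijective (F.map f) :=
  F.map_iso_bijective (asIso f)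

/-- the exactness as an equivalence -/
theorem exact_fun {X Y Z : C} {f : X ⟶ Y} {g : Y ⟶ Z} {h : Z ⟶ X⟦(1 : ℤ)⟧} (D : Dist f g h) :
    Function.Exact (F.map f) (F.map g) := by
  intro y
  constructor
  · intro hy
    exact F.exact D y hy
  · rintro ⟨x, rfl⟩
    rw [← F.map_comp_apply, D.zero₁₂, F.map_zero_hom]
    rfl

/-- The theory `X ↦ V X ⊗ W`. -/
def tens (W : Type w) [AddCommGroup W] [Module k W] : HomTh.{w} k C where
  V X := F.V X ⊗[k] W
  map f := LinearMap.rTensor W (F.map f)
  map_id X := by rw [F.map_id, LinearMap.rTensor_id]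
  map_comp f g := by rw [F.map_comp, LinearMap.rTensor_comp]
  map_add f g := by rw [F.map_add, LinearMap.rTensor_add]
  exact {X Y Z f g h} D y hy :=
    ((Module.Flat.rTensor_exact W (F.exact_fun D)) y).1 hy
  coprod {I} _ X := by
    have h := F.coprod X
    let e := LinearEquiv.ofBijective _ h
    let e2 := (TensorProduct.directSumLeft k k (fun i => F.V (X i)) W).symm ≪≫ₗ
      (LinearEquiv.rTensor W e)
    have h3 : (DirectSum.toModule k I (F.V (∐ X) ⊗[k] W)
        fun i => LinearMap.rTensor W (F.map (Sigma.ι X i))) = e2.toLinearMap := by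
      apply DirectSum.linearMap_ext
      intro i
      apply TensorProduct.ext'
      intro x y
      have h4 : e (DirectSum.lof k I (fun i => F.V (X i)) i x) = F.map (Sigma.ι X i) x := by
        change DirectSum.toModule k I (F.V (∐ X)) (fun i => F.map (Sigma.ι X i)) _ = _
        rw [DirectSum.toModule_lof]
      simp only [LinearMap.comp_apply, DirectSum.toModule_lof, LinearMap.rTensor_tmul, e2,
        LinearEquiv.coe_coe, LinearEquiv.trans_apply, TensorProduct.directSumLeft_symm_lof_tmul,
        LinearEquiv.rTensor_tmul, h4]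
    rw [h3]
    exact e2.bijective

/-- The product of two theories. -/
def prod : HomTh.{w} k C where
  V X := F.V X × G.V X
  map f := LinearMap.prodMap (F.map f) (G.map f)
  map_id X := by
    rw [F.map_id, G.map_id]
    rfl
  map_comp f g := by
    rw [F.map_comp, G.map_comp]
    rfl
  map_add f g := by
    rw [F.map_add, G.map_add]
    rfl
  exact {X Y Z f g h} D y hy := by
    obtain ⟨y1, y2⟩ := y
    have h1 : F.map g y1 = 0 := congrArg Prod.fst hy
    have h2 : G.map g y2 = 0 := congrArg Prod.snd hy
    obtain ⟨x1, rfl⟩ := F.exact D y1 h1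
    obtain ⟨x2, rfl⟩ := G.exact D y2 h2
    exact ⟨(x1, x2), rfl⟩
  coprod {I} _ X := by
    have hF := F.coprod X
    have hG := G.coprod X
    have key : (DirectSum.toModule k I (F.V (∐ X) × G.V (∐ X)) fun i =>
          LinearMap.prodMap (F.map (Sigma.ι X i)) (G.map (Sigma.ι X i))) =
          LinearMap.prod
            ((DirectSum.toModule k I (F.V (∐ X)) (fun i => F.map (Sigma.ι X i))).comp
              (DirectSum.lmap fun i => LinearMap.fst k (F.V (X i)) (G.V (X i))))
            ((DirectSum.toModule k I (G.V (∐ X)) (fun i => G.map (Sigma.ι X i))).comp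
              (DirectSum.lmap fun i => LinearMap.snd k (F.V (X i)) (G.V (X i)))) := by
      apply DirectSum.linearMap_ext
      intro i
      apply LinearMap.ext
      intro x
      change _ = ((DirectSum.toModule k I (F.V (∐ X)) (fun i => F.map (Sigma.ι X i)))
          (DirectSum.lmap (fun i => LinearMap.fst k (F.V (X i)) (G.V (X i)))
            (DirectSum.lof k I (fun i => F.V (X i) × G.V (X i)) i x)),
        (DirectSum.toModule k I (G.V (∐ X)) (fun i => G.map (Sigma.ι X i)))
          (DirectSum.lmap (fun i => LinearMap.snd k (F.V (X i)) (G.V (X i)))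
            (DirectSum.lof k I (fun i => F.V (X i) × G.V (X i)) i x)))
      rw [DirectSum.lmap_lof, DirectSum.lmap_lof, DirectSum.toModule_lof, DirectSum.toModule_lof,
        LinearMap.comp_apply, DirectSum.toModule_lof]
      rfl
    rw [key]
    constructor
    · intro u u' h
      have h1 := hF.1 (congrArg Prod.fst h)
      have h2 := hG.1 (congrArg Prod.snd h)
      apply DFinsupp.ext
      intro i
      exact Prod.ext (DFunLike.congr_fun h1 i) (DFunLike.congr_fun h2 i)
    · rintro ⟨y1, y2⟩
      obtain ⟨u1, rfl⟩ := hF.2 y1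
      obtain ⟨u2, rfl⟩ := hG.2 y2
      refine ⟨DirectSum.lmap (fun i => LinearMap.inl k (F.V (X i)) (G.V (X i))) u1 +
        DirectSum.lmap (fun i => LinearMap.inr k (F.V (X i)) (G.V (X i))) u2, ?_⟩
      have a1 : DirectSum.lmap (fun i => LinearMap.fst k (F.V (X i)) (G.V (X i)))
          (DirectSum.lmap (fun i => LinearMap.inl k (F.V (X i)) (G.V (X i))) u1 +
          DirectSum.lmap (fun i => LinearMap.inr k (F.V (X i)) (G.V (X i))) u2) = u1 := by
        apply DFinsupp.ext
        intro i
        change u1 i + 0 = u1 i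
        rw [add_zero]
      have a2 : DirectSum.lmap (fun i => LinearMap.snd k (F.V (X i)) (G.V (X i)))
          (DirectSum.lmap (fun i => LinearMap.inl k (F.V (X i)) (G.V (X i))) u1 +
          DirectSum.lmap (fun i => LinearMap.inr k (F.V (X i)) (G.V (X i))) u2) = u2 := by
        apply DFinsupp.ext
        intro i
        change 0 + u2 i = u2 i
        rw [zero_add]
      exact Prod.ext
        (congrArg (DirectSum.toModule k I (F.V (∐ X)) fun i => F.map (Sigma.ι X i)) a1)
        (congrArg (DirectSum.toModule k I (G.V (∐ X)) fun i => G.map (Sigma.ι X i)) a2)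

end gen

section tr

variable {k : Type} [Field k] {T : Type u} [Category.{v} T] [Preadditive T] [HasZeroObject T]
  [HasShift T ℤ] [∀ n : ℤ, (shiftFunctor T n).Additive] [Pretriangulated T]
  [MonoidalCategory T] [SymmetricCategory T] [TensorTriangulated T] [MonoidalClosed T]
  [HasCoproducts.{0} T] (F : HomTh.{w} k T)

/-- The theory `X ↦ V(X ⊗ Y)`. -/
def tr (Y : T) : HomTh.{w} k T where
  V X := F.V (X ⊗ Y)
  map f := F.map (f ▷ Y)
  map_id X := by rw [id_whiskerRight, F.map_id]
  map_comp f g := by rw [comp_whiskerRight, F.map_comp]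
  map_add f g := by rw [MonoidalPreadditive.add_whiskerRight, F.map_add]
  exact {X X' X'' f g h} D y hy := F.exact (S.dist_whiskerRight Y D) y hy
  coprod {I} _ X := by
    have h := F.coprod (fun i => X i ⊗ Y)
    let e := PreservesCoproduct.iso (tensorRight Y) X
    have h1 : ∀ i, Sigma.ι (fun i => X i ⊗ Y) i ≫ e.inv = Sigma.ι X i ▷ Y := by
      intro i
      have h2 := ι_comp_sigmaComparison (tensorRight Y) X i
      rw [← PreservesCoproduct.inv_hom] at h2
      exact h2
    have h3 : (DirectSum.toModule k I (F.V ((∐ X) ⊗ Y)) fun i => F.map (Sigma.ι X i ▷ Y)) =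
        (F.map e.inv).comp (DirectSum.toModule k I (F.V (∐ fun i => X i ⊗ Y))
          fun i => F.map (Sigma.ι (fun i => X i ⊗ Y) i)) := by
      apply DirectSum.linearMap_ext
      intro i
      apply LinearMap.ext
      intro x
      simp only [LinearMap.comp_apply, DirectSum.toModule_lof]
      rw [← F.map_comp_apply, h1]
    rw [h3]
    exact (F.map_iso_bijective e.symm).comp h

end tr

end HomTh

end Vale.Agent.P251.X
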