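import Vale.Agent.P251.X.MulE
import Vale.Agent.P251.X.Kar
import Vale.Agent.P251.X.Abs

/-!
# P251, part X1c: the quotient in the idempotent completion of the free modules

For `q : QIn D E Z S₁` and a morphism of commutative monoids `g : D ⟶ N`, the sequence
`Z ⟶ 𝟙 ⟶ (E, eN) ⟶ Z ⊗ S₁` in `Karoubi (FM N)` is exact in the sense of `Cof`.
-/

open CategoryTheory MonoidalCategory MonObj Idempotents

set_option linter.unusedSectionVars false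

universe v u

namespace Vale.Agent.P251.X

open Vale.Agent.P251.M Vale.Agent.P251.S

section general

variable {C : Type u} [Category.{v} C] [Preadditive C] [MonoidalCategory C]
  [MonoidalPreadditive C]

theorem kar_zero {A B : C} (f : A ⟶ B) (X Y : Karoubi C) (a : (toKaroubi C).obj B ⊗ X ⟶ Y)
    (h : (toKaroubi C).map f ▷ X ≫ a = 0) : f ▷ X.X ≫ a.f = 0 := by
  have h2 : (f ⊗ₘ X.p) ≫ a.f = 0 := congrArg Karoubi.Hom.f h
  have h3 : (𝟙 B ⊗ₘ X.p) ≫ a.f = a.f := Karoubi.p_comp a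
  rw [← h3, ← tensorHom_id, tensorHom_comp_tensorHom_assoc, Category.id_comp, Category.comp_id, h2]

theorem kar_lift {A B : C} (g : A ⟶ B) (X Y : Karoubi C) (a : (toKaroubi C).obj A ⊗ X ⟶ Y)
    (b₀ : B ⊗ X.X ⟶ Y.X) (h : a.f = g ▷ X.X ≫ b₀) :
    ∃ b : (toKaroubi C).obj B ⊗ X ⟶ Y, a = (toKaroubi C).map g ▷ X ≫ b := by
  refine ⟨⟨(𝟙 B ⊗ₘ X.p) ≫ b₀ ≫ Y.p, ?_⟩, ?_⟩
  · change (𝟙 B ⊗ₘ X.p) ≫ ((𝟙 B ⊗ₘ X.p) ≫ b₀ ≫ Y.p) ≫ Y.p = _
    rw [Category.assoc, Category.assoc, Y.idem, tensorHom_comp_tensorHom_assoc, X.idem,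
      Category.id_comp]
  · apply Karoubi.hom_ext
    change a.f = (g ⊗ₘ X.p) ≫ (𝟙 B ⊗ₘ X.p) ≫ b₀ ≫ Y.p
    have h3 : (𝟙 A ⊗ₘ X.p) ≫ a.f = a.f := Karoubi.p_comp a
    rw [tensorHom_comp_tensorHom_assoc, X.idem, Category.comp_id, tensorHom_def', Category.assoc,
      ← reassoc_of% h, Karoubi.comp_p, ← id_tensorHom, h3]

/-- `HomExact` passes to the idempotent completion. -/
theorem HomExact.kar {A B C₁ A' B' : C} {f : A ⟶ B} {g : B ⟶ C₁} {h : C₁ ⟶ A'} {k : A' ⟶ B'}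
    (H : HomExact f g h k) :
    HomExact ((toKaroubi C).map f) ((toKaroubi C).map g) ((toKaroubi C).map h)
      ((toKaroubi C).map k) where
  zero := by rw [← Functor.map_comp, H.zero, Functor.map_zero]
  ext X Y a ha := by
    obtain ⟨b, hb⟩ := H.ext X.X Y.X a.f (kar_zero f X Y a ha)
    exact kar_lift g X Y a b hb
  fac X Y a ha := by
    obtain ⟨b, hb⟩ := H.fac X.X Y.X a.f (kar_zero g X Y a ha)
    exact kar_lift h X Y a b hb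
  inj X Y a ha := by
    obtain ⟨b, hb⟩ := H.inj X.X Y.X a.f (kar_zero h X Y a ha)
    exact kar_lift k X Y a b hb

/-- From `HomExact` with second term the unit to `Cof`. -/
theorem HomExact.cof {Z S E : C} {v : Z ⟶ 𝟙_ C} {i : 𝟙_ C ⟶ E} {δ : E ⟶ Z ⊗ S}
    (H : HomExact v i δ (v ▷ S ≫ (λ_ S).hom)) : Cof v i δ where
  zero := H.zero
  ext X Y a ha := by
    obtain ⟨b, hb⟩ := H.ext X Y ((λ_ X).hom ≫ a) ha
    exact ⟨b, by rw [← hb, Iso.inv_hom_id_assoc]⟩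
  fac X Y a ha := H.fac X Y a ha
  inj X Y a ha := H.inj X Y a ha

end general

section main

variable {T : Type u} [Category.{v} T] [Preadditive T] [MonoidalCategory T]
  [MonoidalPreadditive T] [SymmetricCategory T]
  {D E Z S₁ : T} [MonObj D] [IsCommMonObj D] (q : QIn D E Z S₁)
  {N : T} [MonObj N] [IsCommMonObj N] (g : D ⟶ N) [IsMonHom g]

/-- the object `X` of the idempotent completion of the free modules -/
abbrev kO (N : T) [MonObj N] (X : T) : Karoubi (FM N) := (toKaroubi (FM N)).obj (FM.of X)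

namespace QIn

/-- the image of the idempotent -/
abbrev EK : Karoubi (FM N) := ⟨FM.of E, q.eN g, q.eN_eN g⟩

/-- the element -/
def vK : kO N Z ⟶ 𝟙_ (Karoubi (FM N)) := ⟨q.vN g, (Category.id_comp _).trans (Category.comp_id _)⟩

/-- the unit -/
def iK : 𝟙_ (Karoubi (FM N)) ⟶ q.EK g :=
  ⟨q.iN N, by
    change 𝟙 _ ≫ q.iN N ≫ q.eN g = q.iN N
    rw [q.iN_eN, Category.id_comp]⟩

/-- the boundary -/
def dK : q.EK g ⟶ kO N Z ⊗ kO N S₁ :=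
  ⟨q.dN g, by
    change q.eN g ≫ q.dN g ≫ (𝟙 (FM.of Z : FM N) ⊗ₘ 𝟙 (FM.of S₁)) = q.dN g
    rw [id_tensorHom_id]
    erw [Category.comp_id]
    rw [q.eN_dN]⟩

/-- the inclusion of `(E, eN)` -/
def sK : q.EK g ⟶ kO N E := ⟨q.eN g, by
  change q.eN g ≫ q.eN g ≫ 𝟙 _ = q.eN g
  rw [Category.comp_id, q.eN_eN]⟩

/-- the projection onto `(E, eN)` -/
def rK : kO N E ⟶ q.EK g := ⟨q.eN g, by
  change 𝟙 _ ≫ q.eN g ≫ q.eN g = q.eN g
  rw [Category.id_comp, q.eN_eN]⟩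

/-- the inclusion of `Z ⊗ S₁` -/
def sZ (D N Z S₁ : T) [MonObj D] [MonObj N] [IsCommMonObj N] :
    kO N Z ⊗ kO N S₁ ⟶ kO N (D ⊗ (Z ⊗ S₁)) := ⟨uN D N (Z ⊗ S₁), by
  change (𝟙 (FM.of Z : FM N) ⊗ₘ 𝟙 (FM.of S₁)) ≫ uN D N (Z ⊗ S₁) ≫ 𝟙 _ = uN D N (Z ⊗ S₁)
  rw [id_tensorHom_id, Category.comp_id]
  exact Category.id_comp _⟩

/-- the projection onto `Z ⊗ S₁` -/
def rZ (Z S₁ : T) : kO N (D ⊗ (Z ⊗ S₁)) ⟶ kO N Z ⊗ kO N S₁ := ⟨cN g (Z ⊗ S₁), by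
  change 𝟙 _ ≫ cN g (Z ⊗ S₁) ≫ (𝟙 (FM.of Z : FM N) ⊗ₘ 𝟙 (FM.of S₁)) = cN g (Z ⊗ S₁)
  rw [id_tensorHom_id, Category.id_comp]
  exact Category.comp_id _⟩

/-- the last map of the sequence -/
theorem kK_f : (q.vK g ▷ kO N S₁ ≫ (λ_ (kO N S₁)).hom).f = q.kN g := by
  rw [Karoubi.comp_f, Kar.whiskerRight_f, Kar.leftUnitor_hom_f]
  change (q.vN g ⊗ₘ 𝟙 (FM.of S₁ : FM N)) ≫ fr N (λ_ S₁).hom ≫ 𝟙 _ = q.kN g
  rw [Category.comp_id, tensorHom_id]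
  apply FM.hom_ext
  rw [comp_fr_hom, FM.whiskerRight_hom', vN, km_hom, kN, km_hom]
  simp

/-- the sequence is exact -/
theorem homExact_K : HomExact (q.vK g) (q.iK g) (q.dK g)
    (q.vK g ▷ kO N S₁ ≫ (λ_ (kO N S₁)).hom) := by
  refine (q.exact.free N).kar.retract ((toKaroubi (FM N)).map (uN D N Z))
    ((toKaroubi (FM N)).map (cN g Z)) ((toKaroubi (FM N)).map (u₁ D N))
    ((toKaroubi (FM N)).map (c₁ g)) (q.sK g) (q.rK g) (sZ D N Z S₁) (rZ g Z S₁)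
    ((toKaroubi (FM N)).map (uN D N S₁)) ?_ ?_ ?_ ?_ ?_ ?_ ?_ ?_ ?_ ?_ <;>
    apply Karoubi.hom_ext
  · exact u₁_c₁ g
  · exact q.eN_eN g
  · change uN D N (Z ⊗ S₁) ≫ cN g (Z ⊗ S₁) = 𝟙 (FM.of Z : FM N) ⊗ₘ 𝟙 (FM.of S₁)
    rw [uN_cN, id_tensorHom_id]
    rfl
  · exact q.f_r g
  · exact q.g_r g
  · exact (q.h_r g).trans (q.eN_dN g).symm
  · exact q.f_s g
  · exact (q.iN_eN g).trans q.g_s
  · exact q.h_s g
  · rw [Karoubi.comp_f, kK_f]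
    exact q.k_s g

/-- **The quotient of the unit by `v`** in the idempotent completion of the free `N`-modules. -/
theorem cof : Cof (q.vK g) (q.iK g) (q.dK g) := (q.homExact_K g).cof

end QIn

end main

end Vale.Agent.P251.X
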