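import Vale.Agent.P251.X.Defs

/-!
# P251, part X1c: the sequence of the quotient lemma in the category of free modules

For `q : QIn D E Z S₁` and a morphism of commutative monoids `g : D ⟶ N`:

* `HomExact.free` : `HomExact` is preserved by `FM.free N`;
* `HomExact.retract` : `HomExact` is inherited by retracts;
* `QIn.eN g : FM.of E ⟶ FM.of E` (the idempotent `ψ ≫ g ▷ E`), `QIn.vN`, `QIn.iN`, `QIn.dN`,
  `QIn.kN` and the retraction of `D ⊗ Z ⟶ D ⟶ E ⟶ D ⊗ (Z ⊗ S₁) ⟶ D ⊗ S₁` onto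
  `Z ⟶ 𝟙 ⟶ (E, eN) ⟶ Z ⊗ S₁ ⟶ S₁`.
-/

open CategoryTheory MonoidalCategory MonObj

set_option linter.unusedSectionVars false

universe v u

namespace Vale.Agent.P251.X

open Vale.Agent.P251.M Vale.Agent.P251.S

section general

variable {T : Type u} [Category.{v} T] [Preadditive T] [MonoidalCategory T]
  [MonoidalPreadditive T]

/-- `HomExact` is inherited by retracts. -/
theorem HomExact.retract {A B C A' B' : T} {f : A ⟶ B} {g : B ⟶ C} {h : C ⟶ A'} {k : A' ⟶ B'}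
    (H : HomExact f g h k) {A₁ B₁ C₁ A₁' B₁' : T} {f₁ : A₁ ⟶ B₁} {g₁ : B₁ ⟶ C₁} {h₁ : C₁ ⟶ A₁'}
    {k₁ : A₁' ⟶ B₁'} (sA : A₁ ⟶ A) (rA : A ⟶ A₁) (sB : B₁ ⟶ B) (rB : B ⟶ B₁) (sC : C₁ ⟶ C)
    (rC : C ⟶ C₁) (sA' : A₁' ⟶ A') (rA' : A' ⟶ A₁') (sB' : B₁' ⟶ B')
    (hB : sB ≫ rB = 𝟙 _) (hC : sC ≫ rC = 𝟙 _) (hA' : sA' ≫ rA' = 𝟙 _)
    (f_r : f ≫ rB = rA ≫ f₁) (g_r : g ≫ rC = rB ≫ g₁) (h_r : h ≫ rA' = rC ≫ h₁)
    (f_s : f₁ ≫ sB = sA ≫ f) (g_s : g₁ ≫ sC = sB ≫ g) (h_s : h₁ ≫ sA' = sC ≫ h)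
    (k_s : k₁ ≫ sB' = sA' ≫ k) : HomExact f₁ g₁ h₁ k₁ where
  zero := by
    have h1 : f₁ ≫ g₁ ≫ sC = 0 := by
      rw [g_s, reassoc_of% f_s, H.zero, Limits.comp_zero]
    have h2 := congrArg (· ≫ rC) h1
    simpa [hC] using h2
  ext X Y a ha := by
    obtain ⟨b, hb⟩ := H.ext X Y (rB ▷ X ≫ a) (by
      rw [← Category.assoc, ← comp_whiskerRight, f_r, comp_whiskerRight, Category.assoc, ha,
        Limits.comp_zero])
    refine ⟨sC ▷ X ≫ b, ?_⟩
    rw [← Category.assoc, ← comp_whiskerRight, g_s, comp_whiskerRight, Category.assoc, ← hb,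
      ← Category.assoc, ← comp_whiskerRight, hB, id_whiskerRight, Category.id_comp]
  fac X Y a ha := by
    obtain ⟨b, hb⟩ := H.fac X Y (rC ▷ X ≫ a) (by
      rw [← Category.assoc, ← comp_whiskerRight, g_r, comp_whiskerRight, Category.assoc, ha,
        Limits.comp_zero])
    refine ⟨sA' ▷ X ≫ b, ?_⟩
    rw [← Category.assoc, ← comp_whiskerRight, h_s, comp_whiskerRight, Category.assoc, ← hb,
      ← Category.assoc, ← comp_whiskerRight, hC, id_whiskerRight, Category.id_comp]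
  inj X Y a ha := by
    obtain ⟨b, hb⟩ := H.inj X Y (rA' ▷ X ≫ a) (by
      rw [← Category.assoc, ← comp_whiskerRight, h_r, comp_whiskerRight, Category.assoc, ha,
        Limits.comp_zero])
    refine ⟨sB' ▷ X ≫ b, ?_⟩
    rw [← Category.assoc, ← comp_whiskerRight, k_s, comp_whiskerRight, Category.assoc, ← hb,
      ← Category.assoc, ← comp_whiskerRight, hA', id_whiskerRight, Category.id_comp]

end general

section free

variable {T : Type u} [Category.{v} T] [Preadditive T] [MonoidalCategory T]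
  [MonoidalPreadditive T] [SymmetricCategory T]

theorem free_whiskerRight_comp_hom (N : T) [MonObj N] [IsCommMonObj N] {A B : T} (f : A ⟶ B)
    (X Y : FM N) (a : (FM.free N).obj B ⊗ X ⟶ Y) :
    FM.Hom.hom ((FM.free N).map f ▷ X ≫ a) = f ▷ X.obj ≫ FM.Hom.hom a := by
  have h : (FM.free N).map f ▷ X = (FM.free N).map (f ▷ X.obj) :=
    FM.free_whiskerRight (R := N) f X.obj
  rw [h]
  exact FM.free_map_comp_hom (R := N) (f ▷ X.obj) a

/-- `HomExact` is preserved by the free functor. -/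
theorem HomExact.free (N : T) [MonObj N] [IsCommMonObj N] {A B C A' B' : T} {f : A ⟶ B}
    {g : B ⟶ C} {h : C ⟶ A'} {k : A' ⟶ B'} (H : HomExact f g h k) :
    HomExact ((FM.free N).map f) ((FM.free N).map g) ((FM.free N).map h) ((FM.free N).map k) where
  zero := by rw [← Functor.map_comp, H.zero, Functor.map_zero]
  ext X Y a ha := by
    have h1 := congrArg FM.Hom.hom ha
    rw [free_whiskerRight_comp_hom] at h1
    obtain ⟨b, hb⟩ := H.ext X.obj (N ⊗ Y.obj) (FM.Hom.hom a) h1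
    refine ⟨⟨b⟩, ?_⟩
    apply FM.hom_ext
    rw [free_whiskerRight_comp_hom]
    exact hb
  fac X Y a ha := by
    have h1 := congrArg FM.Hom.hom ha
    rw [free_whiskerRight_comp_hom] at h1
    obtain ⟨b, hb⟩ := H.fac X.obj (N ⊗ Y.obj) (FM.Hom.hom a) h1
    refine ⟨⟨b⟩, ?_⟩
    apply FM.hom_ext
    rw [free_whiskerRight_comp_hom]
    exact hb
  inj X Y a ha := by
    have h1 := congrArg FM.Hom.hom ha
    rw [free_whiskerRight_comp_hom] at h1
    obtain ⟨b, hb⟩ := H.inj X.obj (N ⊗ Y.obj) (FM.Hom.hom a) h1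
    refine ⟨⟨b⟩, ?_⟩
    apply FM.hom_ext
    rw [free_whiskerRight_comp_hom]
    exact hb

end free

section maps

variable {T : Type u} [Category.{v} T] [Preadditive T] [MonoidalCategory T]
  [MonoidalPreadditive T] [SymmetricCategory T]
  {D E Z S₁ : T} [MonObj D] [IsCommMonObj D] (q : QIn D E Z S₁)
  {N : T} [MonObj N] [IsCommMonObj N] (g : D ⟶ N) [IsMonHom g]

/-- the free map on `FM.of` objects -/
def fr (N : T) [MonObj N] {X Y : T} (f : X ⟶ Y) : (FM.of X : FM N) ⟶ FM.of Y := ⟨f ≫ FM.unit N Y⟩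

omit [Preadditive T] [MonoidalPreadditive T] [IsCommMonObj N] in
theorem fr_hom {X Y : T} (f : X ⟶ Y) : FM.Hom.hom (fr N f) = f ≫ FM.unit N Y := rfl

omit [Preadditive T] [MonoidalPreadditive T] [IsCommMonObj N] in
theorem fr_comp_hom {X Y : T} (f : X ⟶ Y) {W : FM N} (h : (FM.of Y : FM N) ⟶ W) :
    FM.Hom.hom (fr N f ≫ h) = f ≫ FM.Hom.hom h := FM.free_map_comp_hom (R := N) f h

omit [Preadditive T] [MonoidalPreadditive T] [IsCommMonObj N] in
theorem comp_fr_hom {X Y : T} (f : X ⟶ Y) {W : FM N} (h : W ⟶ (FM.of X : FM N)) :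
    FM.Hom.hom (h ≫ fr N f) = FM.Hom.hom h ≫ N ◁ f := FM.comp_free_map_hom (R := N) h f

omit [Preadditive T] [MonoidalPreadditive T] [IsCommMonObj N] in
theorem fr_comp_fr {X Y W : T} (f : X ⟶ Y) (h : Y ⟶ W) : fr N f ≫ fr N h = fr N (f ≫ h) :=
  ((FM.free N).map_comp f h).symm

omit [Preadditive T] [MonoidalPreadditive T] [IsCommMonObj N] in
theorem fr_id (X : T) : fr N (𝟙 X) = 𝟙 _ := (FM.free N).map_id X

/-- the map of free modules given by `h : X ⟶ N ⊗ Y` -/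
def km {N X Y : T} [MonObj N] (h : X ⟶ N ⊗ Y) : (FM.of X : FM N) ⟶ FM.of Y := ⟨h⟩

omit [Preadditive T] [MonoidalPreadditive T] [SymmetricCategory T] [IsCommMonObj N] in
theorem km_hom {X Y : T} (h : X ⟶ N ⊗ Y) : FM.Hom.hom (km h) = h := rfl

omit [Preadditive T] [MonoidalPreadditive T] [SymmetricCategory T] [IsCommMonObj N] in
theorem km_comp_hom {X Y W : T} (h : X ⟶ N ⊗ Y) (k : (FM.of Y : FM N) ⟶ FM.of W) :
    FM.Hom.hom (km h ≫ k) = h ≫ FM.bind (FM.Hom.hom k) := rfl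

/-- the projection `D ⊗ X ⟶ X` of `N`-modules -/
def cN (X : T) : (FM.of (D ⊗ X) : FM N) ⟶ FM.of X := km (g ▷ X)

/-- the inclusion `X ⟶ D ⊗ X` of `N`-modules -/
def uN (D N : T) [MonObj D] [MonObj N] (X : T) : (FM.of X : FM N) ⟶ FM.of (D ⊗ X) :=
  fr N (FM.unit D X)

theorem uN_cN (X : T) : uN D N X ≫ cN g X = 𝟙 _ := by
  apply FM.hom_ext
  rw [uN, fr_comp_hom]
  exact FM.unit_push g X

/-- the projection `D ⟶ 𝟙` of `N`-modules -/
def c₁ : (FM.of D : FM N) ⟶ FM.of (𝟙_ T) := km (g ≫ (ρ_ N).inv)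

/-- the inclusion `𝟙 ⟶ D` of `N`-modules -/
def u₁ (D N : T) [MonObj D] [MonObj N] : (FM.of (𝟙_ T) : FM N) ⟶ (FM.of D : FM N) :=
  fr N η[D]

theorem u₁_c₁ : u₁ D N ≫ c₁ g = 𝟙 _ := by
  apply FM.hom_ext
  rw [u₁, fr_comp_hom]
  change η[D] ≫ g ≫ (ρ_ N).inv = (λ_ (𝟙_ T)).inv ≫ η[N] ▷ 𝟙_ T
  rw [reassoc_of% (IsMonHom.one_hom g), rightUnitor_inv_naturality, unitors_inv_equal]

namespace QIn

/-- the idempotent -/
def eN : (FM.of E : FM N) ⟶ FM.of E := km (q.ψ ≫ g ▷ E)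

/-- the element -/
def vN : (FM.of Z : FM N) ⟶ FM.of (𝟙_ T) := km (q.v ≫ g ≫ (ρ_ N).inv)

/-- the unit -/
def iN (N : T) [MonObj N] [IsCommMonObj N] : (FM.of (𝟙_ T) : FM N) ⟶ (FM.of E : FM N) :=
  fr N (η[D] ≫ q.i)

/-- the boundary -/
def dN : (FM.of E : FM N) ⟶ FM.of (Z ⊗ S₁) := km (q.δ ≫ g ▷ (Z ⊗ S₁))

/-- `v ⊗ S₁` -/
def kN : (FM.of (Z ⊗ S₁) : FM N) ⟶ FM.of S₁ := km ((q.v ≫ g) ▷ S₁)

theorem bind_ψ : FM.bind q.ψ = q.M.act ≫ q.ψ := q.ψ_lin.symm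

theorem bind_δ : FM.bind q.δ = q.M.act ≫ q.δ := q.δ_lin.symm

theorem eN_eN : q.eN g ≫ q.eN g = q.eN g := by
  apply FM.hom_ext
  rw [eN, km_comp_hom, km_hom, Category.assoc, ← FM.bind_push, q.bind_ψ,
    Category.assoc, reassoc_of% q.ψ_act]

theorem eN_dN : q.eN g ≫ q.dN g = q.dN g := by
  apply FM.hom_ext
  rw [eN, km_comp_hom, dN, km_hom, Category.assoc, ← FM.bind_push, q.bind_δ,
    Category.assoc, reassoc_of% q.ψ_act]

theorem one_i_ψ : (η[D] ≫ q.i) ≫ q.ψ = (η[D] ≫ q.i) ≫ FM.unit D E := by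
  rw [Category.assoc, q.i_ψ, FM.unit, rightUnitor_inv_naturality_assoc, ← whisker_exchange,
    MonoidalCategory.leftUnitor_inv_naturality_assoc (η[D] ≫ q.i), unitors_inv_equal]

theorem iN_eN : q.iN N ≫ q.eN g = q.iN N := by
  apply FM.hom_ext
  rw [iN, fr_comp_hom, eN, km_hom, fr_hom, ← Category.assoc, one_i_ψ, Category.assoc,
    FM.unit_push]

/-- the first square of the projection -/
theorem f_r : fr N (D ◁ q.v ≫ μ[D]) ≫ c₁ g = cN g Z ≫ q.vN g := by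
  apply FM.hom_ext
  rw [fr_comp_hom, cN, km_comp_hom, c₁, vN, km_hom, km_hom, FM.bind, Category.assoc,
    reassoc_of% (IsMonHom.mul_hom g), MonoidalCategory.whiskerLeft_comp,
    MonoidalCategory.whiskerLeft_comp, Category.assoc, Category.assoc]
  change _ = g ▷ Z ≫ N ◁ q.v ≫ N ◁ g ≫ N ◁ (ρ_ N).inv ≫ (α_ N N (𝟙_ T)).inv ≫ μ[N] ▷ 𝟙_ T
  simp only [tensorHom_def, Category.assoc, whisker_exchange_assoc]
  simp

/-- the second square of the projection -/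
theorem g_r : fr N q.i ≫ q.eN g = c₁ g ≫ q.iN N := by
  apply FM.hom_ext
  rw [fr_comp_hom, iN, comp_fr_hom, eN, c₁, km_hom, km_hom, reassoc_of% q.i_ψ, whisker_exchange,
    Category.assoc, rightUnitor_inv_naturality_assoc]

/-- the third square of the projection -/
theorem h_r : fr N q.δ ≫ cN g (Z ⊗ S₁) = q.dN g := by
  apply FM.hom_ext
  rw [fr_comp_hom]
  rfl

/-- the fourth square of the projection -/
theorem k_r : fr N (D ◁ (q.v ▷ S₁) ≫ (α_ D D S₁).inv ≫ μ[D] ▷ S₁) ≫ cN g S₁ =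
    cN g (Z ⊗ S₁) ≫ q.kN g := by
  apply FM.hom_ext
  rw [fr_comp_hom, cN, cN, km_comp_hom, kN, km_hom, km_hom, FM.bind, Category.assoc,
    Category.assoc, ← comp_whiskerRight, IsMonHom.mul_hom, tensorHom_def',
    comp_whiskerRight, comp_whiskerRight, comp_whiskerRight, MonoidalCategory.whiskerLeft_comp,
    Category.assoc, Category.assoc]
  rw [← associator_inv_naturality_middle_assoc, ← associator_inv_naturality_left_assoc,
    whisker_exchange_assoc, whisker_exchange_assoc]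

/-- the left and right unit agree on `v` over `N` -/
theorem inv_N : q.v ≫ g ≫ inlM N D = q.v ≫ inrM N D := by
  have h := congrArg (· ≫ g ▷ D) q.inv
  have h1 : inlM D D ≫ g ▷ D = g ≫ inlM N D := by
    rw [inlM, inlM, Category.assoc, whisker_exchange, rightUnitor_inv_naturality_assoc]
  have h2 : inrM D D ≫ g ▷ D = inrM N D := by
    rw [inrM, inrM, Category.assoc, ← comp_whiskerRight, IsMonHom.one_hom]
  simp only [Category.assoc, h1, h2] at h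
  exact h

/-- the first square of the inclusion -/
theorem f_s : q.vN g ≫ u₁ D N = uN D N Z ≫ fr N (D ◁ q.v ≫ μ[D]) := by
  apply FM.hom_ext
  rw [u₁, comp_fr_hom, uN, fr_comp_fr, fr_hom, vN, km_hom]
  have h1 : FM.unit D Z ≫ D ◁ q.v ≫ μ[D] = q.v := by
    rw [← reassoc_of% (FM.unit_naturality (R := D) q.v), FM.unit, Category.assoc, MonObj.one_mul]
    simp
  rw [h1]
  have h2 := q.inv_N g
  rw [inlM, inrM] at h2
  rw [Category.assoc, Category.assoc, h2]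
  rfl

/-- the second square of the inclusion -/
theorem g_s : q.iN N = u₁ D N ≫ fr N q.i := by
  rw [u₁, fr_comp_fr]
  rfl

/-- the third square of the inclusion -/
theorem h_s : q.dN g ≫ uN D N (Z ⊗ S₁) = q.eN g ≫ fr N q.δ := by
  apply FM.hom_ext
  rw [uN, comp_fr_hom, comp_fr_hom, dN, eN, km_hom, km_hom, Category.assoc, Category.assoc,
    ← whisker_exchange, ← whisker_exchange, reassoc_of% q.ψ_δ]

/-- the fourth square of the inclusion -/
theorem k_s : q.kN g ≫ uN D N S₁ =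
    uN D N (Z ⊗ S₁) ≫ fr N (D ◁ (q.v ▷ S₁) ≫ (α_ D D S₁).inv ≫ μ[D] ▷ S₁) := by
  apply FM.hom_ext
  rw [uN, comp_fr_hom, uN, fr_comp_fr, kN, km_hom, fr_hom]
  have h1 : FM.unit D (Z ⊗ S₁) ≫ D ◁ (q.v ▷ S₁) ≫ (α_ D D S₁).inv ≫ μ[D] ▷ S₁ = q.v ▷ S₁ :=
    FM.unit_bind (R := D) (q.v ▷ S₁)
  rw [h1]
  have h2 : (q.v ≫ g) ▷ S₁ ≫ N ◁ FM.unit D S₁ =
      (q.v ≫ g ≫ inlM N D) ▷ S₁ ≫ (α_ N D S₁).hom := by
    rw [FM.unit, inlM]
    simp only [comp_whiskerRight, MonoidalCategory.whiskerLeft_comp, Category.assoc]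
    rw [associator_naturality_middle]
    simp
  have h3 : (q.v ≫ inrM N D) ▷ S₁ ≫ (α_ N D S₁).hom = q.v ▷ S₁ ≫ FM.unit N (D ⊗ S₁) := by
    rw [FM.unit, inrM]
    simp
  rw [h2, q.inv_N g, h3]

/-- the formula for `kN` -/
theorem kN_hom : (q.v ≫ g) ▷ S₁ =
    ((q.v ≫ g ≫ (ρ_ N).inv) ▷ S₁ ≫ (α_ N (𝟙_ T) S₁).hom) ≫ N ◁ (λ_ S₁).hom := by
  simp

end QIn

end maps

end Vale.Agent.P251.X
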