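import Vale.Agent.P251.X.LinFM

/-!
# P251, part X1d: from products in the category of free modules to products in `T`

`QIn.Mul q` : a commutative and associative product on `(E, eN)` in the category of free
`D`-modules (idempotent completed); it gives a commutative monoid structure on `E` in `T`.
-/

open CategoryTheory MonoidalCategory MonObj

set_option linter.unusedSectionVars false

universe v u

namespace Vale.Agent.P251.X

open Vale.Agent.P251.M Vale.Agent.P251.S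

variable {T : Type u} [Category.{v} T] [Preadditive T] [MonoidalCategory T]
  [MonoidalPreadditive T] [SymmetricCategory T]
  {D E Z S₁ : T} [MonObj D] [IsCommMonObj D]

theorem fr_tensorHom (N : T) [MonObj N] [IsCommMonObj N] {X Y X' Y' : T} (f : X ⟶ X')
    (g : Y ⟶ Y') :
    (fr N f ⊗ₘ fr N g : (FM.of X : FM N) ⊗ FM.of Y ⟶ _) = fr N (f ⊗ₘ g) :=
  FM.free_tensorHom (R := N) f g

theorem fr_whiskerRight (N : T) [MonObj N] [IsCommMonObj N] {X Y : T} (f : X ⟶ Y) (W : T) :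
    (fr N f ▷ (FM.of W : FM N) : (FM.of X : FM N) ⊗ FM.of W ⟶ _) = fr N (f ▷ W) :=
  FM.free_whiskerRight (R := N) f W

theorem fr_whiskerLeft (N : T) [MonObj N] [IsCommMonObj N] {X Y : T} (f : X ⟶ Y) (W : T) :
    ((FM.of W : FM N) ◁ fr N f : (FM.of W : FM N) ⊗ FM.of X ⟶ _) = fr N (W ◁ f) :=
  FM.free_whiskerLeft (R := N) W f

/-- A commutative and associative product on `(E, eN)` in the category of free `D`-modules. -/
structure QIn.Mul (q : QIn D E Z S₁) where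
  /-- the product -/
  m : (FM.of E : FM D) ⊗ FM.of E ⟶ FM.of E
  m_e : m ≫ q.eN (𝟙 D) = m
  e_m : (q.eN (𝟙 D) ⊗ₘ q.eN (𝟙 D)) ≫ m = m
  one_mul : q.iN D ▷ (FM.of E : FM D) ≫ m = (λ_ (FM.of E : FM D)).hom ≫ q.eN (𝟙 D)
  mul_one : (FM.of E : FM D) ◁ q.iN D ≫ m = (ρ_ (FM.of E : FM D)).hom ≫ q.eN (𝟙 D)
  comm : (β_ (FM.of E : FM D) (FM.of E)).hom ≫ m = m
  assoc : m ▷ (FM.of E : FM D) ≫ m =
    (α_ (FM.of E : FM D) (FM.of E) (FM.of E)).hom ≫ (FM.of E : FM D) ◁ m ≫ m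

namespace QIn

variable (q : QIn D E Z S₁)

theorem hom_eN_act {X : T} (f : (FM.of X : FM D) ⟶ FM.of E) :
    FM.Hom.hom (f ≫ q.eN (𝟙 D)) ≫ q.M.act = FM.Hom.hom f ≫ q.M.act := by
  rw [FM.comp_hom, eN, km_hom, id_whiskerRight, Category.comp_id, q.bind_ψ, Category.assoc,
    Category.assoc, q.ψ_act, Category.comp_id]

theorem fr_eN_act {X : T} (f : X ⟶ E) :
    FM.Hom.hom (fr D f ≫ q.eN (𝟙 D)) ≫ q.M.act = f := by
  rw [fr_comp_hom, eN, km_hom, id_whiskerRight, Category.comp_id, Category.assoc, q.ψ_act,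
    Category.comp_id]

theorem fr_eN_inj {X : T} {f g : X ⟶ E} (h : fr D f ≫ q.eN (𝟙 D) = fr D g ≫ q.eN (𝟙 D)) :
    f = g := by
  rw [← q.fr_eN_act f, h, q.fr_eN_act]

/-- maps to `(E, eN)` -/
theorem eq_fr {X : T} (f : (FM.of X : FM D) ⟶ FM.of E) (h : f ≫ q.eN (𝟙 D) = f) :
    f = fr D (FM.Hom.hom f ≫ q.M.act) ≫ q.eN (𝟙 D) := by
  apply FM.hom_ext
  conv_lhs => rw [← h]
  rw [fr_comp_hom, FM.comp_hom, eN, km_hom, id_whiskerRight, Category.comp_id, q.bind_ψ,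
    Category.assoc]

namespace Mul

variable {q} (h : q.Mul)

/-- the product of `E` -/
def mulT : E ⊗ E ⟶ E := FM.Hom.hom h.m ≫ q.M.act

/-- the unit of `E` -/
def oneT (_ : q.Mul) : 𝟙_ T ⟶ E := η[D] ≫ q.i

theorem m_eq : h.m = fr D h.mulT ≫ q.eN (𝟙 D) := q.eq_fr h.m h.m_e

theorem eR_m : q.eN (𝟙 D) ▷ (FM.of E : FM D) ≫ h.m = h.m := by
  have h1 := h.e_m
  rw [← h1, tensorHom_def, Category.assoc, ← comp_whiskerRight_assoc, q.eN_eN]

theorem eL_m : (FM.of E : FM D) ◁ q.eN (𝟙 D) ≫ h.m = h.m := by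
  have h1 := h.e_m
  rw [← h1, tensorHom_def', Category.assoc, ← whiskerLeft_comp_assoc, q.eN_eN]

theorem whiskerRight_m {X : T} (f : X ⟶ E) :
    fr D f ▷ (FM.of E : FM D) ≫ h.m = fr D (f ▷ E ≫ h.mulT) ≫ q.eN (𝟙 D) := by
  rw [fr_whiskerRight, h.m_eq, ← Category.assoc, fr_comp_fr]

theorem whiskerLeft_m {X : T} (f : X ⟶ E) :
    (FM.of E : FM D) ◁ fr D f ≫ h.m = fr D (E ◁ f ≫ h.mulT) ≫ q.eN (𝟙 D) := by
  rw [fr_whiskerLeft, h.m_eq, ← Category.assoc, fr_comp_fr]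

theorem oneT_mul : h.oneT ▷ E ≫ h.mulT = (λ_ E).hom := by
  apply q.fr_eN_inj
  rw [← whiskerRight_m]
  exact h.one_mul

theorem mul_oneT : E ◁ h.oneT ≫ h.mulT = (ρ_ E).hom := by
  apply q.fr_eN_inj
  rw [← whiskerLeft_m]
  exact h.mul_one

theorem commT : (β_ E E).hom ≫ h.mulT = h.mulT := by
  apply q.fr_eN_inj
  rw [← h.m_eq, ← fr_comp_fr, Category.assoc, ← h.m_eq]
  exact h.comm

theorem assocT : h.mulT ▷ E ≫ h.mulT = (α_ E E E).hom ≫ E ◁ h.mulT ≫ h.mulT := by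
  apply q.fr_eN_inj
  rw [← fr_comp_fr (α_ E E E).hom, Category.assoc, ← whiskerRight_m, ← whiskerLeft_m]
  have h1 := h.assoc
  rw [h.m_eq] at h1
  rw [comp_whiskerRight, MonoidalCategory.whiskerLeft_comp, Category.assoc, Category.assoc,
    ← h.m_eq, eR_m, eL_m] at h1
  exact h1

/-- the monoid structure on `E` -/
@[reducible] def mon : MonObj E where
  one := h.oneT
  mul := h.mulT
  one_mul := h.oneT_mul
  mul_one := h.mul_oneT
  mul_assoc := h.assocT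

theorem comm_mon : letI := h.mon; IsCommMonObj E :=
  letI := h.mon
  { mul_comm := h.commT }

theorem c₁_lam : FM.Hom.hom ((c₁ (𝟙 D)) ▷ (FM.of E : FM D) ≫ (λ_ (FM.of E : FM D)).hom) =
    𝟙 (D ⊗ E) := by
  have h1 : (λ_ (FM.of E : FM D)).hom = fr D (λ_ E).hom := rfl
  rw [h1, comp_fr_hom, FM.whiskerRight_hom', c₁, km_hom, Category.id_comp]
  simp

/-- the action is given by the product -/
theorem act_eq : q.M.act = q.i ▷ E ≫ h.mulT := by
  have h1 : fr D q.i ▷ (FM.of E : FM D) ≫ h.m =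
      (c₁ (𝟙 D)) ▷ (FM.of E : FM D) ≫ (λ_ (FM.of E : FM D)).hom ≫ q.eN (𝟙 D) := by
    rw [← h.one_mul, ← comp_whiskerRight_assoc, ← q.g_r (𝟙 D), comp_whiskerRight, Category.assoc,
      eR_m]
  rw [whiskerRight_m] at h1
  have h2 := congrArg (fun x => FM.Hom.hom x ≫ q.M.act) h1
  dsimp only at h2
  rw [q.fr_eN_act, ← Category.assoc ((c₁ (𝟙 D)) ▷ (FM.of E : FM D)), q.hom_eN_act, c₁_lam] at h2
  rw [h2]
  exact (Category.id_comp _).symm

/-- `i` is a morphism of monoids. -/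
theorem isMonHom_i : letI := h.mon; IsMonHom q.i :=
  letI := h.mon
  { one_hom := rfl
    mul_hom := by
      change μ[D] ≫ q.i = (q.i ⊗ₘ q.i) ≫ h.mulT
      rw [tensorHom_def', Category.assoc, ← h.act_eq]
      exact q.i_lin }

/-- Uniqueness of morphisms out of `E`. -/
theorem uniq (N : T) (f f' : E ⟶ N) [MonObj N]
    (hf : letI := h.mon; IsMonHom f) (hf' : letI := h.mon; IsMonHom f')
    (hi : q.i ≫ f = q.i ≫ f') (h1 : ∀ f : Z ⊗ S₁ ⟶ N, f = 0) : f = f' := by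
  have lin (f : E ⟶ N) (hf : letI := h.mon; IsMonHom f) :
      q.M.act ≫ f = D ◁ f ≫ (q.i ≫ f) ▷ N ≫ μ[N] := by
    have h3 : h.mulT ≫ f = (f ⊗ₘ f) ≫ μ[N] := hf.mul_hom
    rw [h.act_eq, Category.assoc, h3, comp_whiskerRight, tensorHom_def', Category.assoc,
      Category.assoc, ← whisker_exchange_assoc]
  have hl := lin f hf
  have hl' := lin f' hf'
  rw [← hi] at hl'
  set d : E ⟶ N := f - f' with hd
  have hd1 : q.M.act ≫ d = D ◁ d ≫ (q.i ≫ f) ▷ N ≫ μ[N] := by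
    have e : D ◁ (f - f') = D ◁ f - D ◁ f' := (tensorLeft D).map_sub
    rw [hd, Preadditive.comp_sub, hl, hl', e, Preadditive.sub_comp]
  obtain ⟨b, hb⟩ := q.exact.fac (𝟙_ T) N ((ρ_ E).hom ≫ d) (by
    rw [rightUnitor_naturality_assoc, hd, Preadditive.comp_sub, hi, sub_self, Limits.comp_zero])
  have hb1 : d = q.δ ≫ (ρ_ _).inv ≫ b := by
    rw [← cancel_epi (ρ_ E).hom, hb, ← rightUnitor_naturality_assoc, Iso.hom_inv_id_assoc]
  have hz : FM.unit D (Z ⊗ S₁) ≫ (ρ_ _).inv ≫ b = 0 := h1 _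
  have hd0 : d = 0 := by
    rw [← Category.id_comp d, ← q.ψ_act, Category.assoc, hd1, hb1,
      MonoidalCategory.whiskerLeft_comp, Category.assoc, reassoc_of% q.ψ_δ,
      ← whiskerLeft_comp_assoc, hz, MonoidalPreadditive.whiskerLeft_zero, Limits.zero_comp,
      Limits.comp_zero]
  exact sub_eq_zero.1 hd0

end Mul

end QIn

end Vale.Agent.P251.X
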