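import Vale.Agent.P251.X.OrMU
import Vale.Agent.P251.X.Defs
import Vale.Agent.P251.Z.KRing

/-!
# P251, part X: from `KD D p n` to `Z.IsMorava F p n K`

`KD.isMorava` : for `D = M.data b`, the monoid `k.K` of `k : KD D p n` is a Morava `K`-theory.
-/

open CategoryTheory MonoidalCategory Limits Pretriangulated MonObj

set_option linter.unusedSectionVars false

universe v u

noncomputable section

namespace Vale.Agent.P251.X

open Vale.Agent.P251.G Vale.Agent.P251.G.LC Vale.Agent.P251.I Vale.Agent.P251.T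
  Vale.Agent.P251.M Vale.Agent.P251.M.EvenSpheres Vale.Agent.P251.Z Vale.Agent.P251.F

section inv

variable {T : Type u} [Category.{v} T] [MonoidalCategory T] [SymmetricCategory T]
  {E : EvenSpheres T} [Preadditive T] [MonoidalPreadditive T] {K : T} [MonObj K] [IsCommMonObj K]

theorem cmp_mul_of {m : ℤ} (b : E.S m ⟶ K) (y : HRing E K) :
    IsLaurent.cmp E K 0 (y * HRing.of E K m b) =
      IsLaurent.cmp E K (-m) y * HRing.of E K m b := by
  induction y using DirectSum.induction_on with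
  | zero => simp
  | of k a =>
    change IsLaurent.cmp E K 0 (HRing.of E K k a * HRing.of E K m b) =
      IsLaurent.cmp E K (-m) (HRing.of E K k a) * HRing.of E K m b
    by_cases h : k = -m
    · subst h
      rw [of_mul_of (neg_add_cancel m), IsLaurent.cmp_of_same, IsLaurent.cmp_of_same,
        of_mul_of (neg_add_cancel m)]
    · rw [of_mul_of (p := k + m) rfl, IsLaurent.cmp_of_ne _ _ h, zero_mul,
        IsLaurent.cmp_of_ne]
      intro h2
      exact h (by omega)
  | add x y hx hy => rw [_root_.add_mul, map_add, map_add, hx, hy, _root_.add_mul]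

/-- A homogeneous unit has a homogeneous inverse. -/
theorem exists_gmul_inv {m : ℤ} (b : E.S m ⟶ K) (h : ∃ y, y * HRing.of E K m b = 1) :
    ∃ a : E.S (-m) ⟶ K, gmul (neg_add_cancel m) a b = E.zero.inv ≫ η[K] := by
  obtain ⟨y, hy⟩ := h
  refine ⟨y (-m), ?_⟩
  have h1 := cmp_mul_of b y
  rw [hy] at h1
  have h2 : IsLaurent.cmp E K 0 (1 : HRing E K) = HRing.of E K 0 (E.zero.inv ≫ η[K]) :=
    IsLaurent.cmp_of_same (E := E) (K := K) 0 (E.zero.inv ≫ η[K])
  have h3 : IsLaurent.cmp E K (-m) y = HRing.of E K (-m) (y (-m)) := rfl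
  rw [h2, h3, of_mul_of (neg_add_cancel m)] at h1
  exact (DirectSum.of_injective (β := E.Gr K) 0 h1).symm

end inv

variable {T : Type u} [Category.{v} T] [Preadditive T] [HasZeroObject T]
    [HasShift T ℤ] [∀ n : ℤ, (shiftFunctor T n).Additive] [Pretriangulated T] [IsTriangulated T]
    [MonoidalCategory T] [SymmetricCategory T] [TensorTriangulated T] [MonoidalClosed T]
    [HasCoproducts.{0} T] [HasProducts.{0} T] [StableCat T]
  {F : SpaceFunctor T} {e : F.S.obj CCF ≅ (stdEven T).L}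

/-- **`KD` gives Morava `K`-theories.** -/
theorem KD.isMorava (M : MUMon F (stdEven T) e) (c : MUBasis M.V) {p n : ℕ} [Fact p.Prime]
    (hn : n ≠ 0) (k : KD (M.data c) p n) : IsMorava F p n k.K := by
  obtain ⟨N, hN⟩ : ∃ N, N + 1 = p ^ n :=
    ⟨p ^ n - 1, Nat.sub_add_cancel (Nat.one_le_pow _ _ (Fact.out : p.Prime).pos)⟩
  have hN' : ((p : ℤ) ^ n - 1) = N := by
    have : (N : ℤ) + 1 = (p : ℤ) ^ n := by exact_mod_cast hN
    linarith
  let φ : M.R ⟶ k.K := k.φ
  have hφ : IsMonHom φ := k.hom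
  have hlaw : lawOf k.φ = (M.orient.law.map (coefK e M.R)).map (HRing.map φ) := by
    unfold lawOf
    rw [M.data_law c]
    rfl
  have h1 : vv p n (lawOf k.φ) = HRing.of (stdEven T) k.K N
      (((stdEven T).castIso N ((p : ℤ) ^ n - 1) hN'.symm).hom ≫ (M.data c).vel p n ≫ k.φ) := by
    unfold lawOf
    rw [vv_map, (M.data c).vel_spec, HRing.map_of, of_cast]
  obtain ⟨y, hy⟩ := k.vv_unit.exists_left_inv
  rw [h1] at hy
  obtain ⟨a, ha⟩ := exists_gmul_inv _ ⟨y, hy⟩
  refine isMorava_of_hom M φ hn hN _ a ha (fun i hi => ?_) ?_ (fun j hj f => ?_)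
    k.char k.ne k.gen
  · rw [← vv_map, ← hlaw]
    exact k.vv_lt i hi
  · rw [← vv_map, ← hlaw, h1]
  · rcases Int.even_or_odd' j with ⟨m, rfl | rfl⟩
    · rw [← cancel_epi ((stdEven T).sphIso (Iso.refl _) m).hom, comp_zero]
      refine k.sparse m (fun hd => hj ?_) _
      exact mul_dvd_mul_left 2 hd
    · exact k.odd m f

end Vale.Agent.P251.X
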