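import Vale.Agent.P251.Z.OrFam
import Vale.Agent.P251.M.Kleisli
import Vale.Agent.P251.F.Height

/-!
# P251, part X: orientations in the sense of `Z.Oriented` from multiplicative Thom classes

* `oriOf e W : Z.Oriented F K` from `W : ThomFam (RSys K E) F (lineCls e (SeqMonoid.const K))`;
* `isFam_oriOf : Z.IsFam (Z.sphId e) (oriOf e W) W`;
* `exists_height` : the height condition of `Z.IsMoravaPos`, from the formal group law.
-/

open CategoryTheory MonoidalCategory Limits Pretriangulated MonObj Matrix OnePoint Topology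

set_option linter.unusedSectionVars false

universe v u

noncomputable section

namespace Vale.Agent.P251.X

open Vale.Agent.P251.G Vale.Agent.P251.G.LC Vale.Agent.P251.I Vale.Agent.P251.T
  Vale.Agent.P251.M Vale.Agent.P251.Z

variable {T : Type u} [Category.{v} T] [Preadditive T] [HasZeroObject T]
    [HasShift T ℤ] [∀ n : ℤ, (shiftFunctor T n).Additive] [Pretriangulated T]
    [MonoidalCategory T] [SymmetricCategory T] [TensorTriangulated T]
  {F : SpaceFunctor T} {E : EvenSpheres T} (e : F.S.obj CCF ≅ E.L)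

theorem sph_sg (n : ℕ) : sph e n ≫ sg e n = fibT F n := by
  unfold sph
  rw [Category.assoc, IsIso.inv_hom_id, Category.comp_id]

theorem lineT_sg : lineT F = (e.hom ≫ E.oneIso.inv) ≫ sg e 1 := by
  rw [Category.assoc, sg_one, Iso.hom_inv_id_assoc]

variable {K : T} [MonObj K] [IsCommMonObj K]

section wE

variable {s : F.S.obj CCF ⟶ (RSys K E).obj 0 1} (W : ThomFam (RSys K E) F s)

/-- the Thom classes as morphisms -/
def wE (n : ℕ) (I : Type) [Fintype I] : TO F.S n I ⟶ K ⊗ E.S n := hq K E n _ (W.wC n I)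

theorem wE_eq (n : ℕ) (I : Type) [Fintype I] [DecidableEq I] :
    wE W n I = hq K E n _ (W.wI n I) := by
  unfold wE
  rw [W.wC_eq]

theorem map_wE {n : ℕ} {I J : Type} [Fintype I] [Fintype J] [DecidableEq I] [DecidableEq J]
    (u : Matrix J I ℂ) (hu : uᴴ * u = 1) : TO.map F.S n u hu ≫ wE W n J = wE W n I := by
  rw [wE_eq, wE_eq, ← hq_pull, W.pull_map_wI u hu (card_le_of_isom hu)]

theorem sum_wE {n m : ℕ} {I J : Type} [Fintype I] [Fintype J] [DecidableEq I] [DecidableEq J]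
    (h : (n : ℤ) + m = ((n + m : ℕ) : ℤ)) :
    TO.sum F.S rfl ≫ wE W (n + m) (I ⊕ J) = (wE W n I ⊗ₘ wE W m J) ≫
      tensorμ K (E.S n) K (E.S m) ≫ (μ[K] ⊗ₘ (E.mu n m (n + m : ℕ) h).hom) := by
  rw [wE_eq, wE_eq, wE_eq, ← hq_pull, W.pull_sum_wI rfl h, hq_xprod]

theorem mul_wE {n m : ℕ} (h' : Fintype.card (Fin n) + Fintype.card (Fin m) ≤
      Fintype.card (Fin (n + m))) (h : (n : ℤ) + m = ((n + m : ℕ) : ℤ)) :
    TO.mul F.S (K := Fin (n + m)) rfl h' ≫ wE W (n + m) (Fin (n + m)) =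
      (wE W n (Fin n) ⊗ₘ wE W m (Fin m)) ≫
      tensorμ K (E.S n) K (E.S m) ≫ (μ[K] ⊗ₘ (E.mu n m (n + m : ℕ) h).hom) := by
  rw [wE_eq, wE_eq, wE_eq, ← hq_pull, W.pull_mul_wI rfl h' h, hq_xprod]

end wE

variable (W : ThomFam (RSys K E) F (lineCls e (SeqMonoid.const K)))

theorem line_wE : lineT F ≫ wE W 1 (Fin 1) =
    (e.hom ≫ E.oneIso.inv) ≫ (λ_ (E.S 1)).inv ≫ (η[K] ▷ E.S 1) := by
  rw [← lineTh_map, Category.assoc, map_wE, wE_eq]
  have h := hq_pull (F.S.map (FCat.hom (X := CCF) (Y := ThF 1 Unit) lineTh)) (W.wI 1 Unit)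
  refine h.symm.trans ?_
  exact congrArg (hq K E 1 _) W.pull_line_wI

/-- the restriction of the Thom class to the fibre -/
theorem sg_wE : ∀ n : ℕ, sg e n ≫ wE W n (Fin n) = (λ_ (E.S n)).inv ≫ (η[K] ▷ E.S n)
  | 0 => by
    have h : TO.unit F.S (Fin 0) ≫ wE W 0 (Fin 0) =
        (λ_ (𝟙_ T)).inv ≫ (η[K] ⊗ₘ 𝟙 (𝟙_ T)) := by
      rw [wE_eq]
      have h := hq_pull (TO.unit F.S (Fin 0)) (W.wI 0 (Fin 0))
      refine h.symm.trans ?_
      exact congrArg (hq K E 0 _) W.pull_unit_wI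
    rw [tensorHom_id] at h
    exact h
  | 1 => by
    have h := line_wE e W
    rw [lineT_sg e, Category.assoc, cancel_epi] at h
    exact h
  | n + 2 => by
    have h1 := sg_wE (n + 1)
    have h2 := sg_wE 1
    have hc : (((n + 1 : ℕ) : ℤ)) + ((1 : ℕ) : ℤ) = ((n + 1 + 1 : ℕ) : ℤ) := by push_cast; ring
    have h3 := sg_mul e (n + 1) 1 (by simp) hc
    have h4 := mul_wE W (n := n + 1) (m := 1) (by simp) hc
    change sg e (n + 1 + 1) ≫ wE W (n + 1 + 1) (Fin (n + 1 + 1)) = (λ_ (E.S (n + 1 + 1 : ℕ))).inv ≫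
      (η[K] ▷ E.S (n + 1 + 1 : ℕ))
    rw [← cancel_epi (E.mu (n + 1 : ℕ) (1 : ℕ) (n + 1 + 1 : ℕ) hc).hom, ← Category.assoc, ← h3,
      Category.assoc, h4, tensorHom_comp_tensorHom_assoc, h1, h2,
      leftUnitor_inv_naturality_assoc, whisker_exchange]
    have h5 := FM.unit_ten (R := K) (E.S (n + 1 : ℕ)) (E.S (1 : ℕ))
    have h6 : ((((λ_ (E.S (n + 1 : ℕ))).inv ≫ (η[K] ▷ E.S (n + 1 : ℕ))) ⊗ₘ
        ((λ_ (E.S (1 : ℕ))).inv ≫ (η[K] ▷ E.S (1 : ℕ)))) ≫
        tensorμ K (E.S (n + 1 : ℕ)) K (E.S (1 : ℕ)) ≫ μ[K] ▷ (E.S (n + 1 : ℕ) ⊗ E.S (1 : ℕ))) =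
        (λ_ _).inv ≫ (η[K] ▷ (E.S (n + 1 : ℕ) ⊗ E.S (1 : ℕ))) := h5
    rw [tensorHom_def μ[K]]
    have h7 := congrArg (fun z => z ≫ K ◁ (E.mu (n + 1 : ℕ) (1 : ℕ) (n + 1 + 1 : ℕ) hc).hom) h6
    simp only [Category.assoc] at h7
    exact h7

theorem fibT_wE (n : ℕ) : fibT F n ≫ wE W n (Fin n) =
    sph e n ≫ (λ_ (E.S n)).inv ≫ (η[K] ▷ E.S n) := by
  rw [← sph_sg e, Category.assoc, sg_wE]

/-- The orientation defined by a multiplicative family of Thom classes. -/
def oriOf : Oriented F K where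
  θ n A _ := wE W n A ≫ K ◁ inv (sph e n)
  isom {n A B _ _ _} u hu f hf := by
    classical
    have h1 : f = Th.map u hu := eq_map_of_isIsomMap u hu f hf
    subst h1
    rw [← Category.assoc]
    congr 1
    exact map_wE W u hu
  sum {n m A B _ _} f hf g hg := by
    classical
    have h1 : f = Th.sum rfl := eq_sum_of_isSumMap rfl f fun x y => hf (x, y)
    subst h1
    have hc : (n : ℤ) + m = ((n + m : ℕ) : ℤ) := by push_cast; rfl
    have h2 := sum_wE W (I := A) (J := B) hc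
    have h3 : (SCadd F g).hom ≫ sph e (n + m) =
        (sph e n ⊗ₘ sph e m) ≫ (E.mu n m (n + m : ℕ) hc).hom := (sphId e).add n m g hg hc
    have h4 : (SCadd F g).hom = (sph e n ⊗ₘ sph e m) ≫ (E.mu n m (n + m : ℕ) hc).hom ≫
        inv (sph e (n + m)) := by
      rw [← reassoc_of% h3, IsIso.hom_inv_id, Category.comp_id]
    have h5 : sus F (X := thF n A ⊗ thF m B) (Y := thF (n + m) (A ⊕ B)) (Th.sum rfl) =
        (Functor.Monoidal.μIso F.S (thF n A) (thF m B)).inv ≫ TO.sum F.S rfl := by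
      rw [Iso.eq_inv_comp]
      rfl
    rw [h5, Category.assoc, reassoc_of% h2, h4, ← tensorHom_comp_tensorHom (wE W n A),
      Category.assoc, ← id_tensorHom K (inv (sph e n)), ← id_tensorHom K (inv (sph e m)),
      tensorμ_natural_assoc, tensorHom_comp_tensorHom, ← id_tensorHom, tensorHom_comp_tensorHom,
      tensorHom_comp_tensorHom_assoc]
    simp
  fibre n f hf := by
    have h1 : f = fib n := by
      apply LC.hom_ext
      intro x
      obtain ⟨y, hy, h1, h2⟩ := hf x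
      rw [hy, Th.app_incl'_coe]
      congr 1
      exact Th.ext h1 h2
    subst h1
    rw [← Category.assoc]
    have h2 : sus F (X := cnF n) (Y := thF n (Fin n)) (fib n) ≫ wE W n (Fin n) =
      sph e n ≫ (λ_ (E.S n)).inv ≫ (η[K] ▷ E.S n) := fibT_wE e W n
    rw [h2, Category.assoc, Category.assoc, ← whisker_exchange,
      ← leftUnitor_inv_naturality_assoc, IsIso.hom_inv_id_assoc]

theorem isFam_oriOf : IsFam (sphId e) (oriOf e W) W := fun n N => by
  have h1 : hq K E n _ (W.w n N) = wE W n (Fin N) := by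
    rw [wE_eq, ← W.wI_eq (N := N) (le_refl _), TO.j_refl, MSys.pull_id]
  rw [h1]
  change _ = (wE W n (Fin N) ≫ K ◁ inv (sph e n)) ≫ K ◁ sph e n
  simp

end Vale.Agent.P251.X

namespace Vale.Agent.P251.Q

open MultTheory Vale.Agent.P217 Vale.Agent.P251.F Vale.Agent.P251.G Vale.Agent.P251.G.LC

/-- Converse of `coeff_multSeries_of_rel`: if `[m](x) = a x^{N+1}` modulo `x^{N+2}`, then the Euler
class of the `m`-th tensor power of the tautological line bundle on `ℂP^{N+1}` is `a` times the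
Euler class of `N + 1` copies of it. -/
theorem rel_of_coeff_multSeries {E : MultTheory.{v}} (o : Orientation E) (m N : ℕ) (a : E.A)
    (t : CP (Fin (N + 2)) ⟶ LC.of (Th 1 (Fin m → Fin (N + 2))))
    (ht : IsPairMap (X := CP (Fin (N + 2))) (fun x : Gr 1 (Fin (N + 2)) => tpow m x.P)
      (fun _ => 0) t)
    (e : CP (Fin (N + 2)) ⟶ LC.of (Th (N + 1) (Fin (N + 1) × Fin (N + 2))))
    (he : IsPairMap (X := CP (Fin (N + 2)))
      (fun x i j => if i.1 = j.1 then Gr.P (x : Gr 1 (Fin (N + 2))) i.2 j.2 else 0)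
      (fun _ => 0) e)
    (h0 : ∀ l ≤ N, PowerSeries.coeff l (multSeries o.law.toFG m) = 0)
    (h1 : PowerSeries.coeff (N + 1) (multSeries o.law.toFG m) = a) :
    haveI := o.goodGr
    E.map t (o.tau 1 (Fin m → Fin (N + 2))) =
      a • E.map e (o.tau (N + 1) (Fin (N + 1) × Fin (N + 2))) := by
  have := o.goodGr
  have : E.Good (CP (Fin (N + 2))) := ⟨MultTheory.GoodGr.gr 1 _⟩
  rw [map_tensorPower o m t ht, lc_tpow, lc_id, map_multiple o N e he,
    nev1_eq_sum (z_pow_eq_zero o (N + 2) (Fin (N + 2)) (by simp)), Finset.sum_range_succ, h1,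
    Finset.sum_eq_zero, zero_add]
  intro i hi
  rw [h0 i (by have := Finset.mem_range.1 hi; omega), zero_smul]

end Vale.Agent.P251.Q

namespace Vale.Agent.P251.X

open Vale.Agent.P251.G Vale.Agent.P251.G.LC Vale.Agent.P251.I Vale.Agent.P251.T
  Vale.Agent.P251.M Vale.Agent.P251.M.EvenSpheres Vale.Agent.P251.Z Vale.Agent.P217

section height

variable {T : Type u} [Category.{v} T] [Preadditive T] [HasZeroObject T]
    [HasShift T ℤ] [∀ n : ℤ, (shiftFunctor T n).Additive] [Pretriangulated T]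
    [MonoidalCategory T] [SymmetricCategory T] [TensorTriangulated T]
  {F : SpaceFunctor T} {K : T} [MonObj K] [IsCommMonObj K] {Ev : EvenSpheres T}
  {ε : SphId F Ev} {o : Oriented F K} {s : F.S.obj CCF ⟶ (RSys K Ev).obj 0 1}
  {W : ThomFam (RSys K Ev) F s} {hF : CofTriangles F} {hs : (RSys K Ev).IsSusp s}

/-- The `p`-series relation of `IsMoravaPos`, from the coefficients of the `p`-series. -/
theorem rel_of_isFam (h : IsFam ε o W) {p : ℕ} (N : ℕ) (v : SC F N ⟶ K)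
    (h0 : ∀ l ≤ N, PowerSeries.coeff l (multSeries (W.orientation hF hs).law.toFG p) = 0)
    (h1 : PowerSeries.coeff (N + 1) (multSeries (W.orientation hF hs).law.toFG p) =
      coefOf hF hs ((ε.iso N).inv ≫ v))
    (g : Cn N ⊗ Cn 1 ≅ Cn (N + 1)) (hg : IsAppend g)
    (t : LC.of (Gr 1 (Fin (N + 2))) ⟶ LC.of (Th 1 (Fin p → Fin (N + 2)))) (ht : IsTensorPower p t)
    (e : LC.of (Gr 1 (Fin (N + 2))) ⟶ LC.of (Th (N + 1) (Fin (N + 1) × Fin (N + 2))))
    (he : IsMultiple (N + 1) e) :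
    sus F (X := grF 1 (Fin (N + 2))) (Y := thF 1 (Fin p → Fin (N + 2))) t ≫ o.θ 1 _ =
      sus F (X := grF 1 (Fin (N + 2))) (Y := thF (N + 1) (Fin (N + 1) × Fin (N + 2))) e ≫
        o.θ (N + 1) _ ≫ mulBy F v g := by
  have h2 := Q.rel_of_coeff_multSeries (W.orientation hF hs) p N _ t ht e he h0 h1
  have hc : (N : ℤ) + (1 : ℕ) = (N + 1 : ℕ) := by push_cast; rfl
  rw [h.map_tau (Cells.gr 1 (Fin (N + 2))), h.map_tau (Cells.gr 1 (Fin (N + 2))),
    smul_tuel (Cells.gr 1 (Fin (N + 2))) hc, Category.assoc, Category.assoc,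
    ← mulBy_iso ε v g hg hc] at h2
  have h3 := tuel_injective _ _ h2
  rw [← cancel_mono (K ◁ (ε.iso 1).hom)]
  simp only [Category.assoc]
  exact h3

end height

section morava

variable {T : Type u} [Category.{v} T] [Preadditive T] [HasZeroObject T]
    [HasShift T ℤ] [∀ n : ℤ, (shiftFunctor T n).Additive] [Pretriangulated T]
    [MonoidalCategory T] [SymmetricCategory T] [TensorTriangulated T]
  {F : SpaceFunctor T} {E : EvenSpheres T} (e : F.S.obj CCF ≅ E.L)
  {K : T} [MonObj K] [IsCommMonObj K]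

/-- the inverse of a unit of the homotopy ring as a map `𝟙 ⟶ K ⊗ S^{2N}` -/
theorem exists_inv {N : ℕ} (b : E.S N ⟶ K) (a : E.S (-N) ⟶ K)
    (hab : gmul (neg_add_cancel (N : ℤ)) a b = E.zero.inv ≫ η[K]) :
    ∃ w : 𝟙_ T ⟶ K ⊗ SC F N, w ≫ K ◁ (sph e N ≫ b) ≫ μ[K] = η[K] := by
  refine ⟨E.zero.hom ≫ (E.mu (-N) N 0 (neg_add_cancel (N : ℤ))).inv ≫
    (a ⊗ₘ inv (sph e N)), ?_⟩
  have h1 : (a ⊗ₘ inv (sph e N)) ≫ K ◁ (sph e N ≫ b) = a ⊗ₘ b := by
    rw [← id_tensorHom, tensorHom_comp_tensorHom]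
    simp
  rw [gmul, EvenSpheres.ext, Category.assoc] at hab
  simp only [Category.assoc]
  rw [reassoc_of% h1, hab, Iso.hom_inv_id_assoc]

/-- **The Morava `K`-theory axioms**, from the coefficient ring and the formal group law of a
multiplicative family of Thom classes. -/
theorem isMoravaPos_of_fam (W : ThomFam (RSys K E) F (lineCls e (SeqMonoid.const K))) {p n : ℕ}
    [Fact p.Prime] {N : ℕ} (hN : N + 1 = p ^ n) (b : E.S N ⟶ K) (a : E.S (-N) ⟶ K)
    (hab : gmul (neg_add_cancel (N : ℤ)) a b = E.zero.inv ≫ η[K])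
    (h0 : ∀ i < n, Vale.Agent.P251.F.vv p i ((W.orientation (cofTriangles F)
      (isSusp_lineCls e (SeqMonoid.const K))).law.map (coefK e K)) = 0)
    (hv : Vale.Agent.P251.F.vv p n ((W.orientation (cofTriangles F)
      (isSusp_lineCls e (SeqMonoid.const K))).law.map (coefK e K)) = HRing.of E K N b)
    (sparse : ∀ (k : ℤ) (_ : ¬ (2 * ((p : ℤ) ^ n - 1) ∣ k)) (f : (𝟙_ T)⟦k⟧ ⟶ K), f = 0)
    (char : (p : ℤ) • η[K] = 0) (ne : η[K] ≠ 0) (gen : ∀ f : 𝟙_ T ⟶ K, ∃ a : ℤ, f = a • η[K]) :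
    IsMoravaPos F p n (oriOf e W) where
  sparse := sparse
  char := char
  ne := ne
  gen := gen
  height N' hN' := by
    obtain rfl : N' = N := by omega
    obtain ⟨w, hw⟩ := exists_inv e (F := F) b a hab
    refine ⟨sph e N' ≫ b, w, hw, fun g hg t ht e' he' => ?_⟩
    set L := (W.orientation (cofTriangles F) (isSusp_lineCls e (SeqMonoid.const K))).law with hL
    have hinj := (coefK_bijective e K).1
    have hcoeff : ∀ l, coefK e K (PowerSeries.coeff l (multSeries L.toFG p)) =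
        PowerSeries.coeff l (multSeries (L.map (coefK e K)).toFG p) := fun l => by
      rw [Vale.Agent.P251.F.Law.map_toFG, ← Vale.Agent.P251.F.map_multSeries,
        PowerSeries.coeff_map]
    refine rel_of_isFam (hF := cofTriangles F) (hs := isSusp_lineCls e (SeqMonoid.const K))
      (isFam_oriOf e W) N' (sph e N' ≫ b) (fun l hl => ?_) ?_ g hg t ht e' he'
    · apply hinj
      rw [map_zero, hcoeff]
      exact Vale.Agent.P251.F.coeff_multSeries_lt p _ n h0 l (by omega)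
    · apply hinj
      rw [hcoeff]
      rw [Vale.Agent.P251.F.vv, ← hN] at hv
      refine hv.trans ?_
      have h2 : ((sphId e).iso N').inv ≫ sph e N' ≫ b = b := IsIso.inv_hom_id_assoc _ _
      rw [h2]
      exact (coeffHom_coefOf b).symm

end morava

end Vale.Agent.P251.X
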