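import Vale.Agent.P251.X.OrConv
import Vale.Agent.P251.M.MUFinal

/-!
# P251, part X: Morava `K`-theories from commutative monoids over `MU`

`isMorava_of_hom` : a commutative monoid `K` with a monoid map from `MU` such that `v_i = 0` for
`i < n`, `v_n` is invertible and `π_* K = 𝔽_p[v_n^{±1}]` is a Morava `K`-theory of height `n`.
-/

open CategoryTheory MonoidalCategory Limits Pretriangulated MonObj

set_option linter.unusedSectionVars false

universe v u

noncomputable section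

namespace Vale.Agent.P251.X

open Vale.Agent.P251.G Vale.Agent.P251.G.LC Vale.Agent.P251.I Vale.Agent.P251.T
  Vale.Agent.P251.M Vale.Agent.P251.M.EvenSpheres Vale.Agent.P251.Z Vale.Agent.P251.F

variable {T : Type u} [Category.{v} T] [Preadditive T] [HasZeroObject T]
    [HasShift T ℤ] [∀ n : ℤ, (shiftFunctor T n).Additive] [Pretriangulated T] [IsTriangulated T]
    [MonoidalCategory T] [SymmetricCategory T] [TensorTriangulated T] [MonoidalClosed T]
    [HasCoproducts.{0} T] [HasProducts.{0} T] [StableCat T]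
  {F : SpaceFunctor T} {E : EvenSpheres T} {e : F.S.obj CCF ≅ E.L} (M : MUMon F E e)
  {K : T} [MonObj K] [IsCommMonObj K]

/-- **Morava `K`-theories from monoids over `MU`.** -/
theorem isMorava_of_hom (φ : M.R ⟶ K) [IsMonHom φ] {p n : ℕ} [Fact p.Prime] (hn : n ≠ 0) {N : ℕ}
    (hN : N + 1 = p ^ n) (b : E.S N ⟶ K) (a : E.S (-N) ⟶ K)
    (hab : gmul (neg_add_cancel (N : ℤ)) a b = E.zero.inv ≫ η[K])
    (h0 : ∀ i < n, HRing.map (E := E) φ (vv p i (M.orient.law.map (coefK e M.R))) = 0)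
    (hv : HRing.map (E := E) φ (vv p n (M.orient.law.map (coefK e M.R))) = HRing.of E K N b)
    (sparse : ∀ (k : ℤ) (_ : ¬ (2 * ((p : ℤ) ^ n - 1) ∣ k)) (f : (𝟙_ T)⟦k⟧ ⟶ K), f = 0)
    (char : (p : ℤ) • η[K] = 0) (ne : η[K] ≠ 0) (gen : ∀ f : 𝟙_ T ⟶ K, ∃ a : ℤ, f = a • η[K]) :
    IsMorava F p n K := by
  obtain ⟨m, rfl⟩ : ∃ m, n = m + 1 := ⟨n - 1, by omega⟩
  let W : ThomFam (RSys K E) F (lineCls e (SeqMonoid.const K)) :=
    M.fam.push ((SeqMonoid.Hom.const φ).msys E) (lineCls_msys e (SeqMonoid.Hom.const φ))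
  have hW := M.law_push_orient _ φ (M.push_orient W φ rfl)
  refine ⟨inferInstance, oriOf e W, isMoravaPos_of_fam e W hN b a hab (fun i hi => ?_) ?_
    sparse char ne gen⟩
  · rw [← hW, vv_map]
    exact h0 i hi
  · rw [← hW, vv_map]
    exact hv

end Vale.Agent.P251.X
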