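import Vale.Agent.P251.X.PiInv
import Vale.Agent.P251.H.Dist
import Vale.Agent.P251.M.CofIn

/-!
# P251, part X (X3b): the homotopy of `P ⊗ (MU/v_j)`

`R ⊗ S(d) ⟶ R ⟶ C ⟶ (R ⊗ S(d))⟦1⟧` (maps `v_j`, `q`, `δ`) distinguished, `P = MU/I_j`:

* `exists_of_comp_eq_zero` : the kernel of `π_*(P ⊗ R) ⟶ π_*(P ⊗ C)` is the ideal of `v_j`;
* `PD.odd_cof` : the odd homotopy of `P ⊗ C` vanishes;
* `PD.surj_cof` : `π_*(P ⊗ R) ⟶ π_*(P ⊗ C)` is onto in even degrees.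
-/

open CategoryTheory MonoidalCategory Limits Pretriangulated MonObj

set_option linter.unusedSectionVars false

universe v u

namespace Vale.Agent.P251.X

open Vale.Agent.P251.T Vale.Agent.P251.M Vale.Agent.P251.M.EvenSpheres Vale.Agent.P251.S
  Vale.Agent.P251.F Vale.Agent.P251.I Vale.Agent.P251.Z Vale.Agent.P251.H

section ext

variable {T : Type u} [Category.{v} T] [MonoidalCategory T] [SymmetricCategory T]
  {E : EvenSpheres T}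

theorem ext_id_surj {X : T} {k m n : ℤ} (h : m + k = n) (g : E.S n ⟶ X ⊗ E.S k) :
    ∃ y : E.S m ⟶ X, g = E.ext h y (𝟙 (E.S k)) := by
  obtain ⟨y, hy⟩ := whiskerRight_surj (E.S k) ((E.mu m k n h).hom ≫ g)
  refine ⟨y, ?_⟩
  unfold EvenSpheres.ext
  rw [tensorHom_id, hy, Iso.inv_hom_id_assoc]

/-- multiplication by an element of the second factor, on elements -/
theorem ext_comp_mul {P R : T} [MonObj P] [MonObj R] {k m n : ℤ} (h : m + k = n)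
    (v : E.S k ⟶ R) (y : E.S m ⟶ P ⊗ R) :
    (E.ext h y (𝟙 (E.S k)) ≫ (α_ P R (E.S k)).hom) ≫ P ◁ (R ◁ v ≫ μ[R]) =
      gmul h y (v ≫ inrM P R) := by
  unfold gmul
  rw [ext_comp_right, Category.assoc, Category.assoc, mul_inrM,
    MonoidalCategory.whiskerLeft_comp]
  have h1 : E.ext h y v = E.ext h y (𝟙 (E.S k)) ≫ (P ⊗ R) ◁ v := by
    rw [← ext_comp_right, Category.id_comp]
  rw [h1, Category.assoc, associator_naturality_right_assoc]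

theorem exists_gmul {P R : T} [MonObj P] [MonObj R] {k m n : ℤ} (h : m + k = n)
    (v : E.S k ⟶ R) (z : E.S n ⟶ P ⊗ (R ⊗ E.S k)) : ∃ y : E.S m ⟶ P ⊗ R,
      z = E.ext h y (𝟙 (E.S k)) ≫ (α_ P R (E.S k)).hom ∧
      z ≫ P ◁ (R ◁ v ≫ μ[R]) = gmul h y (v ≫ inrM P R) := by
  obtain ⟨y, hy⟩ := ext_id_surj h (z ≫ (α_ P R (E.S k)).inv)
  have h1 : z = E.ext h y (𝟙 (E.S k)) ≫ (α_ P R (E.S k)).hom := by
    rw [← hy, Category.assoc, Iso.inv_hom_id, Category.comp_id]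
  exact ⟨y, h1, by rw [h1, ext_comp_mul]⟩

end ext

variable {T : Type u} [Category.{v} T] [Preadditive T] [HasZeroObject T]
    [HasShift T ℤ] [∀ n : ℤ, (shiftFunctor T n).Additive] [Pretriangulated T] [IsTriangulated T]
    [MonoidalCategory T] [SymmetricCategory T] [TensorTriangulated T] [MonoidalClosed T]
    [HasCoproducts.{0} T] [HasProducts.{0} T] [StableCat T] {D : MUData T}

/-- tensoring a distinguished triangle -/
theorem dist_whiskerLeft (P : T) {X Y Z : T} {f : X ⟶ Y} {g : Y ⟶ Z} {h : Z ⟶ X⟦(1 : ℤ)⟧}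
    (hD : Triangle.mk f g h ∈ distTriang T) :
    ∃ h' : P ⊗ Z ⟶ (P ⊗ X)⟦(1 : ℤ)⟧, Dist (P ◁ f) (P ◁ g) h' :=
  ⟨_, TensorTriangulated.distinguished P _ hD⟩

/-- maps out of an odd sphere into a suspension -/
theorem eq_zero_of_odd {X : T} (l : ℤ) (H : ∀ f : (stdEven T).S l ⟶ X, f = 0)
    (f : (𝟙_ T)⟦2 * l + 1⟧ ⟶ X⟦(1 : ℤ)⟧) : f = 0 := by
  have e : ((𝟙_ T)⟦2 * l⟧)⟦(1 : ℤ)⟧ ≅ (𝟙_ T)⟦2 * l + 1⟧ :=
    ((shiftFunctorAdd' T (2 * l) 1 (2 * l + 1) rfl).app _).symm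
  have e' : (stdEven T).S l ≅ (𝟙_ T)⟦2 * l⟧ := (stdEven T).sphIso (Iso.refl _) l
  obtain ⟨g, hg⟩ := (shiftFunctor T (1 : ℤ)).map_surjective (e.hom ≫ f)
  have h1 : g = 0 := by
    rw [← cancel_epi e'.hom, comp_zero]
    exact H _
  rw [← cancel_epi e.hom, ← hg, h1, Functor.map_zero, comp_zero]

/-- maps out of an even sphere into a suspension -/
theorem eq_zero_of_even {X : T} (hX : Odd0 X) (l : ℤ)
    (f : (stdEven T).S l ⟶ X⟦(1 : ℤ)⟧) : f = 0 := by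
  have e : ((𝟙_ T)⟦2 * (l - 1) + 1⟧)⟦(1 : ℤ)⟧ ≅ (𝟙_ T)⟦2 * l⟧ :=
    ((shiftFunctorAdd' T (2 * (l - 1) + 1) 1 (2 * l) (by ring)).app _).symm
  have e' : (stdEven T).S l ≅ (𝟙_ T)⟦2 * l⟧ := (stdEven T).sphIso (Iso.refl _) l
  obtain ⟨g, hg⟩ := (shiftFunctor T (1 : ℤ)).map_surjective (e.hom ≫ e'.inv ≫ f)
  rw [← cancel_epi (e.hom ≫ e'.inv), Category.assoc, ← hg, hX _ g, Functor.map_zero, comp_zero]

theorem odd0_tensor_sphere {X : T} (hX : Odd0 X) (k : ℤ) : Odd0 (X ⊗ (stdEven T).S k) := by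
  intro l f
  rw [← cancel_mono (((stdEven T).shiftNat (Iso.refl _) k).app X).hom, zero_comp]
  exact GBasis.odd_aux hX _ _ _

section cof

variable {P : T} [MonObj P] {k : ℤ} (v : (stdEven T).S k ⟶ D.R) {C : T} (q : D.R ⟶ C)
  (δ : C ⟶ (D.R ⊗ (stdEven T).S k)⟦(1 : ℤ)⟧)
  (hC : Triangle.mk (D.R ◁ v ≫ μ[D.R]) q δ ∈ distTriang T)

include hC

/-- the kernel of `π_*(P ⊗ R) ⟶ π_*(P ⊗ C)` -/
theorem exists_of_comp_eq_zero {m n : ℤ} (h : m + k = n) (x : (stdEven T).S n ⟶ P ⊗ D.R)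
    (hx : x ≫ P ◁ q = 0) : ∃ y : (stdEven T).S m ⟶ P ⊗ D.R,
      x = gmul h y (v ≫ inrM P D.R) := by
  obtain ⟨h', hD⟩ := dist_whiskerLeft P hC
  obtain ⟨z, hz⟩ := hD.lift₂ x hx
  obtain ⟨y, -, hy⟩ := exists_gmul h v z
  exact ⟨y, by rw [← hz, hy]⟩

theorem comp_q : v ≫ q = 0 := by
  have h1 : (D.R ◁ v ≫ μ[D.R]) ≫ q = 0 := comp_distTriang_mor_zero₁₂ _ hC
  have h2 : v = inrM D.R _ ≫ D.R ◁ v ≫ μ[D.R] := by
    unfold inrM
    rw [Category.assoc, ← whisker_exchange_assoc, MonObj.one_mul, leftUnitor_naturality,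
      Iso.inv_hom_id_assoc]
  rw [h2, Category.assoc, h1, comp_zero]

/-- `v` vanishes in `P ⊗ C` -/
theorem comp_inrM_q : (v ≫ inrM P D.R) ≫ P ◁ q = 0 := by
  have h1 : inrM P D.R ≫ P ◁ q = q ≫ inrM P C := by
    unfold inrM
    rw [Category.assoc, ← whisker_exchange, leftUnitor_inv_naturality_assoc]
  rw [Category.assoc, h1, ← Category.assoc, comp_q v q δ hC, zero_comp]

/-- onto in even degrees -/
theorem surj_cof (hodd : Odd0 (P ⊗ D.R)) (n : ℤ) (f : (stdEven T).S n ⟶ P ⊗ C) :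
    ∃ x : (stdEven T).S n ⟶ P ⊗ D.R, x ≫ P ◁ q = f := by
  obtain ⟨h', hD⟩ := dist_whiskerLeft P hC
  have h1 : Odd0 (P ⊗ (D.R ⊗ (stdEven T).S k)) := by
    intro l g
    rw [← cancel_mono (α_ P D.R ((stdEven T).S k)).inv, zero_comp]
    exact odd0_tensor_sphere hodd k l _
  exact hD.lift₃ f (eq_zero_of_even h1 n _)

/-- the odd homotopy vanishes if `v` is regular -/
theorem odd_cof (hodd : Odd0 (P ⊗ D.R))
    (hreg : ∀ (m n : ℤ) (h : m + k = n) (y : (stdEven T).S m ⟶ P ⊗ D.R),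
      gmul h y (v ≫ inrM P D.R) = 0 → y = 0) : Odd0 (P ⊗ C) := by
  intro l f
  obtain ⟨h', hD⟩ := dist_whiskerLeft P hC
  -- the boundary of `f`
  have h2 : f ≫ h' = 0 := by
    have e : ((𝟙_ T)⟦2 * l⟧)⟦(1 : ℤ)⟧ ≅ (𝟙_ T)⟦2 * l + 1⟧ :=
      ((shiftFunctorAdd' T (2 * l) 1 (2 * l + 1) rfl).app _).symm
    have e' : (stdEven T).S l ≅ (𝟙_ T)⟦2 * l⟧ := (stdEven T).sphIso (Iso.refl _) l
    obtain ⟨g, hg⟩ := (shiftFunctor T (1 : ℤ)).map_surjective (e.hom ≫ f ≫ h')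
    have h3 : g ≫ P ◁ (D.R ◁ v ≫ μ[D.R]) = 0 := by
      apply (shiftFunctor T (1 : ℤ)).map_injective
      rw [Functor.map_comp, hg, Functor.map_zero, Category.assoc, Category.assoc, hD.zero₃₁,
        comp_zero, comp_zero]
    obtain ⟨y, hy, hy'⟩ := exists_gmul (sub_add_cancel l k) v (e'.hom ≫ g)
    rw [Category.assoc, h3, comp_zero] at hy'
    have h4 : y = 0 := hreg _ _ _ y hy'.symm
    have h5 : g = 0 := by
      rw [← cancel_epi e'.hom, hy, h4, ext_zero_left, zero_comp, comp_zero]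
    rw [← cancel_epi e.hom, ← hg, h5, Functor.map_zero, comp_zero]
  obtain ⟨x, hx⟩ := hD.lift₃ f h2
  rw [← hx, hodd l x, zero_comp]

end cof

namespace PD

variable {p j : ℕ} [Fact p.Prime] (Q : PD D p j) {C : T} (q : D.R ⟶ C)
  (δ : C ⟶ (D.R ⊗ (stdEven T).S ((p ^ j : ℤ) - 1))⟦(1 : ℤ)⟧)
  (hC : Triangle.mk (D.R ◁ D.vel p j ≫ μ[D.R]) q δ ∈ distTriang T)

include hC

theorem odd_cof {F : SpaceFunctor T} {e : F.S.obj CCF ≅ (stdEven T).L} (H : MUUniv e D) :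
    Odd0 (Q.P ⊗ C) :=
  X.odd_cof _ q δ hC (Q.odd_tensor H) fun m n h y hy => by
    have h' : (p ^ j : ℤ) - 1 + m = n := by omega
    exact Q.regular' H h' y (by rw [gmul_comm h' h, hy])

theorem surj_cof {F : SpaceFunctor T} {e : F.S.obj CCF ≅ (stdEven T).L} (H : MUUniv e D) (n : ℤ)
    (f : (stdEven T).S n ⟶ Q.P ⊗ C) : ∃ x : (stdEven T).S n ⟶ Q.P ⊗ D.R, x ≫ Q.P ◁ q = f :=
  X.surj_cof _ q δ hC (Q.odd_tensor H) n f

end PD

end Vale.Agent.P251.X
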