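import Vale.Agent.P251.X.Lin

/-!
# P251, part X1d: the quotient lemma

`quot : q.Van → Nonempty q.Out` : if `E = D / v` and the vanishing hypotheses hold, then `E` is a
commutative monoid and represents the monoid maps out of `D` which kill `v`.
-/

open CategoryTheory MonoidalCategory MonObj Idempotents

set_option linter.unusedSectionVars false

universe v u

namespace Vale.Agent.P251.X

open Vale.Agent.P251.M Vale.Agent.P251.S

variable {T : Type u} [Category.{v} T] [Preadditive T] [MonoidalCategory T]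
  [MonoidalPreadditive T] [SymmetricCategory T]
  {D E Z S₁ : T} [MonObj D] [IsCommMonObj D] (q : QIn D E Z S₁)

namespace QIn

/-- maps to `(E, eN)` vanish if the maps to `E` do -/
theorem eq_zero_K (P : Karoubi (FM D)) (f : P ⟶ q.EK (𝟙 D)) (h : ∀ f' : P.X.obj ⟶ E, f' = 0) :
    f = 0 := by
  apply Karoubi.hom_ext
  have h1 : (f.f : (FM.of P.X.obj : FM D) ⟶ FM.of E) ≫ q.eN (𝟙 D) = f.f := Karoubi.comp_p f
  have h2 := q.eq_fr f.f h1
  rw [h (FM.Hom.hom f.f ≫ q.M.act)] at h2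
  rw [h2]
  apply FM.hom_ext
  rw [fr_comp_hom, Limits.zero_comp]
  rfl

/-- the vanishing hypotheses give a product -/
theorem exists_Mul (hv : q.Van) : Nonempty q.Mul := by
  obtain ⟨t, ht⟩ := hv.half
  obtain ⟨m, hu, hr, hc, ha⟩ := (q.cof (𝟙 D)).exists_mul
    (fun f => q.eq_zero_K _ f hv.h1) (fun f => q.eq_zero_K _ f hv.h2)
    (fun f => q.eq_zero_K _ f fun f' => by
      have := hv.h3 ((α_ (Z ⊗ S₁) (Z ⊗ S₁) (Z ⊗ S₁)).inv ≫ f')
      rw [← cancel_epi (α_ (Z ⊗ S₁) (Z ⊗ S₁) (Z ⊗ S₁)).inv, this, Limits.comp_zero])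
    ⟨⟨q.eN (𝟙 D) ≫ fr D t ≫ q.eN (𝟙 D), by
      change q.eN (𝟙 D) ≫ (q.eN (𝟙 D) ≫ fr D t ≫ q.eN (𝟙 D)) ≫ q.eN (𝟙 D) = _
      rw [Category.assoc, Category.assoc, q.eN_eN, reassoc_of% (q.eN_eN (𝟙 D))]⟩, by
      apply Karoubi.hom_ext
      change q.eN (𝟙 D) ≫ fr D t ≫ q.eN (𝟙 D) + q.eN (𝟙 D) ≫ fr D t ≫ q.eN (𝟙 D) = q.eN (𝟙 D)
      have h1 : fr D t + fr D t = 𝟙 (FM.of E : FM D) := by
        apply FM.hom_ext
        change t ≫ FM.unit D E + t ≫ FM.unit D E = FM.unit D E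
        rw [← Preadditive.add_comp, ht, Category.id_comp]
      rw [← Preadditive.comp_add, ← Preadditive.add_comp, h1, Category.id_comp, q.eN_eN]⟩
  have em : (q.eN (𝟙 D) ⊗ₘ q.eN (𝟙 D)) ≫ m.f = m.f := Karoubi.p_comp m
  have me : m.f ≫ q.eN (𝟙 D) = m.f := Karoubi.comp_p m
  have hu' : (q.iN D ⊗ₘ q.eN (𝟙 D)) ≫ m.f = (λ_ (FM.of E : FM D)).hom ≫ q.eN (𝟙 D) := by
    have := congrArg Karoubi.Hom.f hu
    rw [Kar.leftUnitor_hom_f] at this
    exact this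
  have hr' : (q.eN (𝟙 D) ⊗ₘ q.iN D) ≫ m.f = (ρ_ (FM.of E : FM D)).hom ≫ q.eN (𝟙 D) := by
    have := congrArg Karoubi.Hom.f hr
    rw [Kar.rightUnitor_hom_f] at this
    exact this
  have hc' : ((q.eN (𝟙 D) ⊗ₘ q.eN (𝟙 D)) ≫ (β_ (FM.of E : FM D) (FM.of E)).hom) ≫ m.f = m.f :=
    congrArg Karoubi.Hom.f hc
  have ha' : (m.f ⊗ₘ q.eN (𝟙 D)) ≫ m.f =
      (((q.eN (𝟙 D) ⊗ₘ q.eN (𝟙 D)) ⊗ₘ q.eN (𝟙 D)) ≫
        (α_ (FM.of E : FM D) (FM.of E) (FM.of E)).hom) ≫ (q.eN (𝟙 D) ⊗ₘ m.f) ≫ m.f :=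
    congrArg Karoubi.Hom.f ha
  have eR : q.eN (𝟙 D) ▷ (FM.of E : FM D) ≫ m.f = m.f := by
    rw [← em, tensorHom_def, Category.assoc, ← comp_whiskerRight_assoc, q.eN_eN]
  have eL : (FM.of E : FM D) ◁ q.eN (𝟙 D) ≫ m.f = m.f := by
    rw [← em, tensorHom_def', Category.assoc, ← whiskerLeft_comp_assoc, q.eN_eN]
  refine ⟨⟨m.f, me, em, ?_, ?_, ?_, ?_⟩⟩
  · rw [← hu', tensorHom_def, Category.assoc, eL]
  · rw [← hr', tensorHom_def', Category.assoc, eR]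
  · rw [BraidedCategory.braiding_naturality, Category.assoc, em] at hc'
    exact hc'
  · rw [tensorHom_def, Category.assoc, eL] at ha'
    rw [ha', associator_naturality, Category.assoc, tensorHom_comp_tensorHom_assoc, q.eN_eN, em,
      tensorHom_def', Category.assoc, eR]

omit [Preadditive T] [MonoidalPreadditive T] in
theorem ten_one (N : T) [MonObj N] : FM.ten N (𝟙_ T) (𝟙_ T) ≫ N ◁ (λ_ (𝟙_ T)).hom ≫ (ρ_ N).hom =
    ((ρ_ N).hom ⊗ₘ (ρ_ N).hom) ≫ μ[N] := by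
  rw [FM.ten, rightUnitor_monoidal, Category.assoc, Category.assoc, Category.assoc,
    ← whisker_exchange_assoc, rightUnitor_naturality]

/-- the monoid maps out of `E` -/
theorem exists_desc (h : q.Mul) {N : T} [MonObj N] [IsCommMonObj N] (g : D ⟶ N) [IsMonHom g]
    (hv : q.v ≫ g = 0) (h1 : ∀ f : Z ⊗ S₁ ⟶ N, f = 0)
    (h2 : ∀ f : (Z ⊗ S₁) ⊗ (Z ⊗ S₁) ⟶ N, f + f = 0 → f = 0)
    (swap : (β_ (Z ⊗ S₁) (Z ⊗ S₁)).hom = -𝟙 _) :
    ∃ F : E ⟶ N, q.i ≫ F = g ∧ h.mulT ≫ F = (F ⊗ₘ F) ≫ μ[N] := by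
  -- the product over `N`
  set m : (FM.of E : FM N) ⊗ FM.of E ⟶ FM.of E := fr N h.mulT ≫ q.eN g with hm
  have hpe : (FM.push g).map (q.eN (𝟙 D)) = q.eN g := by
    apply FM.hom_ext
    rw [FM.push_map_hom, eN, eN, km_hom, km_hom, id_whiskerRight, Category.comp_id]
  have hpm : (FM.push g).map h.m = m := by
    rw [h.m_eq, Functor.map_comp, hpe, hm]
    exact congrArg (· ≫ q.eN g) (FM.push_map_free g h.mulT)
  have me : m ≫ q.eN g = m := by rw [hm, Category.assoc, q.eN_eN]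
  have em : (q.eN g ⊗ₘ q.eN g) ≫ m = m := by
    have h3 := congrArg (FM.push g).map h.e_m
    rw [Functor.map_comp, FM.push_tensorHom, hpe, hpm] at h3
    exact h3
  have eR : q.eN g ▷ (FM.of E : FM N) ≫ m = m := by
    rw [← em, tensorHom_def, Category.assoc, ← comp_whiskerRight_assoc, q.eN_eN]
  have eL : (FM.of E : FM N) ◁ q.eN g ≫ m = m := by
    rw [← em, tensorHom_def', Category.assoc, ← whiskerLeft_comp_assoc, q.eN_eN]
  have hu : (q.iN N ⊗ₘ q.eN g) ≫ m = (λ_ (FM.of E : FM N)).hom ≫ q.eN g := by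
    rw [tensorHom_def, Category.assoc, eL, hm, iN, fr_whiskerRight, ← Category.assoc, fr_comp_fr]
    exact congrArg (fun x => fr N x ≫ q.eN g) h.oneT_mul
  have hc : ((q.eN g ⊗ₘ q.eN g) ≫ (β_ (FM.of E : FM N) (FM.of E)).hom) ≫ m = m := by
    have h3 : (β_ (FM.of E : FM N) (FM.of E)).hom ≫ m = m := by
      change fr N (β_ E E).hom ≫ fr N h.mulT ≫ q.eN g = fr N h.mulT ≫ q.eN g
      rw [← Category.assoc, fr_comp_fr, h.commT]
    rw [Category.assoc, h3, em]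
  let mK : q.EK g ⊗ q.EK g ⟶ q.EK g := ⟨m, by
    change (q.eN g ⊗ₘ q.eN g) ≫ m ≫ q.eN g = m
    rw [me, em]⟩
  -- the augmentation
  have hvK : q.vK g = 0 := by
    apply Karoubi.hom_ext
    apply FM.hom_ext
    change q.v ≫ g ≫ (ρ_ N).inv = 0
    rw [reassoc_of% hv, Limits.zero_comp]
  have zz {X : T} (f : X ⟶ N ⊗ 𝟙_ T) (hf : f ≫ (ρ_ N).hom = 0) : f = 0 := by
    rw [← cancel_mono (ρ_ N).hom, hf, Limits.zero_comp]
  obtain ⟨f, hif, hmf⟩ := (q.cof g).exists_aug hvK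
    (fun f => by
      apply Karoubi.hom_ext
      apply FM.hom_ext
      exact zz _ (h1 _))
    (fun f hf => by
      apply Karoubi.hom_ext
      apply FM.hom_ext
      have h3 : FM.Hom.hom f.f + FM.Hom.hom f.f = 0 :=
        congrArg (fun x => FM.Hom.hom (Karoubi.Hom.f x)) hf
      refine zz _ (h2 _ ?_)
      rw [← Preadditive.add_comp, h3, Limits.zero_comp])
    (by
      apply Karoubi.hom_ext
      rw [Kar.braiding_hom_f]
      change _ = -((𝟙 (FM.of Z : FM N) ⊗ₘ 𝟙 (FM.of S₁)) ⊗ₘ (𝟙 (FM.of Z : FM N) ⊗ₘ 𝟙 (FM.of S₁)))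
      change ((𝟙 (FM.of Z : FM N) ⊗ₘ 𝟙 (FM.of S₁)) ⊗ₘ (𝟙 (FM.of Z : FM N) ⊗ₘ 𝟙 (FM.of S₁))) ≫
        fr N (β_ (Z ⊗ S₁) (Z ⊗ S₁)).hom = _
      have h3 : fr N (-𝟙 ((Z ⊗ S₁) ⊗ (Z ⊗ S₁))) = -𝟙 _ := by
        rw [← fr_id]
        exact (FM.free N).map_neg
      rw [swap, h3, Preadditive.comp_neg]
      exact congrArg Neg.neg (Category.comp_id _))
    mK (by
      apply Karoubi.hom_ext
      rw [Kar.leftUnitor_hom_f]
      exact hu)
    (by
      apply Karoubi.hom_ext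
      exact hc)
  have hf : q.eN g ≫ f.f = f.f := Karoubi.p_comp f
  have hif' : q.iN N ≫ f.f = 𝟙 _ := congrArg Karoubi.Hom.f hif
  have hmf' : m ≫ f.f = (f.f ⊗ₘ f.f) ≫ (λ_ (𝟙_ (FM N))).hom := by
    have h3 := congrArg Karoubi.Hom.f hmf
    rw [Karoubi.comp_f, Karoubi.comp_f, Kar.leftUnitor_hom_f] at h3
    refine h3.trans ?_
    exact congrArg (_ ≫ ·) (Category.comp_id _)
  refine ⟨FM.Hom.hom f.f ≫ (ρ_ N).hom, ?_, ?_⟩
  · have h3 : fr N q.i ≫ f.f = c₁ g := by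
      rw [← hf, ← Category.assoc, q.g_r, Category.assoc, hif']
      exact Category.comp_id _
    have h4 := congrArg FM.Hom.hom h3
    rw [fr_comp_hom, c₁, km_hom] at h4
    rw [reassoc_of% h4, Iso.inv_hom_id, Category.comp_id]
  · have h3 : fr N h.mulT ≫ f.f = (f.f ⊗ₘ f.f) ≫ fr N (λ_ (𝟙_ T)).hom := by
      rw [← hf, ← Category.assoc, ← hm, hmf', hf]
      rfl
    have h4 := congrArg FM.Hom.hom h3
    rw [fr_comp_hom, comp_fr_hom] at h4
    rw [reassoc_of% h4, FM.tensorHom_hom, Category.assoc, ← tensorHom_comp_tensorHom,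
      Category.assoc]
    exact congrArg (_ ≫ ·) (ten_one N)

theorem Mul.isMonHom_of {q : QIn D E Z S₁} (h : q.Mul) {N : T} [MonObj N] (F : E ⟶ N)
    (h1 : h.oneT ≫ F = η[N]) (h2 : h.mulT ≫ F = (F ⊗ₘ F) ≫ μ[N]) :
    letI := h.mon; IsMonHom F :=
  letI := h.mon
  { one_hom := h1
    mul_hom := h2 }

/-- **The quotient lemma.** -/
theorem quot (hv : q.Van) : Nonempty q.Out := by
  obtain ⟨h⟩ := q.exists_Mul hv
  exact ⟨{
    mon := h.mon
    comm := h.comm_mon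
    hom := h.isMonHom_i
    act := h.act_eq
    desc := fun N _ _ g _ hg h1 h2 => by
      obtain ⟨F, hF, hF'⟩ := q.exists_desc h g hg h1 h2 hv.swap
      exact ⟨F, h.isMonHom_of F (by rw [Mul.oneT, Category.assoc, hF, IsMonHom.one_hom]) hF', hF⟩
    uniq := fun N f f' _ hf hf' hi h1 => h.uniq N f f' hf hf' hi h1 }⟩

end QIn

end Vale.Agent.P251.X
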