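import Vale.Agent.P251.X.Base
import Vale.Agent.P251.X.PiBase
import Vale.Agent.P251.X.PiCof
import Vale.Agent.P251.X.Trans
import Vale.Agent.P251.S.GrB

/-!
# P251, part X (X2b): the quotient data for `P ⊗ C`, `P = MU/I_j`, `C = MU/v_j`
-/

open CategoryTheory MonoidalCategory Limits Pretriangulated MonObj

set_option linter.unusedSectionVars false

universe v u

namespace Vale.Agent.P251.X

open Vale.Agent.P251.T Vale.Agent.P251.M Vale.Agent.P251.M.EvenSpheres Vale.Agent.P251.S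
  Vale.Agent.P251.F Vale.Agent.P251.I Vale.Agent.P251.Z

variable {T : Type u} [Category.{v} T] [Preadditive T] [HasZeroObject T]
    [HasShift T ℤ] [∀ n : ℤ, (shiftFunctor T n).Additive] [Pretriangulated T] [IsTriangulated T]
    [MonoidalCategory T] [SymmetricCategory T] [TensorTriangulated T] [MonoidalClosed T]
    [HasCoproducts.{0} T] [HasProducts.{0} T] [StableCat T] {D : MUData T}
    {F : SpaceFunctor T} {e : F.S.obj CCF ≅ (stdEven T).L}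

/-- maps out of `(R ⊗ S^{2d})⟦1⟧` -/
theorem V1_of_odd (H : MUUniv e D) {N : T} (M : ModStr D.R N) (h : Odd0 N) (d : ℤ)
    (f : (D.R ⊗ (stdEven T).S d)⟦(1 : ℤ)⟧ ⟶ N) : f = 0 := by
  have h1 : NoMap (stdEven T) (D.R ⊗ ((stdEven T).S d ⊗ (𝟙_ T)⟦(1 : ℤ)⟧)) N :=
    (h.noMap.sphere d).R_left H M
  exact (h1.of_iso ((α_ _ _ _).symm ≪≫ TensorTriangulated.e _)).eq_zero f

/-- maps out of `(R ⊗ (R ⊗ S^{2d}))⟦1⟧` -/
theorem V2_of_odd (H : MUUniv e D) {N : T} (M : ModStr D.R N) (h : Odd0 N) (d : ℤ)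
    (f : (D.R ⊗ (D.R ⊗ (stdEven T).S d))⟦(1 : ℤ)⟧ ⟶ N) : f = 0 := by
  have h1 : NoMap (stdEven T) (D.R ⊗ (D.R ⊗ ((stdEven T).S d ⊗ (𝟙_ T)⟦(1 : ℤ)⟧))) N :=
    ((h.noMap.sphere d).R_left H M).R_left H M
  exact (h1.of_iso (whiskerLeftIso _ (α_ _ _ _).symm ≪≫ (α_ _ _ _).symm ≪≫
    TensorTriangulated.e _)).eq_zero f

namespace PD

variable {p j : ℕ} [Fact p.Prime] (Q : PD D p j) {C : T}

/-- the odd homotopy of `(P ⊗ MU) ⊗ C` -/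
theorem odd_tensor_cof (H : MUUniv e D) (h : Odd0 (Q.P ⊗ C)) : Odd0 ((Q.P ⊗ D.R) ⊗ C) := by
  obtain ⟨b, -, -⟩ := D.exists_basis_of Q.u H
  exact b.odd (Iso.refl _) C h

theorem inv_vel : D.vel p j ≫ inrM Q.P D.R ≫ inlM (Q.P ⊗ D.R) D.R =
    D.vel p j ≫ inrM (Q.P ⊗ D.R) D.R := by
  refine vel_comp_eq (inrM Q.P D.R ≫ inlM (Q.P ⊗ D.R) D.R) (inrM (Q.P ⊗ D.R) D.R) ?_
  intro i hi
  refine vv_lawOf_lt (Q.u ≫ inlM Q.P D.R ≫ inlM (Q.P ⊗ D.R) D.R) _ ?_ hi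
  intro i hi
  rw [lawOf_comp, vv_map, Q.vv_zero_of_lt hi, map_zero]

variable (q : D.R ⟶ C) (δ : C ⟶ (D.R ⊗ (stdEven T).S ((p ^ j : ℤ) - 1))⟦(1 : ℤ)⟧)
  (hC : Triangle.mk (D.R ◁ D.vel p j ≫ μ[D.R]) q δ ∈ distTriang T) (H : MUUniv e D)

/-- The input of the induction step. -/
noncomputable def stepD : StepD Q.P D.R ((stdEven T).S ((p ^ j : ℤ) - 1)) C where
  v := D.vel p j
  q := q
  δ := δ
  dist := hC
  inv := Q.inv_vel
  V1 := V1_of_odd H ((ModStr.free Q.P C).restr Q.u) (Q.odd_cof q δ hC H) _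
  V2 := V2_of_odd H ((ModStr.free (Q.P ⊗ D.R) C).restr (inrM Q.P D.R))
    (Q.odd_tensor_cof H (Q.odd_cof q δ hC H)) _

/-- `P ⊗ C = (P ⊗ MU) / v_j` -/
noncomputable def stepQIn : QIn (Q.P ⊗ D.R) (Q.P ⊗ C) ((stdEven T).S ((p ^ j : ℤ) - 1))
    ((𝟙_ T)⟦(1 : ℤ)⟧) := (Q.stepD q δ hC H).qin

theorem stepQIn_i : (Q.stepQIn q δ hC H).i = Q.P ◁ q := rfl

theorem stepQIn_v : (Q.stepQIn q δ hC H).v = D.vel p j ≫ inrM Q.P D.R := rfl

theorem stepVan (hj : j ≠ 0) (hp : p ≠ 2) : (Q.stepQIn q δ hC H).Van := by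
  refine QIn.van_of_odd _ (Q.odd_cof q δ hC H) ?_
  have h1 : (p : ℤ) • η[Q.P] = 0 :=
    (vv_zero_lawOf_iff Q.u).1 (Q.vv_zero_of_lt (Nat.pos_of_ne_zero hj))
  have h2 : (p : ℤ) • 𝟙 (Q.P ⊗ C) = 0 := by
    rw [← id_whiskerRight, ← whiskerRight_zsmul', zsmul_id_eq_zero h1,
      MonoidalPreadditive.zero_whiskerRight]
  exact half_of_odd (Int.odd_coe_nat p |>.2 ((Fact.out : p.Prime).odd_of_ne_two hp)) h2

/-- `P ⊗ C` is a commutative monoid -/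
theorem exists_out (hj : j ≠ 0) (hp : p ≠ 2) : Nonempty (Q.stepQIn q δ hC H).Out :=
  QIn.quot _ (Q.stepVan q δ hC H hj hp)

end PD

/-- **The base case.** -/
theorem exists_PD_base (D : MUData T) {p : ℕ} [Fact p.Prime] (hp : p ≠ 2) :
    Nonempty (PD D p 1) := by
  obtain ⟨M, iM, δM, hM⟩ := distinguished_cocone_triangle ((p : ℤ) • 𝟙 (𝟙_ T))
  obtain ⟨o⟩ := QIn.quot (baseQIn D.R hM) (baseQIn_van D.R
    (Int.odd_coe_nat p |>.2 ((Fact.out : p.Prime).odd_of_ne_two hp)) hM (odd_base D hp hM))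
  exact exists_PD_one D hp hM (baseQIn D.R hM) rfl rfl o

end Vale.Agent.P251.X
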