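import Vale.Agent.P251.X.Cut
import Vale.Agent.P251.X.StepOdd

/-!
# P251, part X (X3b): `MU / (p, v_1, …, v_{n-1})` exists for every `n ≥ 1`, `p` odd
-/

open CategoryTheory MonoidalCategory Limits Pretriangulated MonObj

set_option linter.unusedSectionVars false

universe v u

namespace Vale.Agent.P251.X

open Vale.Agent.P251.T Vale.Agent.P251.M Vale.Agent.P251.M.EvenSpheres Vale.Agent.P251.S
  Vale.Agent.P251.F Vale.Agent.P251.I Vale.Agent.P251.Z Vale.Agent.P251.H

variable {T : Type u} [Category.{v} T] [Preadditive T] [HasZeroObject T]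
    [HasShift T ℤ] [∀ n : ℤ, (shiftFunctor T n).Additive] [Pretriangulated T] [IsTriangulated T]
    [MonoidalCategory T] [SymmetricCategory T] [TensorTriangulated T] [MonoidalClosed T]
    [HasCoproducts.{0} T] [HasProducts.{0} T] [StableCat T] {D : MUData T}
  {F : SpaceFunctor T} {e : F.S.obj CCF ≅ (stdEven T).L}

/-- **The induction step.** -/
theorem exists_PD_succ (H : MUUniv e D) {p j : ℕ} [Fact p.Prime] (hp : p ≠ 2) (hj : j ≠ 0)
    (Q : PD D p j) : Nonempty (PD D p (j + 1)) := by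
  obtain ⟨C, q, δ, hC⟩ := distinguished_cocone_triangle (D.R ◁ D.vel p j ≫ μ[D.R])
  obtain ⟨o⟩ := Q.exists_out q δ hC H hj hp
  let _ := o.mon
  have _ := o.comm
  have _ := o.hom
  let c : CutIn Q (Q.P ⊗ C) :=
    { i := (Q.stepQIn q δ hC H).i
      surj := Q.surj_cof q δ hC H
      ker := fun n m h x hx => exists_of_comp_eq_zero _ q δ hC h x hx
      van := comp_inrM_q _ q δ hC
      odd := Q.odd_cof q δ hC H
      desc := fun N _ _ g _ hN hv h2 => o.desc N g hv (fun f => hN.h1 _ f) fun f => h2 _ f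
      uniq := fun N _ f f' hf hf' hN h => o.uniq N f f' hf hf' h fun f => hN.h1 _ f }
  exact c.exists_next H hp hj

/-- **`MU / (p, v_1, …, v_{n-1})` as a commutative monoid, for every `n ≥ 1`, `p` odd.** -/
theorem exists_PD (H : MUUniv e D) {p : ℕ} [Fact p.Prime] (hp : p ≠ 2) :
    ∀ {n : ℕ}, n ≠ 0 → Nonempty (PD D p n)
  | 0, h => absurd rfl h
  | 1, _ => exists_PD_base D hp
  | j + 2, _ => by
    obtain ⟨Q⟩ := exists_PD H hp (Nat.succ_ne_zero j)
    exact exists_PD_succ H hp (Nat.succ_ne_zero j) Q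

end Vale.Agent.P251.X
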