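import Vale.Agent.P251.X.VDefs

/-!
# P251, part X: the functional on `π_{2*}(P ⊗ R)` given by a point of `P` and a map `R ⟶ P`

`Pt.phi c u : MP E P R →+ ZMod p`, `c` a point of `P`, `u : R ⟶ P` a morphism of monoids: the
composite of `π_{2*}(P ⊗ R) ⟶ π_{2*} P` (the product with `u`) and of `χ`. It is `χ`-linear and
multiplicative.
-/

open CategoryTheory MonoidalCategory Limits Pretriangulated MonObj

set_option linter.unusedSectionVars false

universe v u

noncomputable section

namespace Vale.Agent.P251.X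

open Vale.Agent.P251.T Vale.Agent.P251.M Vale.Agent.P251.M.EvenSpheres Vale.Agent.P251.S

section prod

variable {T : Type u} [Category.{v} T] [MonoidalCategory T] [SymmetricCategory T] {P : T}
  [MonObj P] {R : T}

/-- the product `P ⊗ R ⟶ P` defined by `u : R ⟶ P` -/
def prodWith (u : R ⟶ P) : P ⊗ R ⟶ P := P ◁ u ≫ μ[P]

/-- the product with `u` is compatible with the products of `P ⊗ R` and `P` -/
theorem ten_prodWith [IsCommMonObj P] [MonObj R] (u : R ⟶ P) [IsMonHom u] :
    FM.ten P R R ≫ P ◁ μ[R] ≫ prodWith u = (prodWith u ⊗ₘ prodWith u) ≫ μ[P] := by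
  have h1 : (P ◁ u ⊗ₘ P ◁ u) ≫ tensorμ P P P P = tensorμ P R P R ≫ (P ⊗ P) ◁ (u ⊗ₘ u) := by
    have := tensorμ_natural (𝟙 P) u (𝟙 P) u
    simpa using this
  have h2 : (μ[P] ⊗ₘ μ[P]) ≫ μ[P] = tensorμ P P P P ≫ (μ[P] ⊗ₘ μ[P]) ≫ μ[P] :=
    (MonObj.mul_mul_mul_comm P).symm
  unfold prodWith FM.ten
  rw [← tensorHom_comp_tensorHom, Category.assoc, Category.assoc, h2, reassoc_of% h1]
  congr 1
  rw [← MonoidalCategory.whiskerLeft_comp_assoc, IsMonHom.mul_hom (f := u),
    MonoidalCategory.whiskerLeft_comp_assoc, tensorHom_def (μ[P]) (μ[P]), Category.assoc,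
    ← whisker_exchange_assoc, ← whisker_exchange_assoc]

theorem unit_prodWith (u : R ⟶ P) : FM.unit P R ≫ prodWith u = u := by
  unfold FM.unit prodWith
  rw [Category.assoc, ← whisker_exchange_assoc, MonObj.one_mul, leftUnitor_naturality,
    Iso.inv_hom_id_assoc]

theorem isLinear_prodWith (u : R ⟶ P) :
    (ModStr.free P R).IsLinear (ModStr.self P) (prodWith u) := by
  change ((α_ P P R).inv ≫ (μ[P] ▷ R)) ≫ P ◁ u ≫ μ[P] = P ◁ (P ◁ u ≫ μ[P]) ≫ μ[P]
  rw [Category.assoc, ← whisker_exchange_assoc, MonoidalCategory.whiskerLeft_comp, Category.assoc,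
    MonObj.mul_assoc_flip, associator_inv_naturality_right_assoc]

end prod

section phi

variable {T : Type u} [Category.{v} T] [Preadditive T] [MonoidalCategory T]
  [MonoidalPreadditive T] [SymmetricCategory T] {E : EvenSpheres T} {P : T} [MonObj P]
  [IsCommMonObj P] {R : T} [MonObj R] {p N : ℕ} (c : Pt E P p N)

/-- The functional in the degree `j`. -/
def Pt.phiD (u : R ⟶ P) (j : ℤ) : (E.S j ⟶ P ⊗ R) →+ ZMod p :=
  (c.χ.toAddMonoidHom.comp (DirectSum.of (E.Gr P) j)).comp
    ((preadditiveYoneda.map (prodWith u)).app (Opposite.op (E.S j))).hom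

/-- The functional. -/
def Pt.phi (u : R ⟶ P) : MP E P R →+ ZMod p := MP.lift (c.phiD u)

theorem Pt.phi_of (u : R ⟶ P) (j : ℤ) (x : E.S j ⟶ P ⊗ R) :
    c.phi u (MP.of E P R j x) = c.χ (HRing.of E P j (x ≫ prodWith u)) := by
  exact MP.lift_of (c.phiD u) j x

theorem Pt.phi_of_not (u : R ⟶ P) {j : ℤ} (hj : ¬ (N : ℤ) ∣ j) (x : E.S j ⟶ P ⊗ R) :
    c.phi u (MP.of E P R j x) = 0 := by
  rw [c.phi_of, c.χ_of j hj]

theorem Pt.phi_smul (u : R ⟶ P) (a : HRing E P) (x : MP E P R) :
    c.phi u (a • x) = c.χ a * c.phi u x := by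
  induction a using DirectSum.induction_on with
  | zero => rw [zero_smul, map_zero, map_zero, zero_mul]
  | of i a =>
    induction x using MP.ind with
    | zero => rw [smul_zero, map_zero, mul_zero]
    | of j x =>
      change c.phi u (HRing.of E P i a • MP.of E P R j x) =
        c.χ (HRing.of E P i a) * c.phi u (MP.of E P R j x)
      rw [MP.smul_of (k := i + j) rfl, c.phi_of, c.phi_of, ← map_mul, of_mul_of (p := i + j) rfl,
        ← gsmul_comp _ _ (isLinear_prodWith u)]
      rfl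
    | add x y hx hy => rw [smul_add, map_add, map_add, hx, hy, mul_add]
  | add a b ha hb => rw [add_smul, map_add, map_add, ha, hb, add_mul]

theorem Pt.phi_mem (u : R ⟶ P) {x : MP E P R}
    (hx : x ∈ c.I • (⊤ : Submodule (HRing E P) (MP E P R))) : c.phi u x = 0 := by
  induction hx using Submodule.smul_induction_on' with
  | smul a ha m _ => rw [c.phi_smul, c.mem_I.1 ha, zero_mul]
  | add x _ y _ hx hy => rw [map_add, hx, hy, add_zero]

/-- the unit -/
theorem Pt.phi_one (u : R ⟶ P) [IsMonHom u] :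
    c.phi u (MP.map E P η[R] (MP.of E P (𝟙_ T) 0 (E.zero.inv ≫ FM.unit P (𝟙_ T)))) = 1 := by
  rw [MP.map_of, c.phi_of, Category.assoc, Category.assoc, ← FM.unit_naturality_assoc,
    unit_prodWith, IsMonHom.one_hom]
  exact map_one c.χ

/-- the product -/
theorem Pt.phi_mul (u : R ⟶ P) [IsMonHom u] {i j k : ℤ} (h : i + j = k) (x : E.S i ⟶ P ⊗ R)
    (y : E.S j ⟶ P ⊗ R) :
    c.phi u (MP.map E P μ[R] (MP.of E P (R ⊗ R) k (E.ext h x y ≫ FM.ten P R R))) =
      c.phi u (MP.of E P R i x) * c.phi u (MP.of E P R j y) := by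
  rw [MP.map_of, c.phi_of, c.phi_of, c.phi_of, Category.assoc, Category.assoc, ten_prodWith,
    ← map_mul, of_mul_of h]
  unfold gmul
  rw [ext_comp, Category.assoc]

/-- the values on the classes which come from `R` -/
theorem Pt.phi_unit (u : R ⟶ P) {j : ℤ} (x : E.S j ⟶ R) :
    c.phi u (MP.map E P x (MP.of E P (E.S j) j (FM.unit P (E.S j)))) =
      c.χ (HRing.of E P j (x ≫ u)) := by
  rw [MP.map_of, c.phi_of, ← FM.unit_naturality, Category.assoc, unit_prodWith]

end phi

end Vale.Agent.P251.X
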