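import Mathlib.CategoryTheory.Monoidal.CommMon_

/-!
# P251, part X: the representing object of a lax symmetric monoidal presheaf

`LaxPre T`: a presheaf on a symmetric monoidal category with external products;
`Rep P K`: a representation of `P`; then `K` is a commutative monoid, and the monoid maps `A ⟶ K`
are the multiplicative elements of `P.D A`.
-/

open CategoryTheory MonoidalCategory MonObj

universe w v u

noncomputable section

namespace Vale.Agent.P251.X

/-- A presheaf of sets with external products. -/
structure LaxPre (T : Type u) [Category.{v} T] [MonoidalCategory T] [SymmetricCategory T] where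
  /-- the values -/
  D : T → Type w
  /-- the restriction maps -/
  pull {X Y : T} (f : X ⟶ Y) : D Y → D X
  pull_id {X : T} (x : D X) : pull (𝟙 X) x = x
  pull_comp {X Y Z : T} (f : X ⟶ Y) (g : Y ⟶ Z) (z : D Z) : pull (f ≫ g) z = pull f (pull g z)
  /-- the external product -/
  cross {X Y : T} : D X → D Y → D (X ⊗ Y)
  /-- the unit -/
  one : D (𝟙_ T)
  cross_pull {X X' Y Y' : T} (f : X ⟶ X') (g : Y ⟶ Y') (x : D X') (y : D Y') :
    cross (pull f x) (pull g y) = pull (f ⊗ₘ g) (cross x y)
  cross_assoc {X Y Z : T} (x : D X) (y : D Y) (z : D Z) :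
    pull (α_ X Y Z).hom (cross x (cross y z)) = cross (cross x y) z
  one_cross {X : T} (x : D X) : pull (λ_ X).hom x = cross one x
  cross_comm {X Y : T} (x : D X) (y : D Y) : pull (β_ X Y).hom (cross y x) = cross x y

namespace LaxPre

variable {T : Type u} [Category.{v} T] [MonoidalCategory T] [SymmetricCategory T]
  (P : LaxPre.{w} T)

theorem cross_one {X : T} (x : P.D X) : P.pull (ρ_ X).hom x = P.cross x P.one := by
  rw [← P.cross_comm, ← P.one_cross, ← P.pull_comp]
  congr 1
  rw [braiding_leftUnitor]

/-- A representation of `P` by `K`. -/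
structure Rep (K : T) where
  /-- the universal element -/
  u : P.D K
  bij (X : T) : Function.Bijective fun f : X ⟶ K => P.pull f u

namespace Rep

variable {P} {K : T} (r : P.Rep K)

/-- the map defined by an element -/
def hom {X : T} (x : P.D X) : X ⟶ K := ((r.bij X).2 x).choose

@[simp] theorem pull_hom {X : T} (x : P.D X) : P.pull (r.hom x) r.u = x :=
  ((r.bij X).2 x).choose_spec

include r in
theorem ext {X : T} {f g : X ⟶ K} (h : P.pull f r.u = P.pull g r.u) : f = g := (r.bij X).1 h

@[simp] theorem hom_pull {X : T} (f : X ⟶ K) : r.hom (P.pull f r.u) = f :=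
  r.ext (r.pull_hom _)

theorem comp_hom {X Y : T} (f : X ⟶ Y) (y : P.D Y) : f ≫ r.hom y = r.hom (P.pull f y) := by
  apply r.ext
  rw [P.pull_comp, r.pull_hom, r.pull_hom]

/-- the unit -/
def one : 𝟙_ T ⟶ K := r.hom P.one

/-- the product -/
def mul : K ⊗ K ⟶ K := r.hom (P.cross r.u r.u)

theorem pull_tensor_mul {X Y : T} (f : X ⟶ K) (g : Y ⟶ K) :
    P.pull ((f ⊗ₘ g) ≫ r.mul) r.u = P.cross (P.pull f r.u) (P.pull g r.u) := by
  rw [P.pull_comp, mul, r.pull_hom, P.cross_pull]

theorem pull_one : P.pull r.one r.u = P.one := r.pull_hom _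

/-- The structure of monoid. -/
@[reducible] def monObj : MonObj K where
  one := r.one
  mul := r.mul
  one_mul := by
    apply r.ext
    have h := r.pull_tensor_mul r.one (𝟙 K)
    rw [tensorHom_id, r.pull_one, P.pull_id, ← P.one_cross] at h
    exact h
  mul_one := by
    apply r.ext
    have h := r.pull_tensor_mul (𝟙 K) r.one
    rw [id_tensorHom, r.pull_one, P.pull_id, ← P.cross_one] at h
    exact h
  mul_assoc := by
    apply r.ext
    have h1 := r.pull_tensor_mul r.mul (𝟙 K)
    have h2 := r.pull_tensor_mul (𝟙 K) r.mul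
    have h3 : P.pull r.mul r.u = P.cross r.u r.u := r.pull_hom _
    rw [tensorHom_id, P.pull_id, h3] at h1
    rw [id_tensorHom, P.pull_id, h3] at h2
    rw [h1, P.pull_comp, h2, P.cross_assoc]

/-- The monoid is commutative. -/
theorem isCommMonObj : @IsCommMonObj T _ _ _ K r.monObj := by
  let _ := r.monObj
  constructor
  apply r.ext
  have h3 : P.pull r.mul r.u = P.cross r.u r.u := r.pull_hom _
  rw [P.pull_comp]
  change P.pull (β_ K K).hom (P.pull r.mul r.u) = P.pull r.mul r.u
  rw [h3, P.cross_comm]

/-- **Universal property**: monoid maps `A ⟶ K` are the multiplicative elements. -/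
theorem isMonHom_iff {A : T} [MonObj A] (f : A ⟶ K) :
    @IsMonHom T _ _ A K _ r.monObj f ↔
      P.pull η[A] (P.pull f r.u) = P.one ∧
        P.pull μ[A] (P.pull f r.u) = P.cross (P.pull f r.u) (P.pull f r.u) := by
  let _ := r.monObj
  constructor
  · intro h
    constructor
    · rw [← P.pull_comp, h.one_hom]
      exact r.pull_one
    · rw [← P.pull_comp, h.mul_hom]
      exact r.pull_tensor_mul f f
  · rintro ⟨h1, h2⟩
    refine ⟨?_, ?_⟩
    · apply r.ext
      rw [P.pull_comp, h1]
      exact r.pull_one.symm
    · apply r.ext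
      rw [P.pull_comp, h2]
      exact (r.pull_tensor_mul f f).symm

end Rep

end LaxPre

end Vale.Agent.P251.X
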