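import Vale.Agent.P251.X.Defs

/-!
# P251, part X (X2b): retracts of free modules

`RetD D C E` : an object `E` which is a retract of the free module `D ⊗ C` through a linear
idempotent `bind t`, `t : C ⟶ D ⊗ C`.  Then `E` is a `D`-module, and linear maps out of `E` are
determined on `C`.
-/

open CategoryTheory MonoidalCategory MonObj

set_option linter.unusedSectionVars false

universe v u

namespace Vale.Agent.P251.X

open Vale.Agent.P251.M Vale.Agent.P251.S

variable {T : Type u} [Category.{v} T] [MonoidalCategory T]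

section lin

variable {D : T} [MonObj D]

theorem IsLinear.comp {N N' N'' : T} {M : ModStr D N} {M' : ModStr D N'} {M'' : ModStr D N''}
    {f : N ⟶ N'} {g : N' ⟶ N''} (hf : M.IsLinear M' f) (hg : M'.IsLinear M'' g) :
    M.IsLinear M'' (f ≫ g) := by
  unfold ModStr.IsLinear at *
  rw [← Category.assoc, hf, Category.assoc, hg, MonoidalCategory.whiskerLeft_comp,
    Category.assoc]

/-- the action on a free module -/
def fact (D : T) [MonObj D] (C : T) : D ⊗ (D ⊗ C) ⟶ D ⊗ C := (α_ D D C).inv ≫ μ[D] ▷ C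

theorem bind_eq {Y Z : T} (g : Y ⟶ D ⊗ Z) : FM.bind g = D ◁ g ≫ fact D Z := rfl

theorem free_act (C : T) : (ModStr.free D C).act = fact D C := rfl

@[reassoc]
theorem fact_bind {Y Z : T} (g : Y ⟶ D ⊗ Z) :
    fact D Y ≫ FM.bind g = D ◁ FM.bind g ≫ fact D Z := by
  have h := FM.bind_bind (𝟙 (D ⊗ Y)) g
  have h1 : FM.bind (𝟙 (D ⊗ Y)) = fact D Y := by
    rw [bind_eq, whiskerLeft_id, Category.id_comp]
  rw [h1, Category.id_comp] at h
  exact h

theorem bind_linear {Y Z : T} (g : Y ⟶ D ⊗ Z) :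
    (ModStr.free D Y).IsLinear (ModStr.free D Z) (FM.bind g) := fact_bind g

theorem whisker_linear {Y Z : T} (g : Y ⟶ Z) :
    (ModStr.free D Y).IsLinear (ModStr.free D Z) (D ◁ g) := by
  rw [← FM.bind_comp_unit (R := D) g]
  exact bind_linear _

/-- a linear map out of a free module is determined by its restriction to the generators -/
theorem linear_free {Y N : T} {M : ModStr D N} {f : D ⊗ Y ⟶ N}
    (hf : (ModStr.free D Y).IsLinear M f) : f = D ◁ (FM.unit D Y ≫ f) ≫ M.act := by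
  have h : (D ◁ FM.unit D Y) ≫ fact D Y = 𝟙 _ := FM.bind_unit (R := D) Y
  rw [MonoidalCategory.whiskerLeft_comp, Category.assoc, ← hf, free_act, ← Category.assoc, h,
    Category.id_comp]

theorem linear_free_ext {Y N : T} {M : ModStr D N} {f g : D ⊗ Y ⟶ N}
    (hf : (ModStr.free D Y).IsLinear M f) (hg : (ModStr.free D Y).IsLinear M g)
    (h : FM.unit D Y ≫ f = FM.unit D Y ≫ g) : f = g := by
  rw [linear_free hf, linear_free hg, h]

/-- `(f g) h = f (g h)` in a free module -/
theorem fact_assoc {X Y W C : T} (f : X ⟶ D) (g : Y ⟶ D) (h : W ⟶ D ⊗ C) :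
    (((f ⊗ₘ g) ≫ μ[D]) ⊗ₘ h) ≫ fact D C =
      (α_ X Y W).hom ≫ (f ⊗ₘ ((g ⊗ₘ h) ≫ fact D C)) ≫ fact D C := by
  have h1 := (ModStr.free D C).mul_act
  rw [free_act] at h1
  have h2 : (((f ⊗ₘ g) ≫ μ[D]) ⊗ₘ h) = ((f ⊗ₘ g) ⊗ₘ h) ≫ (μ[D] ▷ (D ⊗ C)) := by
    rw [← tensorHom_id, tensorHom_comp_tensorHom, Category.comp_id]
  have h3 : (f ⊗ₘ ((g ⊗ₘ h) ≫ fact D C)) = (f ⊗ₘ (g ⊗ₘ h)) ≫ (D ◁ fact D C) := by
    rw [← id_tensorHom, tensorHom_comp_tensorHom, Category.comp_id]
  rw [h2, h3, Category.assoc, h1, Category.assoc, ← associator_naturality_assoc]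

end lin

/-- A retract of a free module through a linear idempotent. -/
structure RetD (D : T) [MonObj D] (C E : T) where
  /-- the inclusion -/
  s : E ⟶ D ⊗ C
  /-- the retraction -/
  r : D ⊗ C ⟶ E
  /-- the idempotent on the generators -/
  t : C ⟶ D ⊗ C
  sr : s ≫ r = 𝟙 E
  rs : r ≫ s = FM.bind t

namespace RetD

variable {D : T} [MonObj D] {C E : T} (e : RetD D C E)

/-- The module structure. -/
def mod : ModStr D E where
  act := D ◁ e.s ≫ fact D C ≫ e.r
  one_act := by
    have h := (ModStr.free D C).one_act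
    rw [free_act] at h
    rw [← whisker_exchange_assoc, reassoc_of% h, leftUnitor_naturality_assoc, e.sr,
      Category.comp_id]
  mul_act := by
    have h := (ModStr.free D C).mul_act
    rw [free_act] at h
    rw [← whisker_exchange_assoc, reassoc_of% h]
    have h1 : D ◁ (D ◁ e.s ≫ fact D C ≫ e.r) ≫ D ◁ e.s ≫ fact D C ≫ e.r =
        D ◁ D ◁ e.s ≫ D ◁ fact D C ≫ fact D C ≫ e.r := by
      have h2 : fact D C ≫ FM.bind e.t = D ◁ FM.bind e.t ≫ fact D C := fact_bind e.t
      have h3 : FM.bind e.t ≫ e.r = e.r := by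
        rw [← e.rs, Category.assoc, e.sr, Category.comp_id]
      rw [← MonoidalCategory.whiskerLeft_comp_assoc]
      have h4 : (D ◁ e.s ≫ fact D C ≫ e.r) ≫ e.s = D ◁ e.s ≫ fact D C ≫ FM.bind e.t := by
        rw [Category.assoc, Category.assoc, e.rs]
      rw [h4]
      simp only [MonoidalCategory.whiskerLeft_comp, Category.assoc]
      rw [← reassoc_of% h2, h3]
    rw [h1]
    monoidal

theorem s_lin : e.mod.IsLinear (ModStr.free D C) e.s := by
  have h2 : fact D C ≫ FM.bind e.t = D ◁ FM.bind e.t ≫ fact D C := fact_bind e.t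
  change (D ◁ e.s ≫ fact D C ≫ e.r) ≫ e.s = D ◁ e.s ≫ fact D C
  rw [Category.assoc, Category.assoc, e.rs, h2, ← MonoidalCategory.whiskerLeft_comp_assoc,
    ← e.rs, reassoc_of% e.sr]

theorem r_lin : (ModStr.free D C).IsLinear e.mod e.r := by
  have h2 : fact D C ≫ FM.bind e.t = D ◁ FM.bind e.t ≫ fact D C := fact_bind e.t
  change fact D C ≫ e.r = D ◁ e.r ≫ D ◁ e.s ≫ fact D C ≫ e.r
  rw [← MonoidalCategory.whiskerLeft_comp_assoc, e.rs, ← reassoc_of% h2, ← e.rs, Category.assoc,
    e.sr, Category.comp_id]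

/-- linear maps out of `E` are the linear maps `f` for which `r ≫ f` is linear -/
theorem lin_of {N : T} {M : ModStr D N} {f : E ⟶ N}
    (h : (ModStr.free D C).IsLinear M (e.r ≫ f)) : e.mod.IsLinear M f := by
  have h1 : f = e.s ≫ (e.r ≫ f) := by rw [← Category.assoc, e.sr, Category.id_comp]
  rw [h1]
  exact IsLinear.comp e.s_lin h

theorem lin_ext {N : T} {M : ModStr D N} {f g : E ⟶ N} (hf : e.mod.IsLinear M f)
    (hg : e.mod.IsLinear M g) (h : FM.unit D C ≫ e.r ≫ f = FM.unit D C ≫ e.r ≫ g) : f = g := by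
  have h1 : e.r ≫ f = e.r ≫ g :=
    linear_free_ext (IsLinear.comp e.r_lin hf) (IsLinear.comp e.r_lin hg) h
  calc f = e.s ≫ e.r ≫ f := by rw [← Category.assoc, e.sr, Category.id_comp]
    _ = e.s ≫ e.r ≫ g := by rw [h1]
    _ = g := by rw [← Category.assoc, e.sr, Category.id_comp]

end RetD

end Vale.Agent.P251.X
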