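import Vale.Agent.P251.X.RetMod
import Vale.Agent.P251.M.BaseCh
import Vale.Agent.P251.S.AmitsurCup
import Vale.Agent.P251.S.TensorShift
import Vale.Agent.P251.S.KosData

/-!
# P251, part X (X2b): the induction step

`P`, `R` commutative monoids, `v : Z ⟶ R`, `C` the cofibre of `v` on `R`.  Then `P ⊗ C` is
`(P ⊗ R) / v` with all the data of the quotient lemma.
-/

open CategoryTheory MonoidalCategory Limits Pretriangulated MonObj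

set_option linter.unusedSectionVars false

universe v u

namespace Vale.Agent.P251.X

open Vale.Agent.P251.T Vale.Agent.P251.M Vale.Agent.P251.S

section mon

variable {T : Type u} [Category.{v} T] [MonoidalCategory T] [SymmetricCategory T]
  {P R : T} [MonObj P] [MonObj R]

theorem inrM_eq_unit (P R : T) [MonObj P] [MonObj R] : inrM P R = FM.unit P R := rfl

/-- the action of `P` on the free `P ⊗ R`-module -/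
theorem inlM_fact {X C : T} (g : X ⟶ (P ⊗ R) ⊗ C) :
    (inlM P R ⊗ₘ g) ≫ fact (P ⊗ R) C ≫ (α_ P R C).hom =
      P ◁ (g ≫ (α_ P R C).hom) ≫ fact P (R ⊗ C) := by
  unfold fact
  have h1 : ((inlM P R) ▷ (P ⊗ R)) ≫ μ[P ⊗ R] = (α_ P P R).inv ≫ μ[P] ▷ R := inlM_mul_id
  rw [tensorHom_def']
  simp only [Category.assoc]
  rw [associator_inv_naturality_left_assoc, ← comp_whiskerRight_assoc, h1, comp_whiskerRight,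
    Category.assoc, associator_naturality_left, MonoidalCategory.whiskerLeft_comp]
  simp only [Category.assoc]
  congr 1
  rw [← Category.assoc, ← Category.assoc, ← Category.assoc (P ◁ (α_ P R C).hom)]
  congr 1
  monoidal

theorem inrM_mul_id (P R : T) [MonObj P] [MonObj R] :
    (P ⊗ R) ◁ inrM P R ≫ μ[P ⊗ R] = (α_ P R R).hom ≫ P ◁ μ[R] := by
  unfold inrM
  rw [tensorObj.mul_def, MonoidalCategory.whiskerLeft_comp, Category.assoc]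
  have h1 : ((P ⊗ R) ◁ (η[P] ▷ R)) ≫ tensorμ P R P R =
      tensorμ P R (𝟙_ T) R ≫ ((P ◁ η[P]) ▷ (R ⊗ R)) := by
    have := tensorμ_natural (𝟙 P) (𝟙 R) η[P] (𝟙 R)
    simpa using this
  rw [reassoc_of% h1]
  have h2 : ((P ◁ η[P]) ▷ (R ⊗ R)) ≫ (μ[P] ⊗ₘ μ[R]) = ((ρ_ P).hom ⊗ₘ μ[R]) := by
    rw [← tensorHom_id, tensorHom_comp_tensorHom, Category.id_comp, MonObj.mul_one]
  rw [h2]
  have h3 : ((P ⊗ R) ◁ (λ_ R).inv) ≫ tensorμ P R (𝟙_ T) R ≫ ((ρ_ P).hom ▷ (R ⊗ R)) =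
      (α_ P R R).hom := by
    unfold tensorμ
    rw [braiding_tensorUnit_right]
    monoidal
  rw [tensorHom_def, reassoc_of% h3]

/-- the action of `P ⊗ R` on `P ⊗ R ⊗ W`, restricted to `R` -/
theorem inrM_fact (P R W : T) [MonObj P] [MonObj R] :
    (P ⊗ R) ◁ (inrM P R ▷ W) ≫ fact (P ⊗ R) W =
      (α_ P R (R ⊗ W)).hom ≫ P ◁ fact R W ≫ (α_ P R W).inv := by
  have h1 := inrM_mul_id P R
  unfold fact
  rw [associator_inv_naturality_middle_assoc, ← comp_whiskerRight, h1]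
  monoidal

end mon

section step

variable {T : Type u} [Category.{v} T] [Preadditive T] [HasZeroObject T] [HasShift T ℤ]
  [∀ n : ℤ, (shiftFunctor T n).Additive] [Pretriangulated T]
  [MonoidalCategory T] [SymmetricCategory T] [TensorTriangulated T]

theorem tr3 {A B C A' B' C' : T} {f : A ⟶ B} {g : B ⟶ C} {h : C ⟶ A⟦(1 : ℤ)⟧} {f' : A' ⟶ B'}
    {g' : B' ⟶ C'} {h' : C' ⟶ A'⟦(1 : ℤ)⟧} (hT : Triangle.mk f g h ∈ distTriang T)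
    (hT' : Triangle.mk f' g' h' ∈ distTriang T) (x : A ⟶ A') (y : B ⟶ B')
    (sq : f ≫ y = x ≫ f') : ∃ z : C ⟶ C', g ≫ z = y ≫ g' ∧ h ≫ x⟦(1 : ℤ)⟧' = z ≫ h' :=
  complete_distinguished_triangle_morphism _ _ hT hT' x y sq

/-- the connecting map `C ⟶ R ⊗ (Z ⊗ S¹)` -/
noncomputable def bdry {R Z C : T} (δ : C ⟶ (R ⊗ Z)⟦(1 : ℤ)⟧) :
    C ⟶ R ⊗ (Z ⊗ (𝟙_ T)⟦(1 : ℤ)⟧) :=
  δ ≫ (TensorTriangulated.e (R ⊗ Z)).inv ≫ (α_ R Z ((𝟙_ T)⟦(1 : ℤ)⟧)).hom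

theorem tensδ_bdry (Y : T) {R Z C : T} (δ : C ⟶ (R ⊗ Z)⟦(1 : ℤ)⟧) :
    tensδ Y δ = Y ◁ bdry δ ≫ Y ◁ (α_ R Z ((𝟙_ T)⟦(1 : ℤ)⟧)).inv ≫
      (α_ Y (R ⊗ Z) ((𝟙_ T)⟦(1 : ℤ)⟧)).inv ≫ (TensorTriangulated.e (Y ⊗ (R ⊗ Z))).hom := by
  unfold tensδ bdry
  simp only [MonoidalCategory.whiskerLeft_comp, Category.assoc,
    MonoidalCategory.whiskerLeft_hom_inv_assoc]

/-- a morphism of triangles on the connecting maps -/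
theorem bdry_comm {Y R Z C : T} {δ : C ⟶ (R ⊗ Z)⟦(1 : ℤ)⟧} {R' Z' C' : T}
    {δ' : C' ⟶ (R' ⊗ Z')⟦(1 : ℤ)⟧} (x : C' ⟶ Y ⊗ C) (y : R' ⊗ Z' ⟶ Y ⊗ (R ⊗ Z))
    (h : δ' ≫ y⟦(1 : ℤ)⟧' = x ≫ tensδ Y δ) :
    x ≫ Y ◁ bdry δ = bdry δ' ≫ (α_ R' Z' ((𝟙_ T)⟦(1 : ℤ)⟧)).inv ≫ y ▷ ((𝟙_ T)⟦(1 : ℤ)⟧) ≫
      (α_ Y (R ⊗ Z) ((𝟙_ T)⟦(1 : ℤ)⟧)).hom ≫ Y ◁ (α_ R Z ((𝟙_ T)⟦(1 : ℤ)⟧)).hom := by
  have h1 : δ' ≫ (TensorTriangulated.e (R' ⊗ Z')).inv ≫ y ▷ ((𝟙_ T)⟦(1 : ℤ)⟧) ≫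
      (TensorTriangulated.e (Y ⊗ (R ⊗ Z))).hom = x ≫ tensδ Y δ := by
    rw [← h, TensorTriangulated.e_naturality, Iso.inv_hom_id_assoc]
  rw [tensδ_bdry] at h1
  unfold bdry
  unfold bdry at h1
  simp only [Category.assoc, Iso.hom_inv_id_assoc]
  rw [← cancel_mono (Y ◁ (α_ R Z ((𝟙_ T)⟦(1 : ℤ)⟧)).inv),
    ← cancel_mono (α_ Y (R ⊗ Z) ((𝟙_ T)⟦(1 : ℤ)⟧)).inv,
    ← cancel_mono (TensorTriangulated.e (Y ⊗ (R ⊗ Z))).hom]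
  simp only [Category.assoc, MonoidalCategory.whiskerLeft_hom_inv_assoc, Iso.hom_inv_id_assoc]
  rw [h1]

theorem yex2 {A B C : T} {f : A ⟶ B} {g : B ⟶ C} {h : C ⟶ A⟦(1 : ℤ)⟧}
    (hT : Triangle.mk f g h ∈ distTriang T) {Y : T} (a : B ⟶ Y) (ha : f ≫ a = 0) :
    ∃ b : C ⟶ Y, a = g ≫ b := Triangle.yoneda_exact₂ _ hT a ha

theorem yex3 {A B C : T} {f : A ⟶ B} {g : B ⟶ C} {h : C ⟶ A⟦(1 : ℤ)⟧}
    (hT : Triangle.mk f g h ∈ distTriang T) {Y : T} (a : C ⟶ Y) (ha : g ≫ a = 0) :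
    ∃ b : A⟦(1 : ℤ)⟧ ⟶ Y, a = h ≫ b := Triangle.yoneda_exact₃ _ hT a ha

theorem yex4 {A B C : T} {f : A ⟶ B} {g : B ⟶ C} {h : C ⟶ A⟦(1 : ℤ)⟧}
    (hT : Triangle.mk f g h ∈ distTriang T) {Y : T} (a : A⟦(1 : ℤ)⟧ ⟶ Y) (ha : h ≫ a = 0) :
    ∃ b : B⟦(1 : ℤ)⟧ ⟶ Y, a = f⟦(1 : ℤ)⟧' ≫ b := by
  have h1 : ∃ b : B⟦(1 : ℤ)⟧ ⟶ Y, a = (-(f⟦(1 : ℤ)⟧')) ≫ b := Triangle.yoneda_exact₂ _
    (rot_of_distTriang _ (rot_of_distTriang _ hT)) a ha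
  obtain ⟨b, hb⟩ := h1
  refine ⟨-b, hb.trans ?_⟩
  rw [Preadditive.neg_comp, Preadditive.comp_neg]

/-- `A⟦1⟧ ⊗ X ≅ (A ⊗ X)⟦1⟧` -/
noncomputable def tensRIso (A X : T) : (A⟦(1 : ℤ)⟧) ⊗ X ≅ (A ⊗ X)⟦(1 : ℤ)⟧ :=
  β_ (A⟦(1 : ℤ)⟧) X ≪≫ (S.tensorShiftOne X).app A ≪≫ (shiftFunctor T (1 : ℤ)).mapIso (β_ X A)

theorem tensRδ_eq {C A : T} (δ : C ⟶ A⟦(1 : ℤ)⟧) (X : T) :
    tensRδ δ X = δ ▷ X ≫ (tensRIso A X).hom := by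
  unfold tensRδ tensδ tensRIso
  change _ = δ ▷ X ≫ (β_ (A⟦(1 : ℤ)⟧) X).hom ≫ (S.tensorShiftOne X).hom.app A ≫
    (β_ X A).hom⟦(1 : ℤ)⟧'
  rw [S.tensorShiftOne_hom_app, BraidedCategory.braiding_naturality_left_assoc]
  simp only [Category.assoc]

theorem tensRIso_naturality {A A' : T} (g : A ⟶ A') (X : T) :
    (g⟦(1 : ℤ)⟧') ▷ X ≫ (tensRIso A' X).hom = (tensRIso A X).hom ≫ (g ▷ X)⟦(1 : ℤ)⟧' := by
  have h1 : X ◁ (g⟦(1 : ℤ)⟧') ≫ (S.tensorShiftOne X).hom.app A' =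
      (S.tensorShiftOne X).hom.app A ≫ (X ◁ g)⟦(1 : ℤ)⟧' := (S.tensorShiftOne X).hom.naturality g
  unfold tensRIso
  change (g⟦(1 : ℤ)⟧') ▷ X ≫ (β_ (A'⟦(1 : ℤ)⟧) X).hom ≫ (S.tensorShiftOne X).hom.app A' ≫
    (β_ X A').hom⟦(1 : ℤ)⟧' = ((β_ (A⟦(1 : ℤ)⟧) X).hom ≫ (S.tensorShiftOne X).hom.app A ≫
    (β_ X A).hom⟦(1 : ℤ)⟧') ≫ _
  rw [BraidedCategory.braiding_naturality_left_assoc, reassoc_of% h1]
  simp only [Category.assoc]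
  rw [← Functor.map_comp, ← Functor.map_comp, BraidedCategory.braiding_naturality_right]

/-- exactness of `Hom(- ⊗ X, Y)` from a distinguished triangle -/
theorem homExact_of_dist {A B C A₀ A' B' : T} {f : A ⟶ B} {g : B ⟶ C} {h : C ⟶ A⟦(1 : ℤ)⟧}
    (hT : Triangle.mk f g h ∈ distTriang T) (x : A₀ ≅ A) (κ : A' ≅ A⟦(1 : ℤ)⟧)
    (κ' : B' ≅ B⟦(1 : ℤ)⟧) {f₀ : A₀ ⟶ B} (hf : x.hom ≫ f = f₀) {h₀ : C ⟶ A'}
    (hh : h₀ ≫ κ.hom = h) {k : A' ⟶ B'} (hk : κ.hom ≫ f⟦(1 : ℤ)⟧' = k ≫ κ'.hom) :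
    HomExact f₀ g h₀ k where
  zero := by
    have h1 : f ≫ g = 0 := comp_distTriang_mor_zero₁₂ _ hT
    rw [← hf, Category.assoc, h1, comp_zero]
  ext X Y a ha := by
    have h1 : f ▷ X ≫ a = 0 := by
      rw [← hf, comp_whiskerRight, Category.assoc] at ha
      rw [← cancel_epi (x.hom ▷ X), ha, comp_zero]
    exact Triangle.yoneda_exact₂ _ (tensR_dist X hT) a h1
  fac X Y a ha := by
    obtain ⟨b, hb⟩ := yex3 (tensR_dist X hT) a ha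
    refine ⟨κ.hom ▷ X ≫ (tensRIso A X).hom ≫ b, ?_⟩
    rw [← comp_whiskerRight_assoc, hh, ← Category.assoc, ← tensRδ_eq]
    exact hb
  inj X Y a ha := by
    have h1 : tensRδ h X ≫ (tensRIso A X).inv ≫ κ.inv ▷ X ≫ a = 0 := by
      rw [tensRδ_eq, Category.assoc, Iso.hom_inv_id_assoc, ← comp_whiskerRight_assoc, ← hh,
        Category.assoc, Iso.hom_inv_id, Category.comp_id, ha]
    obtain ⟨b, hb⟩ := yex4 (tensR_dist X hT) ((tensRIso A X).inv ≫ κ.inv ▷ X ≫ a) h1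
    have h2 : a = κ.hom ▷ X ≫ (tensRIso A X).hom ≫ ((f ▷ X)⟦(1 : ℤ)⟧') ≫ b := by
      rw [← hb, Iso.hom_inv_id_assoc, ← comp_whiskerRight_assoc, Iso.hom_inv_id,
        id_whiskerRight, Category.id_comp]
    refine ⟨κ'.hom ▷ X ≫ (tensRIso B X).hom ≫ b, ?_⟩
    rw [← reassoc_of% (tensRIso_naturality f X), ← comp_whiskerRight_assoc, hk,
      comp_whiskerRight_assoc] at h2
    exact h2

/-- The input of the induction step. -/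
structure StepD (P R Z C : T) [MonObj P] [MonObj R] where
  /-- the element -/
  v : Z ⟶ R
  /-- the projection -/
  q : R ⟶ C
  /-- the connecting map -/
  δ : C ⟶ (R ⊗ Z)⟦(1 : ℤ)⟧
  dist : Triangle.mk (R ◁ v ≫ μ[R]) q δ ∈ distTriang T
  inv : v ≫ inrM P R ≫ inlM (P ⊗ R) R = v ≫ inrM (P ⊗ R) R
  V1 (f : (R ⊗ Z)⟦(1 : ℤ)⟧ ⟶ P ⊗ C) : f = 0
  V2 (f : (R ⊗ (R ⊗ Z))⟦(1 : ℤ)⟧ ⟶ (P ⊗ R) ⊗ C) : f = 0

namespace StepD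

variable {P R Z C : T} [MonObj P] [MonObj R] (d : StepD P R Z C)

theorem dist_ext {Y : T} (hY : ∀ f : (R ⊗ Z)⟦(1 : ℤ)⟧ ⟶ Y, f = 0) (f g : C ⟶ Y)
    (h : d.q ≫ f = d.q ≫ g) : f = g := by
  have h1 : d.q ≫ (f - g) = 0 := by rw [Preadditive.comp_sub, h, sub_self]
  obtain ⟨b, hb⟩ := Triangle.yoneda_exact₃ _ d.dist (f - g) h1
  have h2 : f - g = 0 := by
    rw [hb]
    change d.δ ≫ b = 0
    rw [hY b, comp_zero]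
  exact sub_eq_zero.1 h2

theorem dist_ext₂ {Y : T} (hY : ∀ f : (R ⊗ (R ⊗ Z))⟦(1 : ℤ)⟧ ⟶ Y, f = 0) (f g : R ⊗ C ⟶ Y)
    (h : R ◁ d.q ≫ f = R ◁ d.q ≫ g) : f = g := by
  have h1 : R ◁ d.q ≫ (f - g) = 0 := by rw [Preadditive.comp_sub, h, sub_self]
  obtain ⟨b, hb⟩ := Triangle.yoneda_exact₃ _ (tens_dist R d.dist) (f - g) h1
  have h2 : f - g = 0 := by
    rw [hb]
    change tensδ R d.δ ≫ b = 0
    rw [hY b, comp_zero]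
  exact sub_eq_zero.1 h2

/-- the action of `R` on `C` -/
theorem exists_a [IsCommMonObj R] : ∃ a : R ⊗ C ⟶ C, R ◁ d.q ≫ a = μ[R] ≫ d.q ∧
    a ≫ bdry d.δ = R ◁ bdry d.δ ≫ fact R (Z ⊗ (𝟙_ T)⟦(1 : ℤ)⟧) := by
  have hsq : R ◁ (R ◁ d.v ≫ μ[R]) ≫ μ[R] =
      ((α_ R R Z).inv ≫ μ[R] ▷ Z) ≫ (R ◁ d.v ≫ μ[R]) := by
    rw [MonoidalCategory.whiskerLeft_comp, Category.assoc, Category.assoc,
      ← whisker_exchange_assoc, MonObj.mul_assoc]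
    simp
  obtain ⟨a, ha1, ha2⟩ := tr3 (tens_dist R d.dist) d.dist
    ((α_ R R Z).inv ≫ μ[R] ▷ Z) μ[R] hsq
  refine ⟨a, ha1, ?_⟩
  rw [tensδ_bdry] at ha2
  simp only [Category.assoc] at ha2
  rw [← TensorTriangulated.e_naturality] at ha2
  have h1 : a ≫ bdry d.δ = (a ≫ d.δ) ≫ (TensorTriangulated.e (R ⊗ Z)).inv ≫
      (α_ R Z ((𝟙_ T)⟦(1 : ℤ)⟧)).hom := by
    unfold bdry
    rw [Category.assoc]
  rw [h1, ← ha2]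
  unfold fact
  simp only [Category.assoc, Iso.hom_inv_id_assoc]
  congr 1
  monoidal

/-- the coaction -/
theorem exists_t [IsCommMonObj R] : ∃ t : C ⟶ (P ⊗ R) ⊗ C,
    d.q ≫ t = inrM P R ≫ inlM (P ⊗ R) R ≫ (P ⊗ R) ◁ d.q ∧
    t ≫ (P ⊗ R) ◁ bdry d.δ = bdry d.δ ≫ inrM P R ▷ (Z ⊗ (𝟙_ T)⟦(1 : ℤ)⟧) ≫
      (P ⊗ R) ◁ FM.unit R (Z ⊗ (𝟙_ T)⟦(1 : ℤ)⟧) := by
  have hv : (inrM P R ▷ Z ≫ (P ⊗ R) ◁ FM.unit R Z) ≫ (P ⊗ R) ◁ (R ◁ d.v ≫ μ[R]) =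
      (inrM P R ⊗ₘ d.v) := by
    rw [Category.assoc, ← MonoidalCategory.whiskerLeft_comp, ← FM.unit_naturality_assoc,
      ← inrM_eq_unit, inrM_mul, Category.comp_id, ← tensorHom_def]
  have hsq : (R ◁ d.v ≫ μ[R]) ≫ inrM P R ≫ inlM (P ⊗ R) R =
      (inrM P R ▷ Z ≫ (P ⊗ R) ◁ FM.unit R Z) ≫ (P ⊗ R) ◁ (R ◁ d.v ≫ μ[R]) := by
    rw [hv, Category.assoc, IsMonHom.mul_hom (inrM P R ≫ inlM (P ⊗ R) R)]
    have h1 : R ◁ d.v ≫ (inrM P R ≫ inlM (P ⊗ R) R ⊗ₘ inrM P R ≫ inlM (P ⊗ R) R) =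
        (inrM P R ⊗ₘ d.v) ≫ (inlM (P ⊗ R) R ⊗ₘ inrM (P ⊗ R) R) := by
      rw [← id_tensorHom, tensorHom_comp_tensorHom, tensorHom_comp_tensorHom, Category.id_comp,
        d.inv]
    rw [reassoc_of% h1, inlM_inrM_mul, Category.comp_id]
  obtain ⟨t, ht1, ht2⟩ := tr3 d.dist
    (tens_dist (P ⊗ R) d.dist) (inrM P R ▷ Z ≫ (P ⊗ R) ◁ FM.unit R Z)
    (inrM P R ≫ inlM (P ⊗ R) R) hsq
  refine ⟨t, ?_, ?_⟩
  · refine ht1.trans ?_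
    simp only [Category.assoc]
  · have h1 := bdry_comm t (inrM P R ▷ Z ≫ (P ⊗ R) ◁ FM.unit R Z) ht2
    rw [h1]
    congr 1
    unfold FM.unit
    monoidal

section ops

variable [IsCommMonObj R]

/-- the action of `R` on `C` -/
noncomputable def a : R ⊗ C ⟶ C := d.exists_a.choose

@[reassoc]
theorem q_a : R ◁ d.q ≫ d.a = μ[R] ≫ d.q := d.exists_a.choose_spec.1

@[reassoc]
theorem a_bdry : d.a ≫ bdry d.δ = R ◁ bdry d.δ ≫ fact R (Z ⊗ (𝟙_ T)⟦(1 : ℤ)⟧) :=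
  d.exists_a.choose_spec.2

/-- the coaction -/
noncomputable def t : C ⟶ (P ⊗ R) ⊗ C := d.exists_t.choose

@[reassoc]
theorem q_t : d.q ≫ d.t = inrM P R ≫ inlM (P ⊗ R) R ≫ (P ⊗ R) ◁ d.q := d.exists_t.choose_spec.1

@[reassoc]
theorem t_bdry : d.t ≫ (P ⊗ R) ◁ bdry d.δ = bdry d.δ ≫
    inrM P R ▷ (Z ⊗ (𝟙_ T)⟦(1 : ℤ)⟧) ≫ (P ⊗ R) ◁ FM.unit R (Z ⊗ (𝟙_ T)⟦(1 : ℤ)⟧) :=
  d.exists_t.choose_spec.2

/-- the retraction -/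
noncomputable def r : (P ⊗ R) ⊗ C ⟶ P ⊗ C := (α_ P R C).hom ≫ P ◁ d.a

/-- the section -/
noncomputable def s : P ⊗ C ⟶ (P ⊗ R) ⊗ C := (inlM P R ⊗ₘ d.t) ≫ fact (P ⊗ R) C

theorem unit_tensor_fac (P R : T) [MonObj P] [MonObj R] (C : T) :
    FM.unit (P ⊗ R) C ≫ (α_ P R C).hom = FM.unit R C ≫ FM.unit P (R ⊗ C) := by
  unfold FM.unit
  rw [one_tensor']
  monoidal

@[reassoc]
theorem unit_r : FM.unit (P ⊗ R) C ≫ d.r = FM.unit P C := by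
  apply d.dist_ext d.V1
  unfold r
  rw [← Category.assoc (FM.unit (P ⊗ R) C), unit_tensor_fac, Category.assoc,
    ← FM.unit_naturality, FM.unit_naturality_assoc, d.q_a_assoc, ← inrM_eq_unit, inrM_mul_assoc]

@[reassoc]
theorem t_r : d.t ≫ d.r = FM.unit P C := by
  apply d.dist_ext d.V1
  unfold r
  rw [d.q_t_assoc, associator_naturality_right_assoc, ← MonoidalCategory.whiskerLeft_comp, d.q_a,
    inlM_associator_assoc, ← MonoidalCategory.whiskerLeft_comp, inlM_mul_assoc, inrM_eq_unit,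
    ← FM.unit_naturality]

theorem tensor_fact {D X Y C' C'' : T} [MonObj D] (f : X ⟶ D) (g : Y ⟶ D ⊗ C') (h : C' ⟶ C'') :
    (f ⊗ₘ (g ≫ D ◁ h)) ≫ fact D C'' = (f ⊗ₘ g) ≫ fact D C' ≫ D ◁ h := by
  have h1 : fact D C' ≫ D ◁ h = D ◁ D ◁ h ≫ fact D C'' := whisker_linear h
  have h2 : (f ⊗ₘ (g ≫ D ◁ h)) = (f ⊗ₘ g) ≫ D ◁ D ◁ h := by
    rw [← id_tensorHom D (D ◁ h), tensorHom_comp_tensorHom, Category.comp_id]
  rw [h2, h1, Category.assoc]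

/-- the map of monoids `R ⟶ (P ⊗ R) ⊗ R` -/
theorem mul_lam : μ[R] ≫ inrM P R ≫ inlM (P ⊗ R) R =
    (inrM P R ⊗ₘ (inrM P R ≫ inlM (P ⊗ R) R)) ≫ fact (P ⊗ R) R := by
  rw [IsMonHom.mul_hom (inrM P R ≫ inlM (P ⊗ R) R)]
  unfold fact
  rw [← inlM_mul_id, ← tensorHom_id, tensorHom_comp_tensorHom_assoc, Category.comp_id]

@[reassoc]
theorem a_t : d.a ≫ d.t = (inrM P R ⊗ₘ d.t) ≫ fact (P ⊗ R) C := by
  apply d.dist_ext₂ d.V2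
  have h1 : R ◁ d.q ≫ (inrM P R ⊗ₘ d.t) ≫ fact (P ⊗ R) C =
      (inrM P R ⊗ₘ (inrM P R ≫ inlM (P ⊗ R) R)) ≫ fact (P ⊗ R) R ≫ (P ⊗ R) ◁ d.q := by
    rw [← id_tensorHom, tensorHom_comp_tensorHom_assoc, Category.id_comp, d.q_t,
      ← Category.assoc (inrM P R), tensor_fact]
  rw [d.q_a_assoc, d.q_t, h1, ← reassoc_of% (mul_lam (P := P) (R := R))]

theorem r_s : d.r ≫ d.s = FM.bind d.t := by
  unfold r s
  have h1 : P ◁ d.a ≫ (inlM P R ⊗ₘ d.t) = (inlM P R ⊗ₘ (inrM P R ⊗ₘ d.t) ≫ fact (P ⊗ R) C) := by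
    rw [← id_tensorHom, tensorHom_comp_tensorHom, Category.id_comp, d.a_t]
  rw [Category.assoc, reassoc_of% h1, ← fact_assoc, inlM_inrM_mul, id_tensorHom, bind_eq]

theorem s_r : d.s ≫ d.r = 𝟙 (P ⊗ C) := by
  have h1 : P ◁ (d.t ≫ (α_ P R C).hom) ≫ fact P (R ⊗ C) ≫ P ◁ d.a =
      P ◁ (d.t ≫ d.r) ≫ fact P C := by
    have h2 : fact P (R ⊗ C) ≫ P ◁ d.a = P ◁ P ◁ d.a ≫ fact P C := whisker_linear d.a
    rw [h2, ← MonoidalCategory.whiskerLeft_comp_assoc, Category.assoc]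
    rfl
  have h3 := inlM_fact (P := P) (R := R) d.t
  unfold s
  change ((inlM P R ⊗ₘ d.t) ≫ fact (P ⊗ R) C) ≫ (α_ P R C).hom ≫ P ◁ d.a = _
  rw [Category.assoc, reassoc_of% h3, h1, d.t_r]
  exact FM.bind_unit C

/-- `P ⊗ C` as a retract of the free module `(P ⊗ R) ⊗ C` -/
noncomputable def ret : RetD (P ⊗ R) C (P ⊗ C) where
  s := d.s
  r := d.r
  t := d.t
  sr := d.s_r
  rs := d.r_s

/-- the boundary, as an element -/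
noncomputable def bdr : C ⟶ (P ⊗ R) ⊗ (Z ⊗ (𝟙_ T)⟦(1 : ℤ)⟧) :=
  bdry d.δ ≫ inrM P R ▷ (Z ⊗ (𝟙_ T)⟦(1 : ℤ)⟧)

/-- the boundary -/
noncomputable def bd : P ⊗ C ⟶ (P ⊗ R) ⊗ (Z ⊗ (𝟙_ T)⟦(1 : ℤ)⟧) :=
  P ◁ bdry d.δ ≫ (α_ P R (Z ⊗ (𝟙_ T)⟦(1 : ℤ)⟧)).inv

theorem r_bd : d.r ≫ d.bd = FM.bind d.bdr := by
  unfold r bd bdr
  rw [bind_eq, MonoidalCategory.whiskerLeft_comp, Category.assoc, Category.assoc, inrM_fact,
    ← MonoidalCategory.whiskerLeft_comp_assoc, d.a_bdry, MonoidalCategory.whiskerLeft_comp]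
  simp only [Category.assoc]
  rw [← associator_naturality_right_assoc]

@[reassoc]
theorem unit_bd : FM.unit P C ≫ d.bd = d.bdr := by
  unfold bd bdr
  rw [← FM.unit_naturality_assoc]
  congr 1
  unfold FM.unit inrM
  monoidal

@[reassoc]
theorem t_bdr : d.t ≫ (P ⊗ R) ◁ d.bdr = d.bdr ≫
    (P ⊗ R) ◁ FM.unit (P ⊗ R) (Z ⊗ (𝟙_ T)⟦(1 : ℤ)⟧) := by
  unfold bdr
  rw [MonoidalCategory.whiskerLeft_comp, d.t_bdry_assoc, Category.assoc,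
    ← MonoidalCategory.whiskerLeft_comp]
  have h1 : FM.unit R (Z ⊗ (𝟙_ T)⟦(1 : ℤ)⟧) ≫ inrM P R ▷ (Z ⊗ (𝟙_ T)⟦(1 : ℤ)⟧) =
      FM.unit (P ⊗ R) (Z ⊗ (𝟙_ T)⟦(1 : ℤ)⟧) := by
    unfold FM.unit
    rw [Category.assoc, ← comp_whiskerRight, IsMonHom.one_hom]
  rw [h1]

@[reassoc]
theorem unit_s : FM.unit P C ≫ d.s = d.t := by
  rw [← d.unit_r, Category.assoc, d.r_s, FM.unit_bind]

/-- the projection from the unit -/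
theorem q_eq : P ◁ d.q = (ρ_ (P ⊗ R)).inv ≫ (P ⊗ R) ◁ (η[R] ≫ d.q) ≫ d.r := by
  unfold r
  rw [MonoidalCategory.whiskerLeft_comp, Category.assoc, associator_naturality_right_assoc,
    ← MonoidalCategory.whiskerLeft_comp, d.q_a, ← Category.assoc]
  change P ◁ d.q = inlM (P ⊗ R) R ≫ _
  rw [inlM_associator_assoc, ← MonoidalCategory.whiskerLeft_comp, inlM_mul_assoc]

theorem q_s : P ◁ d.q ≫ d.s = inlM (P ⊗ R) R ≫ (P ⊗ R) ◁ d.q := by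
  have h1 : (η[R] ≫ d.q) ≫ d.t = (η[R] ≫ d.q) ≫ FM.unit (P ⊗ R) C := by
    rw [Category.assoc, Category.assoc, FM.unit_naturality, d.q_t, ← inrM_eq_unit,
      ← Category.assoc, ← Category.assoc, ← Category.assoc]
    congr 1
    have h2 : η[R] ≫ inrM (P ⊗ R) R = η[(P ⊗ R) ⊗ R] := IsMonHom.one_hom _
    have h3 : η[R] ≫ inrM P R ≫ inlM (P ⊗ R) R = η[(P ⊗ R) ⊗ R] := IsMonHom.one_hom _
    rw [h2, Category.assoc, h3]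
  rw [d.q_eq, Category.assoc, Category.assoc, d.r_s, bind_eq,
    ← MonoidalCategory.whiskerLeft_comp_assoc, h1, MonoidalCategory.whiskerLeft_comp,
    Category.assoc, ← bind_eq, FM.bind_unit, Category.comp_id,
    MonoidalCategory.whiskerLeft_comp]
  unfold inlM
  simp only [Category.assoc]

/-- the coaction -/
noncomputable def psi : P ⊗ C ⟶ (P ⊗ R) ⊗ (P ⊗ C) := d.s ≫ (P ⊗ R) ◁ FM.unit P C

theorem psi_lin : d.ret.mod.IsLinear (ModStr.free (P ⊗ R) (P ⊗ C)) d.psi :=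
  IsLinear.comp d.ret.s_lin (whisker_linear _)

theorem psi_act : d.psi ≫ d.ret.mod.act = 𝟙 (P ⊗ C) := by
  change (d.s ≫ (P ⊗ R) ◁ FM.unit P C) ≫ (P ⊗ R) ◁ d.s ≫ fact (P ⊗ R) C ≫ d.r = _
  rw [Category.assoc, ← MonoidalCategory.whiskerLeft_comp_assoc, d.unit_s]
  have h1 : (P ⊗ R) ◁ d.t ≫ fact (P ⊗ R) C = d.r ≫ d.s := by
    rw [d.r_s, bind_eq]
  rw [reassoc_of% h1, d.s_r, Category.comp_id, d.s_r]

theorem i_lin : (ModStr.self (P ⊗ R)).IsLinear d.ret.mod (P ◁ d.q) := by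
  have h1 : (ModStr.self (P ⊗ R)).IsLinear (ModStr.free (P ⊗ R) (𝟙_ T)) (ρ_ (P ⊗ R)).inv := by
    change μ[P ⊗ R] ≫ (ρ_ (P ⊗ R)).inv = (P ⊗ R) ◁ (ρ_ (P ⊗ R)).inv ≫ fact (P ⊗ R) (𝟙_ T)
    unfold fact
    rw [rightUnitor_inv_naturality]
    monoidal
  rw [d.q_eq]
  exact IsLinear.comp h1 (IsLinear.comp (whisker_linear _) d.ret.r_lin)

theorem bd_lin : d.ret.mod.IsLinear (ModStr.free (P ⊗ R) (Z ⊗ (𝟙_ T)⟦(1 : ℤ)⟧)) d.bd := by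
  apply d.ret.lin_of
  change (ModStr.free (P ⊗ R) C).IsLinear _ (d.r ≫ d.bd)
  rw [d.r_bd]
  exact bind_linear _

theorem i_psi : P ◁ d.q ≫ d.psi = (ρ_ (P ⊗ R)).inv ≫ (P ⊗ R) ◁ (η[P ⊗ R] ≫ P ◁ d.q) := by
  unfold psi
  have h1 : η[P ⊗ R] ≫ P ◁ d.q = η[R] ≫ d.q ≫ FM.unit P C := by
    rw [FM.unit_naturality, ← inrM_eq_unit, ← Category.assoc η[R]]
    congr 1
    exact (IsMonHom.one_hom (inrM P R)).symm
  rw [← Category.assoc (P ◁ d.q), d.q_s, h1]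
  unfold inlM
  simp only [MonoidalCategory.whiskerLeft_comp, Category.assoc]

theorem psi_bd : d.psi ≫ (P ⊗ R) ◁ d.bd = d.bd ≫
    (P ⊗ R) ◁ FM.unit (P ⊗ R) (Z ⊗ (𝟙_ T)⟦(1 : ℤ)⟧) := by
  have h1 : d.ret.mod.IsLinear (ModStr.free (P ⊗ R) ((P ⊗ R) ⊗ (Z ⊗ (𝟙_ T)⟦(1 : ℤ)⟧)))
      (d.psi ≫ (P ⊗ R) ◁ d.bd) := IsLinear.comp d.psi_lin (whisker_linear _)
  have h2 : d.ret.mod.IsLinear (ModStr.free (P ⊗ R) ((P ⊗ R) ⊗ (Z ⊗ (𝟙_ T)⟦(1 : ℤ)⟧)))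
      (d.bd ≫ (P ⊗ R) ◁ FM.unit (P ⊗ R) (Z ⊗ (𝟙_ T)⟦(1 : ℤ)⟧)) :=
    IsLinear.comp d.bd_lin (whisker_linear _)
  apply d.ret.lin_ext h1 h2
  change FM.unit (P ⊗ R) C ≫ d.r ≫ (d.s ≫ (P ⊗ R) ◁ FM.unit P C) ≫ (P ⊗ R) ◁ d.bd =
    FM.unit (P ⊗ R) C ≫ d.r ≫ d.bd ≫ _
  rw [d.unit_r_assoc, d.unit_r_assoc, Category.assoc, d.unit_s_assoc,
    ← MonoidalCategory.whiskerLeft_comp, d.unit_bd, d.unit_bd_assoc, d.t_bdr]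

end ops

variable [IsCommMonObj P] [IsCommMonObj R]

theorem v_mul : (P ⊗ R) ◁ (d.v ≫ inrM P R) ≫ μ[P ⊗ R] =
    (α_ P R Z).hom ≫ P ◁ (R ◁ d.v ≫ μ[R]) := by
  rw [MonoidalCategory.whiskerLeft_comp, Category.assoc, inrM_mul_id]
  simp

/-- **The induction step.** `P ⊗ C = (P ⊗ R) / v`. -/
noncomputable def qin : QIn (P ⊗ R) (P ⊗ C) Z ((𝟙_ T)⟦(1 : ℤ)⟧) where
  v := d.v ≫ inrM P R
  inv := by
    have h1 := congrArg (fun f => f ≫ (P ⊗ R) ◁ inrM P R) d.inv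
    simp only [Category.assoc] at h1
    rw [inlM_whiskerLeft, inrM_whiskerLeft] at h1
    rw [Category.assoc, Category.assoc]
    exact h1
  M := d.ret.mod
  i := P ◁ d.q
  i_lin := d.i_lin
  δ := d.bd
  δ_lin := d.bd_lin
  exact := by
    refine homExact_of_dist (tens_dist P d.dist) (α_ P R Z)
      ((α_ (P ⊗ R) Z ((𝟙_ T)⟦(1 : ℤ)⟧)).symm ≪≫ whiskerRightIso (α_ P R Z) ((𝟙_ T)⟦(1 : ℤ)⟧) ≪≫
        TensorTriangulated.e (P ⊗ (R ⊗ Z))) (TensorTriangulated.e (P ⊗ R)) d.v_mul.symm ?_ ?_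
    · change d.bd ≫ (α_ (P ⊗ R) Z ((𝟙_ T)⟦(1 : ℤ)⟧)).inv ≫ (α_ P R Z).hom ▷ _ ≫
        (TensorTriangulated.e (P ⊗ (R ⊗ Z))).hom = _
      rw [tensδ_bdry]
      unfold bd
      simp only [Category.assoc]
      congr 1
      rw [← Category.assoc, ← Category.assoc, ← Category.assoc (P ◁ _)]
      congr 1
      monoidal
    · change ((α_ (P ⊗ R) Z ((𝟙_ T)⟦(1 : ℤ)⟧)).inv ≫ (α_ P R Z).hom ▷ _ ≫
        (TensorTriangulated.e (P ⊗ (R ⊗ Z))).hom) ≫ _ = _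
      simp only [Category.assoc]
      rw [← TensorTriangulated.e_naturality, ← comp_whiskerRight_assoc, ← d.v_mul]
      simp
  ψ := d.psi
  ψ_lin := d.psi_lin
  ψ_act := d.psi_act
  i_ψ := d.i_psi
  ψ_δ := d.psi_bd

end StepD

end step

end Vale.Agent.P251.X
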