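import Mathlib.CategoryTheory.Monoidal.Mon
import Mathlib.CategoryTheory.Monoidal.CommMon_

/-!
# P251, part X: commutative monoids from a universal property of the unit

If `e : 𝟙 ⟶ K` is such that maps `K ⊗ W ⟶ K` are the same as maps `𝟙 ⊗ W ⟶ K`, for `W = 𝟙`, `K`,
`K ⊗ K`, then `K` is a commutative monoid with unit `e`.
-/

open CategoryTheory MonoidalCategory

universe v u

namespace Vale.Agent.P251.X

variable {C : Type u} [Category.{v} C] [MonoidalCategory C] [SymmetricCategory C]

/-- Restriction along `e ▷ W` is bijective on maps to `K`. -/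
def Restr {K : C} (e : 𝟙_ C ⟶ K) (W : C) : Prop :=
  Function.Bijective (fun f : K ⊗ W ⟶ K => (e ▷ W) ≫ f)

theorem exists_commMon {K : C} (e : 𝟙_ C ⟶ K) (h0 : Restr e (𝟙_ C)) (h1 : Restr e K)
    (h2 : Restr e (K ⊗ K)) : ∃ (_ : MonObj K) (_ : IsCommMonObj K), MonObj.one (X := K) = e := by
  obtain ⟨m, hm⟩ := h1.2 (λ_ K).hom
  dsimp only at hm
  have hr : (K ◁ e) ≫ m = (ρ_ K).hom := by
    apply h0.1
    dsimp only
    rw [← whisker_exchange_assoc, hm, leftUnitor_naturality, rightUnitor_naturality,
      unitors_equal]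
  have hc : (β_ K K).hom ≫ m = m := by
    apply h1.1
    dsimp only
    rw [BraidedCategory.braiding_naturality_left_assoc, hr, hm, braiding_tensorUnit_left,
      Category.assoc, Iso.inv_hom_id, Category.comp_id]
  have ha : (α_ K K K).inv ≫ (m ▷ K) ≫ m = (K ◁ m) ≫ m := by
    apply h2.1
    dsimp only
    rw [← whisker_exchange_assoc, hm, leftUnitor_naturality,
      associator_inv_naturality_left_assoc, ← comp_whiskerRight_assoc, hm,
      ← leftUnitor_tensor_hom_assoc]
  let M : MonObj K :=
    { one := e, mul := m, one_mul := hm, mul_one := hr,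
      mul_assoc := by rw [← ha, Iso.hom_inv_id_assoc] }
  exact ⟨M, ⟨hc⟩, rfl⟩

end Vale.Agent.P251.X
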